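import Vale.Agent.P340.Syntax

/-!
# The algebra of renaming and substitution
-/

namespace Vale.Agent.P340

variable {S : Type}

@[simp] theorem upr_zero (ξ : ℕ → ℕ) : upr ξ 0 = 0 := rfl

@[simp] theorem upr_succ (ξ : ℕ → ℕ) (n : ℕ) : upr ξ (n + 1) = ξ n + 1 := rfl

@[simp] theorem upr_id : upr id = id := by
  funext n; cases n <;> rfl

theorem upr_comp (ξ ζ : ℕ → ℕ) : upr ζ ∘ upr ξ = upr (ζ ∘ ξ) := by
  funext n; cases n <;> rfl

@[simp] theorem upr_comp_succ (ξ : ℕ → ℕ) : upr ξ ∘ Nat.succ = Nat.succ ∘ ξ := rfl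

@[simp] theorem ups_zero (σ : ℕ → Tm S) : ups σ 0 = .var 0 := rfl

@[simp] theorem ups_succ (σ : ℕ → Tm S) (n : ℕ) : ups σ (n + 1) = (σ n).ren Nat.succ := rfl

@[simp] theorem sub0_zero (a : Tm S) : sub0 a 0 = a := rfl

@[simp] theorem sub0_succ (a : Tm S) (n : ℕ) : sub0 a (n + 1) = .var n := rfl

namespace Tm

@[simp] theorem ren_var (ξ : ℕ → ℕ) (n : ℕ) : (Tm.var n : Tm S).ren ξ = .var (ξ n) := rfl

@[simp] theorem ren_srt (ξ : ℕ → ℕ) (s : S) : (Tm.srt s).ren ξ = .srt s := rfl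

@[simp] theorem ren_pi (ξ : ℕ → ℕ) (A B : Tm S) :
    (Tm.pi A B).ren ξ = .pi (A.ren ξ) (B.ren (upr ξ)) := rfl

@[simp] theorem ren_lam (ξ : ℕ → ℕ) (A b : Tm S) :
    (Tm.lam A b).ren ξ = .lam (A.ren ξ) (b.ren (upr ξ)) := rfl

@[simp] theorem ren_app (ξ : ℕ → ℕ) (f a : Tm S) :
    (Tm.app f a).ren ξ = .app (f.ren ξ) (a.ren ξ) := rfl

@[simp] theorem sub_var (σ : ℕ → Tm S) (n : ℕ) : (Tm.var n).sub σ = σ n := rfl

@[simp] theorem sub_srt (σ : ℕ → Tm S) (s : S) : (Tm.srt s).sub σ = .srt s := rfl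

@[simp] theorem sub_pi (σ : ℕ → Tm S) (A B : Tm S) :
    (Tm.pi A B).sub σ = .pi (A.sub σ) (B.sub (ups σ)) := rfl

@[simp] theorem sub_lam (σ : ℕ → Tm S) (A b : Tm S) :
    (Tm.lam A b).sub σ = .lam (A.sub σ) (b.sub (ups σ)) := rfl

@[simp] theorem sub_app (σ : ℕ → Tm S) (f a : Tm S) :
    (Tm.app f a).sub σ = .app (f.sub σ) (a.sub σ) := rfl

@[simp] theorem ren_ren (M : Tm S) : ∀ ξ ζ : ℕ → ℕ, (M.ren ξ).ren ζ = M.ren (ζ ∘ ξ) := by
  induction M <;> intros <;> simp [upr_comp, *]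

@[simp] theorem ren_id (M : Tm S) : M.ren id = M := by
  induction M <;> simp [*]

@[simp] theorem ren_id' (M : Tm S) : M.ren (fun n => n) = M := ren_id M

theorem ren_congr (M : Tm S) {ξ ζ : ℕ → ℕ} (h : ∀ n, ξ n = ζ n) : M.ren ξ = M.ren ζ := by
  rw [funext h]

theorem sub_congr (M : Tm S) {σ τ : ℕ → Tm S} (h : ∀ n, σ n = τ n) : M.sub σ = M.sub τ := by
  rw [funext h]

end Tm

theorem ups_comp_upr (σ : ℕ → Tm S) (ξ : ℕ → ℕ) : ups σ ∘ upr ξ = ups (σ ∘ ξ) := by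
  funext n; cases n <;> rfl

theorem ren_comp_ups (σ : ℕ → Tm S) (ζ : ℕ → ℕ) :
    (fun n => (ups σ n).ren (upr ζ)) = ups (fun n => (σ n).ren ζ) := by
  funext n; cases n <;> simp

@[simp] theorem ups_var : ups (Tm.var : ℕ → Tm S) = Tm.var := by
  funext n; cases n <;> rfl

namespace Tm

@[simp] theorem sub_ren (M : Tm S) :
    ∀ (σ : ℕ → Tm S) (ξ : ℕ → ℕ), (M.ren ξ).sub σ = M.sub (σ ∘ ξ) := by
  induction M <;> intros <;> simp [ups_comp_upr, *]

theorem ren_sub (M : Tm S) :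
    ∀ (σ : ℕ → Tm S) (ζ : ℕ → ℕ), (M.sub σ).ren ζ = M.sub (fun n => (σ n).ren ζ) := by
  induction M <;> intros <;> simp [ren_comp_ups, *]

end Tm

theorem sub_comp_ups (σ τ : ℕ → Tm S) :
    (fun n => (ups σ n).sub (ups τ)) = ups (fun n => (σ n).sub τ) := by
  funext n
  cases n with
  | zero => rfl
  | succ n => simp [Tm.ren_sub, Function.comp_def]

namespace Tm

theorem sub_sub (M : Tm S) :
    ∀ σ τ : ℕ → Tm S, (M.sub σ).sub τ = M.sub (fun n => (σ n).sub τ) := by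
  induction M <;> intros <;> simp [sub_comp_ups, *]

@[simp] theorem sub_id (M : Tm S) : M.sub Tm.var = M := by
  induction M <;> simp [*]

@[simp] theorem sub_id' (M : Tm S) : M.sub (fun n => .var n) = M := sub_id M

theorem ren_eq_sub (M : Tm S) (ξ : ℕ → ℕ) : M.ren ξ = M.sub (fun n => .var (ξ n)) := by
  conv_lhs => rw [← M.sub_id, ren_sub]
  rfl

theorem ren_inst (b a : Tm S) (ξ : ℕ → ℕ) :
    (b.inst a).ren ξ = (b.ren (upr ξ)).inst (a.ren ξ) := by
  rw [inst, inst, ren_sub, sub_ren]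
  exact sub_congr b fun n => by cases n <;> rfl

theorem sub_inst (b a : Tm S) (σ : ℕ → Tm S) :
    (b.inst a).sub σ = (b.sub (ups σ)).inst (a.sub σ) := by
  rw [inst, inst, sub_sub, sub_sub]
  refine sub_congr b fun n => ?_
  cases n with
  | zero => rfl
  | succ n => simp [Function.comp_def]

@[simp] theorem inst_ren_succ (M a : Tm S) : (M.ren Nat.succ).inst a = M := by
  rw [inst, sub_ren]
  exact sub_id M

theorem ren_succ_ren (M : Tm S) (ξ : ℕ → ℕ) :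
    (M.ren Nat.succ).ren (upr ξ) = (M.ren ξ).ren Nat.succ := by
  simp

theorem ren_succ_sub (M : Tm S) (σ : ℕ → Tm S) :
    (M.ren Nat.succ).sub (ups σ) = (M.sub σ).ren Nat.succ := by
  rw [sub_ren, ren_sub]
  rfl

theorem ren_inj {ξ : ℕ → ℕ} (h : Function.Injective ξ) {M N : Tm S} (e : M.ren ξ = N.ren ξ) :
    M = N := by
  induction M generalizing ξ N with
  | var n => cases N <;> simp at e; exact congrArg _ (h e)
  | srt s => cases N <;> simp at e; exact congrArg _ e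
  | pi A B ihA ihB =>
    cases N <;> simp at e
    rw [ihA h e.1, ihB (fun m n hmn => ?_) e.2]
    cases m <;> cases n <;> simp at hmn ⊢
    exact h hmn
  | lam A B ihA ihB =>
    cases N <;> simp at e
    rw [ihA h e.1, ihB (fun m n hmn => ?_) e.2]
    cases m <;> cases n <;> simp at hmn ⊢
    exact h hmn
  | app f a ihf iha =>
    cases N <;> simp at e
    rw [ihf h e.1, iha h e.2]

end Tm

end Vale.Agent.P340
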