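import Vale.Agent.P340.Reduction

/-!
# Confluence of beta reduction, and first consequences
-/

namespace Vale.Agent.P340

open Relation

variable {S : Type}

/-- Parallel reduction. -/
inductive Par : Tm S → Tm S → Prop
  | var (n : ℕ) : Par (.var n) (.var n)
  | srt (s : S) : Par (.srt s) (.srt s)
  | pi {A A' B B'} : Par A A' → Par B B' → Par (.pi A B) (.pi A' B')
  | lam {A A' b b'} : Par A A' → Par b b' → Par (.lam A b) (.lam A' b')
  | app {f f' a a'} : Par f f' → Par a a' → Par (.app f a) (.app f' a')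
  | beta (A) {b b' a a'} : Par b b' → Par a a' → Par (.app (.lam A b) a) (b'.inst a')

variable {M M' N N' A A' B B' a a' b b' f f' : Tm S}

theorem Par.refl : ∀ M : Tm S, Par M M
  | .var n => .var n
  | .srt s => .srt s
  | .pi A B => .pi (Par.refl A) (Par.refl B)
  | .lam A b => .lam (Par.refl A) (Par.refl b)
  | .app f a => .app (Par.refl f) (Par.refl a)

theorem Step.par (h : Step M N) : Par M N := by
  induction h with
  | beta A b a => exact .beta A (.refl b) (.refl a)
  | piL B _ ih => exact .pi ih (.refl _)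
  | piR A _ ih => exact .pi (.refl _) ih
  | lamL b _ ih => exact .lam ih (.refl _)
  | lamR A _ ih => exact .lam (.refl _) ih
  | appL a _ ih => exact .app ih (.refl _)
  | appR f _ ih => exact .app (.refl _) ih

theorem Par.red (h : Par M N) : Red M N := by
  induction h with
  | var n => exact .refl
  | srt s => exact .refl
  | pi _ _ ihA ihB => exact Red.pi ihA ihB
  | lam _ _ ihA ihB => exact Red.lam ihA ihB
  | app _ _ ihA ihB => exact Red.app ihA ihB
  | beta A _ _ ihb iha =>
    exact (Red.app (Red.lam .refl ihb) iha).trans (.single (Step.beta _ _ _))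

theorem Par.ren (h : Par M N) : ∀ ξ : ℕ → ℕ, Par (M.ren ξ) (N.ren ξ) := by
  induction h with
  | var n => intro ξ; exact .var _
  | srt s => intro ξ; exact .srt _
  | pi _ _ ihA ihB => intro ξ; exact .pi (ihA _) (ihB _)
  | lam _ _ ihA ihB => intro ξ; exact .lam (ihA _) (ihB _)
  | app _ _ ihA ihB => intro ξ; exact .app (ihA _) (ihB _)
  | beta A _ _ ihb iha => intro ξ; rw [Tm.ren_inst]; exact .beta _ (ihb _) (iha _)

theorem par_ups {σ τ : ℕ → Tm S} (h : ∀ n, Par (σ n) (τ n)) : ∀ n, Par (ups σ n) (ups τ n)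
  | 0 => .var 0
  | n + 1 => (h n).ren _

theorem Par.sub (h : Par M N) : ∀ {σ τ : ℕ → Tm S}, (∀ n, Par (σ n) (τ n)) →
    Par (M.sub σ) (N.sub τ) := by
  induction h with
  | var n => intro σ τ hs; exact hs n
  | srt s => intro σ τ hs; exact .srt _
  | pi _ _ ihA ihB => intro σ τ hs; exact .pi (ihA hs) (ihB (par_ups hs))
  | lam _ _ ihA ihB => intro σ τ hs; exact .lam (ihA hs) (ihB (par_ups hs))
  | app _ _ ihA ihB => intro σ τ hs; exact .app (ihA hs) (ihB hs)
  | beta A _ _ ihb iha =>
    intro σ τ hs; rw [Tm.sub_inst]; exact .beta _ (ihb (par_ups hs)) (iha hs)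

theorem Par.inst (hb : Par b b') (ha : Par a a') : Par (b.inst a) (b'.inst a') :=
  hb.sub fun n => by cases n <;> [exact ha; exact .var _]

/-- Complete development. -/
def cd : Tm S → Tm S
  | .var n => .var n
  | .srt s => .srt s
  | .pi A B => .pi (cd A) (cd B)
  | .lam A b => .lam (cd A) (cd b)
  | .app (.lam _ b) a => (cd b).inst (cd a)
  | .app f a => .app (cd f) (cd a)

theorem cd_app_of_not_lam (h : ∀ A b, f ≠ Tm.lam A b) :
    cd (Tm.app f a) = .app (cd f) (cd a) := by
  cases f <;> simp_all [cd]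

theorem Par.triangle (h : Par M N) : Par N (cd M) := by
  induction h with
  | var n => exact .var n
  | srt s => exact .srt s
  | pi _ _ ihA ihB => exact .pi ihA ihB
  | lam _ _ ihA ihB => exact .lam ihA ihB
  | @app f f' a a' hf ha ihf iha =>
    by_cases hl : ∃ A b, f = Tm.lam A b
    · obtain ⟨A, b, rfl⟩ := hl
      cases hf with
      | lam _ _ =>
        cases ihf with
        | lam _ hb => exact .beta _ hb iha
    · rw [cd_app_of_not_lam (fun A b e => hl ⟨A, b, e⟩)]
      exact .app ihf iha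
  | beta A _ _ ihb iha => exact Par.inst ihb iha

theorem Red.par (h : Red M N) : ReflTransGen Par M N :=
  ReflTransGen.mono (fun _ _ h => h.par) _ _ h

theorem red_of_pars (h : ReflTransGen Par M N) : Red M N := by
  induction h with
  | refl => exact .refl
  | tail _ h ih => exact ih.trans h.red

theorem confluence {M N₁ N₂ : Tm S} (h₁ : Red M N₁) (h₂ : Red M N₂) :
    ∃ C, Red N₁ C ∧ Red N₂ C := by
  obtain ⟨C, hC₁, hC₂⟩ := Relation.church_rosser
    (fun a b c hab hac => ⟨cd a, .single hab.triangle, .single hac.triangle⟩) h₁.par h₂.par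
  exact ⟨C, red_of_pars hC₁, red_of_pars hC₂⟩

theorem bconv_join (h : BConv A B) : ∃ C, Red A C ∧ Red B C := by
  induction h with
  | rel x y h => exact ⟨y, .single h, .refl⟩
  | refl x => exact ⟨x, .refl, .refl⟩
  | symm x y _ ih => obtain ⟨C, h₁, h₂⟩ := ih; exact ⟨C, h₂, h₁⟩
  | trans x y z _ _ ih₁ ih₂ =>
    obtain ⟨C, h₁, h₂⟩ := ih₁
    obtain ⟨D, h₃, h₄⟩ := ih₂
    obtain ⟨E, h₅, h₆⟩ := confluence h₂ h₃
    exact ⟨E, h₁.trans h₅, h₄.trans h₆⟩

/-! ## Reduction from given shapes -/

theorem red_var {n : ℕ} (h : Red (Tm.var n) N) : N = .var n := by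
  induction h with
  | refl => rfl
  | tail _ h ih => subst ih; cases h

theorem red_srt {s : S} (h : Red (Tm.srt s) N) : N = .srt s := by
  induction h with
  | refl => rfl
  | tail _ h ih => subst ih; cases h

theorem red_pi (h : Red (Tm.pi A B) N) :
    ∃ A' B', N = .pi A' B' ∧ Red A A' ∧ Red B B' := by
  induction h with
  | refl => exact ⟨A, B, rfl, .refl, .refl⟩
  | tail _ h ih =>
    obtain ⟨A', B', rfl, hA, hB⟩ := ih
    cases h with
    | piL _ h => exact ⟨_, _, rfl, hA.tail h, hB⟩
    | piR _ h => exact ⟨_, _, rfl, hA, hB.tail h⟩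

theorem red_lam (h : Red (Tm.lam A b) N) :
    ∃ A' b', N = .lam A' b' ∧ Red A A' ∧ Red b b' := by
  induction h with
  | refl => exact ⟨A, b, rfl, .refl, .refl⟩
  | tail _ h ih =>
    obtain ⟨A', b', rfl, hA, hb⟩ := ih
    cases h with
    | lamL _ h => exact ⟨_, _, rfl, hA.tail h, hb⟩
    | lamR _ h => exact ⟨_, _, rfl, hA, hb.tail h⟩

theorem bconv_srt_inj {s t : S} (h : BConv (Tm.srt s) (.srt t)) : s = t := by
  obtain ⟨C, h₁, h₂⟩ := bconv_join h
  have := (red_srt h₁).symm.trans (red_srt h₂)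
  exact Tm.srt.inj this

theorem bconv_pi_inj (h : BConv (Tm.pi A B) (.pi A' B')) : BConv A A' ∧ BConv B B' := by
  obtain ⟨C, h₁, h₂⟩ := bconv_join h
  obtain ⟨A₁, B₁, rfl, hA₁, hB₁⟩ := red_pi h₁
  obtain ⟨A₂, B₂, e, hA₂, hB₂⟩ := red_pi h₂
  obtain ⟨rfl, rfl⟩ := Tm.pi.inj e
  exact ⟨hA₁.bconv.trans hA₂.bconv.symm, hB₁.bconv.trans hB₂.bconv.symm⟩

theorem not_bconv_srt_pi {s : S} : ¬ BConv (Tm.srt s) (.pi A B) := fun h => by
  obtain ⟨C, h₁, h₂⟩ := bconv_join h
  obtain ⟨A', B', rfl, -, -⟩ := red_pi h₂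
  simpa using red_srt h₁

theorem not_bconv_pi_srt {s : S} : ¬ BConv (Tm.pi A B) (.srt s) :=
  fun h => not_bconv_srt_pi h.symm

theorem not_bconv_srt_var {s : S} {n : ℕ} : ¬ BConv (Tm.srt s) (.var n) := fun h => by
  obtain ⟨C, h₁, h₂⟩ := bconv_join h
  simpa using (red_var h₂).symm.trans (red_srt h₁)

theorem red_of_bconv_srt {s : S} (h : BConv M (.srt s)) : Red M (.srt s) := by
  obtain ⟨C, h₁, h₂⟩ := bconv_join h
  rwa [red_srt h₂] at h₁

theorem red_pi_of_bconv (h : BConv M (.pi A B)) :
    ∃ A' B', Red M (.pi A' B') ∧ BConv A A' ∧ BConv B B' := by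
  obtain ⟨C, h₁, h₂⟩ := bconv_join h
  obtain ⟨A', B', rfl, hA, hB⟩ := red_pi h₂
  exact ⟨A', B', h₁, hA.bconv, hB.bconv⟩

/-! ## Normal forms -/

theorem IsNormal.red_eq (hM : IsNormal M) (h : Red M N) : N = M := by
  rcases h.cases_head with rfl | ⟨K, hK, -⟩
  · rfl
  · exact (hM K hK).elim

theorem red_normal_unique (h₁ : Red M N) (n₁ : IsNormal N) (h₂ : Red M N') (n₂ : IsNormal N') :
    N = N' := by
  obtain ⟨C, hC₁, hC₂⟩ := confluence h₁ h₂
  exact (n₁.red_eq hC₁).symm.trans (n₂.red_eq hC₂)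

theorem red_of_bconv_normal (h : BConv M N) (hN : IsNormal N) : Red M N := by
  obtain ⟨C, h₁, h₂⟩ := bconv_join h
  rwa [hN.red_eq h₂] at h₁

/-! ## Strong normalisation -/

theorem StronglyNormal.step (h : StronglyNormal M) (hs : Step M N) : StronglyNormal N :=
  h.inv hs

theorem StronglyNormal.red (h : StronglyNormal M) (hs : Red M N) : StronglyNormal N := by
  induction hs with
  | refl => exact h
  | tail _ hs ih => exact ih.step hs

theorem StronglyNormal.of_map {F : Tm S → Tm S} (hF : ∀ x y, Step x y → Step (F x) (F y))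
    (h : StronglyNormal (F M)) : StronglyNormal M := by
  generalize e : F M = K at h
  induction h generalizing M with
  | intro K _ ih => exact Acc.intro _ fun N hN => ih (F N) (e ▸ hF _ _ hN) rfl

theorem StronglyNormal.pi_dom (h : StronglyNormal (Tm.pi A B)) : StronglyNormal A :=
  StronglyNormal.of_map (F := fun x => Tm.pi x B) (fun _ _ h => Step.piL B h) h

theorem StronglyNormal.pi_cod (h : StronglyNormal (Tm.pi A B)) : StronglyNormal B :=
  StronglyNormal.of_map (F := fun x => Tm.pi A x) (fun _ _ h => Step.piR A h) h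

theorem StronglyNormal.lam_dom (h : StronglyNormal (Tm.lam A b)) : StronglyNormal A :=
  StronglyNormal.of_map (F := fun x => Tm.lam x b) (fun _ _ h => Step.lamL b h) h

theorem StronglyNormal.lam_body (h : StronglyNormal (Tm.lam A b)) : StronglyNormal b :=
  StronglyNormal.of_map (F := fun x => Tm.lam A x) (fun _ _ h => Step.lamR A h) h

theorem StronglyNormal.app_fun (h : StronglyNormal (Tm.app f a)) : StronglyNormal f :=
  StronglyNormal.of_map (F := fun x => Tm.app x a) (fun _ _ h => Step.appL a h) h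

theorem StronglyNormal.app_arg (h : StronglyNormal (Tm.app f a)) : StronglyNormal a :=
  StronglyNormal.of_map (F := fun x => Tm.app f x) (fun _ _ h => Step.appR f h) h

theorem stronglyNormal_var (n : ℕ) : StronglyNormal (Tm.var n : Tm S) :=
  Acc.intro _ fun N hN => by cases hN

theorem stronglyNormal_srt (s : S) : StronglyNormal (Tm.srt s) :=
  Acc.intro _ fun N hN => by cases hN

theorem stronglyNormal_pi (hA : StronglyNormal A) :
    StronglyNormal B → StronglyNormal (Tm.pi A B) := by
  induction hA generalizing B with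
  | intro A hA₀ ihA =>
    intro hB
    induction hB with
    | intro B hB₀ ihB =>
      refine Acc.intro _ fun N hN => ?_
      cases hN with
      | piL _ h => exact ihA _ h (Acc.intro B hB₀)
      | piR _ h => exact ihB _ h

theorem stronglyNormal_lam (hA : StronglyNormal A) :
    StronglyNormal b → StronglyNormal (Tm.lam A b) := by
  induction hA generalizing b with
  | intro A hA₀ ihA =>
    intro hb
    induction hb with
    | intro b hb₀ ihb =>
      refine Acc.intro _ fun N hN => ?_
      cases hN with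
      | lamL _ h => exact ihA _ h (Acc.intro b hb₀)
      | lamR _ h => exact ihb _ h

end Vale.Agent.P340
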