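import Vale.Agent.P340.Untyped

/-!
# The one-level translation on skeletons

`Ev u k t`: `t` is a translation of `u` with continuation `k`, up to inserted keepers.
`Th u t`: `t` is a translation of `u` as a thunk. `Run u t`: `t` runs a translation at the
answer type and injects the result.
-/

namespace Vale.Agent.P340

mutual

/-- `t` is a translation of `u` with continuation `k`, up to keepers. -/
inductive Ev : U → U → U → Prop
  | var (n : ℕ) (k : U) : Ev (.var n) k (.app (.var n) k)
  | cst (k : U) : Ev .cst k (.app k .cst)
  | lam {b t} (k : U) : Ev (b.ren Nat.succ) (.var 0) t →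
      Ev (.lam b) k (.app k (.lam (.lam (.app (.app (.tapp .cst) t) (.var 1)))))
  | tlam {b t} (k : U) : Ev (b.ren Nat.succ) (.var 0) t →
      Ev (.tlam b) k (.app k (.tlam (.lam t)))
  | app {f a v k t} : Th (a.ren Nat.succ) v →
      Ev f (.lam (.app (.app (.var 0) v) (k.ren Nat.succ))) t → Ev (.app f a) k t
  | tapp {f k t} : Ev f (.lam (.app (.tapp (.var 0)) (k.ren Nat.succ))) t → Ev (.tapp f) k t
  | upi {a b a' b'} (k : U) : Run a a' → Run b b' → Ev (.upi a b) k (.app k (.upi a' b'))
  | upiC {b b'} (k : U) : Run b b' → Ev (.upi .cst b) k (.app k (.upi .cst b'))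
  | keep {u k t} (e : U) : Ev u k t → Ev u k (.app (.app (.tapp .cst) t) e)

/-- `t` is a thunk for `u`. -/
inductive Th : U → U → Prop
  | var (n : ℕ) : Th (.var n) (.var n)
  | lam {u t} : Ev (u.ren Nat.succ) (.var 0) t → Th u (.lam t)

/-- `t` runs `u` at the answer type; the constant stands for any injection. -/
inductive Run : U → U → Prop
  | mk {u v} : Th u v → Run u (.app .cst (.app v (.lam (.app .cst (.var 0)))))

end

end Vale.Agent.P340
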