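import Vale.Agent.P340.Spec
import Vale.Agent.P340.Cps

/-!
# The statements to be supplied by the untyped part
-/

namespace Vale.Agent.P340

/-- Conservation: a keeping skeleton with a normal form is strongly normal. -/
def Conservation : Prop :=
  ∀ u v : U, u.Keeping → Relation.ReflTransGen UStep u v → v.Normal → u.SN

/-- A skeleton is strongly normal if one of its thunks is keeping and has a normal form. -/
def Simulation : Prop :=
  ∀ u t v : U, u.Proper → Th u t → t.Keeping → Relation.ReflTransGen UStep t v → v.Normal → u.SN

/-- Simply typed skeletons are strongly normal. -/
def ShapedSN : Prop :=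
  ∀ (G : ℕ → Shape) (u : U) (σ : Shape), UTy G u σ → u.SN

end Vale.Agent.P340
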