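import Vale.Agent.P340.Standard
import Vale.Agent.P340.Interfaces

/-!
# Conservation for keeping skeletons

A keeping skeleton with a normal form is strongly normal: follow a standard reduction to the
normal form; at every head step of a keeping skeleton strong normality passes backwards.
-/

namespace Vale.Agent.P340

open Relation

variable {t t' s f g a v : U}

/-- No head step is possible. -/
def U.Stuck (t : U) : Prop := ∀ s, ¬ Hd t s

/-- The constructor of a skeleton. -/
def U.tag : U → ℕ
  | .var _ => 0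
  | .cst => 1
  | .lam _ => 2
  | .tlam _ => 3
  | .app _ _ => 4
  | .tapp _ => 5
  | .upi _ _ => 6

theorem stuck_app (hf : f.Stuck) (h2 : f.tag ≠ 2) (a : U) : (U.app f a).Stuck := by
  intro s hs
  cases hs with
  | beta b _ => exact h2 rfl
  | appL _ h => exact hf _ h

theorem stuck_tapp (hf : f.Stuck) (h3 : f.tag ≠ 3) : (U.tapp f).Stuck := by
  intro s hs
  cases hs with
  | tbeta b => exact h3 rfl
  | tapp h => exact hf _ h

theorem stuck_app_inv (h : (U.app f a).Stuck) : f.Stuck ∧ f.tag ≠ 2 :=
  ⟨fun _ hs => h _ (.appL a hs), by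
    intro e
    cases f with
    | lam b => exact h _ (.beta b a)
    | _ => simp [U.tag] at e⟩

theorem stuck_tapp_inv (h : (U.tapp f).Stuck) : f.Stuck ∧ f.tag ≠ 3 :=
  ⟨fun _ hs => h _ (.tapp hs), by
    intro e
    cases f with
    | tlam b => exact h _ (.tbeta b)
    | _ => simp [U.tag] at e⟩

theorem UStep.stuck (h : UStep t t') : t.Stuck → t'.Stuck ∧ t'.tag = t.tag := by
  induction h with
  | beta b a => intro hs; exact (hs _ (.beta b a)).elim
  | tbeta b => intro hs; exact (hs _ (.tbeta b)).elim
  | lam _ _ => intro _; exact ⟨fun s hs => (by cases hs), rfl⟩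
  | tlam _ _ => intro _; exact ⟨fun s hs => (by cases hs), rfl⟩
  | appL a _ ih =>
    intro hs
    obtain ⟨hf, h2⟩ := stuck_app_inv hs
    obtain ⟨hf', e⟩ := ih hf
    exact ⟨stuck_app hf' (e ▸ h2) a, rfl⟩
  | appR f _ _ =>
    intro hs
    obtain ⟨hf, h2⟩ := stuck_app_inv hs
    exact ⟨stuck_app hf h2 _, rfl⟩
  | tapp _ ih =>
    intro hs
    obtain ⟨hf, h3⟩ := stuck_tapp_inv hs
    obtain ⟨hf', e⟩ := ih hf
    exact ⟨stuck_tapp hf' (e ▸ h3), rfl⟩
  | upiL b _ _ => intro _; exact ⟨fun s hs => (by cases hs), rfl⟩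
  | upiR a _ _ => intro _; exact ⟨fun s hs => (by cases hs), rfl⟩

theorem U.sn_lam (h : t.SN) : (U.lam t).SN := by
  induction h with
  | intro t _ ih => exact U.SN.intro fun v hv => by cases hv with | lam h => exact ih _ h

theorem U.sn_tlam (h : t.SN) : (U.tlam t).SN := by
  induction h with
  | intro t _ ih => exact U.SN.intro fun v hv => by cases hv with | tlam h => exact ih _ h

theorem sn_app_of_stuck (hf : f.SN) : f.Stuck → f.tag ≠ 2 → ∀ {a}, a.SN → (U.app f a).SN := by
  induction hf with
  | intro f hf₀ ihf =>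
    intro hs h2 a ha
    induction ha with
    | intro a ha₀ iha =>
      refine U.SN.intro fun v hv => ?_
      cases hv with
      | beta b _ => exact (h2 rfl).elim
      | appL _ h => exact ihf _ h (h.stuck hs).1 ((h.stuck hs).2 ▸ h2) (Acc.intro a ha₀)
      | appR _ h => exact iha _ h

theorem sn_tapp_of_stuck (hf : f.SN) : f.Stuck → f.tag ≠ 3 → (U.tapp f).SN := by
  induction hf with
  | intro f _ ihf =>
    intro hs h3
    refine U.SN.intro fun v hv => ?_
    cases hv with
    | tbeta b => exact (h3 rfl).elim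
    | tapp h => exact ihf _ h (h.stuck hs).1 ((h.stuck hs).2 ▸ h3)

theorem Hd.diamond (h : Hd t t') : t.Keeping → ∀ {s}, UStep t s →
    s = t' ∨ ∃ s', Hd s s' ∧ UPlus t' s' := by
  induction h with
  | beta b a =>
    intro hk s hs
    cases hs with
    | beta _ _ => exact .inl rfl
    | appL _ hs =>
      cases hs with
      | lam hb => exact .inr ⟨_, .beta _ a, .single (hb.sub _)⟩
    | appR _ ha =>
      refine .inr ⟨_, .beta b _, UPlus.subst b (m := 0) (fun n => ?_) ?_ hk.1.1⟩
      · cases n with
        | zero => exact .single ha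
        | succ n => exact .refl
      · exact .single ha
  | tbeta b =>
    intro _ s hs
    cases hs with
    | tbeta _ => exact .inl rfl
    | tapp hs =>
      cases hs with
      | tlam hb => exact .inr ⟨_, .tbeta _, .single (hb.sub _)⟩
  | @appL f f' a h ih =>
    intro hk s hs
    cases hs with
    | beta b _ => cases h
    | appL _ hs =>
      rcases ih hk.1 hs with rfl | ⟨g, hg, hp⟩
      · exact .inl rfl
      · exact .inr ⟨_, hg.appL a, hp.appL a⟩
    | appR _ ha => exact .inr ⟨_, h.appL _, .single (.appR f' ha)⟩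
  | @tapp f f' h ih =>
    intro hk s hs
    cases hs with
    | tbeta b => cases h
    | tapp hs =>
      rcases ih hk hs with rfl | ⟨g, hg, hp⟩
      · exact .inl rfl
      · exact .inr ⟨_, hg.tapp, hp.tapp⟩

theorem sn_of_hd (h : t'.SN) : ∀ {t}, t.Keeping → Hd t t' → t.SN := by
  have h' := Acc.transGen h
  induction h' with
  | intro t' _ ih =>
    intro t hk hd
    refine U.SN.intro fun s hs => ?_
    rcases hd.diamond hk hs with rfl | ⟨s', hs', hp⟩
    · exact h
    · refine ih s' (Relation.transGen_swap.2 hp) ?_ (hs.keeping hk) hs'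
      clear ih hs' hd
      induction hp with
      | single h1 => exact h.step h1
      | tail _ h1 ih1 => exact ih1.step h1

theorem sn_of_hred (h : HRed t t') (h' : t'.SN) : t.Keeping → t.SN := by
  induction h using ReflTransGen.head_induction_on with
  | refl => exact fun _ => h'
  | head h1 _ ih => exact fun hk => sn_of_hd (ih (h1.ustep.keeping hk)) hk h1

theorem Standard.sn (h : Standard t v) : v.Normal → t.Keeping →
    t.SN ∧ ∃ u, HRed t u ∧ u.Stuck ∧ u.tag = v.tag := by
  induction h with
  | var n g =>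
    intro _ hk
    exact ⟨sn_of_hred g (U.sn_var n) hk, _, g, fun s hs => (by cases hs), rfl⟩
  | cst g =>
    intro _ hk
    exact ⟨sn_of_hred g U.sn_cst hk, _, g, fun s hs => (by cases hs), rfl⟩
  | lam g _ ih =>
    intro hv hk
    obtain ⟨hb, -⟩ := ih (fun w hw => hv _ (.lam hw)) (g.ured.keeping hk).2
    exact ⟨sn_of_hred g (U.sn_lam hb) hk, _, g, fun s hs => (by cases hs), rfl⟩
  | tlam g _ ih =>
    intro hv hk
    obtain ⟨hb, -⟩ := ih (fun w hw => hv _ (.tlam hw)) (g.ured.keeping hk)
    exact ⟨sn_of_hred g (U.sn_tlam hb) hk, _, g, fun s hs => (by cases hs), rfl⟩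
  | @app t f a f' a' g _ _ ihf iha =>
    intro hv hk
    have hfa := g.ured.keeping hk
    obtain ⟨hf, u, gu, hu, hutag⟩ := ihf (fun w hw => hv _ (.appL _ hw)) hfa.1
    obtain ⟨ha, -⟩ := iha (fun w hw => hv _ (.appR _ hw)) hfa.2
    have h2 : u.tag ≠ 2 := by
      rw [hutag]
      intro e
      cases f' with
      | lam b => exact hv _ (.beta b a')
      | _ => simp [U.tag] at e
    have huSN : u.SN := by
      clear hutag h2 hu
      induction gu with
      | refl => exact hf
      | tail _ h1 ih1 => exact ih1.step h1.ustep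
    have g' := g.trans (gu.appL a)
    exact ⟨sn_of_hred g' (sn_app_of_stuck huSN hu h2 ha) hk, _, g', stuck_app hu h2 a, rfl⟩
  | @tapp t f f' g _ ih =>
    intro hv hk
    obtain ⟨hf, u, gu, hu, hutag⟩ := ih (fun w hw => hv _ (.tapp hw)) (g.ured.keeping hk)
    have h3 : u.tag ≠ 3 := by
      rw [hutag]
      intro e
      cases f' with
      | tlam b => exact hv _ (.tbeta b)
      | _ => simp [U.tag] at e
    have huSN : u.SN := by
      clear hutag h3 hu
      induction gu with
      | refl => exact hf
      | tail _ h1 ih1 => exact ih1.step h1.ustep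
    have g' := g.trans gu.tapp
    exact ⟨sn_of_hred g' (sn_tapp_of_stuck huSN hu h3) hk, _, g', stuck_tapp hu h3, rfl⟩
  | upi g _ _ iha ihb =>
    intro hv hk
    have hab := g.ured.keeping hk
    obtain ⟨ha, -⟩ := iha (fun w hw => hv _ (.upiL _ hw)) hab.1
    obtain ⟨hb, -⟩ := ihb (fun w hw => hv _ (.upiR _ hw)) hab.2
    exact ⟨sn_of_hred g (U.sn_upi ha hb) hk, _, g, fun s hs => (by cases hs), rfl⟩

/-- A keeping skeleton with a normal form is strongly normal. -/
theorem conservation : Conservation :=
  fun _ _ hk hred hn => ((Standard.of_red hred).sn hn hk).1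

end Vale.Agent.P340
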