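import Vale.Agent.P340.CpsTgt

/-!
# The base context of the translation at one class

The answer type of a colour with an axiom is a variable of that sort, the answer type of any
other colour is a sort below it; all other constants are variables.
-/

namespace Vale.Agent.P340

variable {S : Type} {P : Spec S} {D : HData S} {m : ℕ} {Δ : List (Tm S)}

theorem Rens.trans {Δ₁ Δ₂ Δ₃ : List (Tm S)} {κ ι : ℕ → ℕ} (h : Rens κ Δ₁ Δ₂)
    (h' : Rens ι Δ₂ Δ₃) : Rens (ι ∘ κ) Δ₁ Δ₃ := by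
  intro n A hA
  simpa using h' _ _ (h n A hA)

/-- Finitely many sorted types can be declared. -/
theorem exists_decl (hΔ : Wf P Δ) {X : Set (Tm S)} (hX : X.Finite)
    (hs : ∀ A ∈ X, ∃ s, Der P Δ A (.srt s)) :
    ∃ Δ' κ, Wf P Δ' ∧ Rens κ Δ Δ' ∧ (∀ A ∈ X, ∃ n, Lk Δ' n (A.ren κ)) ∧
      ∀ n Y, Lk Δ' n Y → (∃ k Z, Lk Δ k Z ∧ n = κ k ∧ Y = Z.ren κ) ∨
        ∃ A ∈ X, Y = A.ren κ := by
  induction X, hX using Set.Finite.induction_on with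
  | empty =>
    exact ⟨Δ, id, hΔ, fun n A h => by simpa using h, by simp,
      fun n Y h => .inl ⟨n, Y, h, rfl, by simp⟩⟩
  | @insert A X _ _ ih =>
    obtain ⟨Δ', κ, hw, hκ, hall, honly⟩ := ih fun B hB => hs B (Set.mem_insert_of_mem _ hB)
    obtain ⟨s, hA⟩ := hs A (Set.mem_insert _ _)
    refine ⟨A.ren κ :: Δ', Nat.succ ∘ κ, hw.cons (hA.rename hκ),
      Rens.trans hκ (Rens.succ _ _), fun B hB => ?_, fun n Y h => ?_⟩
    swap
    · cases h with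
      | zero => exact .inr ⟨A, Set.mem_insert _ _, by simp⟩
      | @succ _ Z _ k h =>
        rcases honly k Z h with ⟨j, W, hW, e, e'⟩ | ⟨B, hB, e⟩
        · exact .inl ⟨j, W, hW, by simp [e], by simp [e']⟩
        · exact .inr ⟨B, Set.mem_insert_of_mem _ hB, by simp [e]⟩
    rcases hB with rfl | hB
    · exact ⟨0, by simpa using (Lk.zero (Γ := Δ') (A := B.ren κ))⟩
    · obtain ⟨n, hn⟩ := hall B hB
      exact ⟨n + 1, by simpa using hn.succ (B := A.ren κ)⟩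

open Classical in
/-- A variable of the type `A`, if one is declared. -/
noncomputable def declVar (Δ : List (Tm S)) (A : Tm S) : Tm S :=
  if h : ∃ n, Lk Δ n A then .var h.choose else .var 0

theorem declVar_ok {A : Tm S} (h : ∃ n, Lk Δ n A) :
    Der P Δ (declVar Δ A) A ∧ Sh m (fun _ => Cls.free) (declVar Δ A) none .cst := by
  rw [declVar, dif_pos h]
  exact ⟨.var h.choose_spec, .free rfl⟩

/-- The base context, with a uniform stub for the sorts of `A`. -/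
theorem exists_base (hD : ClassOK P D m) (hC : D.C.Finite) (hK : D.K.Finite)
    (hT : {t | ∃ c ∈ D.C, P.ax t c}.Finite)
    (hCax : ∀ s ∈ D.C, (∃ t, P.ax s t) ∨ ∃ t, P.ax t s) (hKax : ∀ s ∈ D.K, ∃ t, P.ax s t)
    (A : Finset S) (hA : ∀ a ∈ A, ∃ t, P.ax a t ∧ P.rule t a a) :
    ∃ (Δ : List (Tm S)) (Θ : Ops S) (E : S → Tm S) (G : ℕ → Cls),
      Wf P Δ ∧ OpsOK P D m Δ G Θ ∧ (∀ n, G n = Cls.free) ∧
      (∀ s ∈ D.K, (Der P Δ (Θ.O s) (.srt s) ∧ Sh m G (Θ.O s) none .cst) ∧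
        Der P Δ (Θ.o s) (Θ.O s) ∧ Sh m G (Θ.o s) none .cst) ∧
      (∀ a ∈ A, Der P Δ (E a) (.pi (.srt a) (.var 0)) ∧ Sh m G (E a) none .cst) ∧
      ∀ n Y, Lk Δ n Y → (∃ s, Y = .srt s) ∨
        ∃ z, (z ∈ D.C ∨ z ∈ D.K ∨ z ∈ A) ∧ Der P Δ Y (.srt z) := by
  classical
  -- the answer types
  let src : Set S := {s | (∃ t, P.ax s t) ∧ (s ∈ D.C ∨ s ∈ D.K ∨ ∃ c ∈ D.C, P.ax s c)}
  have hsrc : src.Finite := (hC.union (hK.union hT)).subset fun s hs => hs.2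
  obtain ⟨Δ₁, κ₁, hw₁, -, hv₁, honly₁⟩ := exists_decl (P := P) (Δ := []) .nil
    (hsrc.image (Tm.srt (S := S))) (by
      rintro _ ⟨s, ⟨⟨t, ht⟩, -⟩, rfl⟩
      exact ⟨t, .axiom_ ht⟩)
  let O₁ : S → Tm S := fun s =>
    if ∃ t, P.ax s t then declVar Δ₁ (.srt s)
    else if h : ∃ z, P.ax z s then .srt h.choose else .srt s
  have hvar : ∀ s ∈ src, Der P Δ₁ (O₁ s) (.srt s) ∧
      Sh m (fun _ => Cls.free) (O₁ s) none .cst := by
    intro s hs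
    simp only [O₁, if_pos hs.1]
    exact declVar_ok (hv₁ _ ⟨s, hs, rfl⟩)
  have hans : ∀ s, s ∈ D.C ∨ s ∈ D.K → Der P Δ₁ (O₁ s) (.srt s) := by
    intro s hs
    by_cases h : ∃ t, P.ax s t
    · exact (hvar s ⟨h, hs.imp_right .inl⟩).1
    · rcases hs with hs | hs
      · obtain hz := (hCax s hs).resolve_left h
        simp only [O₁, if_neg h, dif_pos hz]
        exact .axiom_ hz.choose_spec
      · exact (h (hKax s hs)).elim
  -- the other constants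
  let tyE : S → Tm S := fun a => .pi (.srt a) (.var 0)
  let tyF : S × S → Tm S := fun p => Tm.arr (O₁ p.1) (O₁ p.2)
  let tyG : S → Tm S := fun s => Tm.arr (O₁ (D.cp s)) (Tm.arr (O₁ (D.cp s)) (O₁ s))
  let pairs : Set (S × S) := {p | p.1 ∈ D.C ∧ p.2 ∈ D.C ∧ P.rule p.1 p.2 p.2}
  have hpairs : pairs.Finite := (hC.prod hC).subset fun p hp => ⟨hp.1, hp.2.1⟩
  let types : Set (Tm S) := O₁ '' (D.C ∪ D.K) ∪ tyF '' pairs ∪ tyG '' D.C ∪ tyE '' ↑A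
  have htypes : types.Finite :=
    ((((hC.union hK).image _).union (hpairs.image _)).union (hC.image _)).union
      (A.finite_toSet.image _)
  have hsorted : ∀ B ∈ types, ∃ z, (z ∈ D.C ∨ z ∈ D.K ∨ z ∈ A) ∧ Der P Δ₁ B (.srt z) := by
    rintro _ (((⟨s, hs, rfl⟩ | ⟨⟨a, b⟩, ⟨ha, hb, hr⟩, rfl⟩) | ⟨s, hs, rfl⟩) | ⟨a, ha, rfl⟩)
    · exact ⟨s, hs.elim .inl fun h => .inr (.inl h), hans s hs⟩
    · exact ⟨b, .inl hb, (hans a (.inl ha)).arr (hans b (.inl hb)) hr⟩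
    · have hp := hans _ (.inl (hD.cp_mem hs))
      exact ⟨s, .inl hs, hp.arr (hp.arr (hans s (.inl hs)) (hD.cp_rule hs)) (hD.cp_rule hs)⟩
    · obtain ⟨t, ht, hr⟩ := hA a ha
      exact ⟨a, .inr (.inr ha), .prod (.axiom_ ht) (.var .zero) hr⟩
  obtain ⟨Δ₂, κ, hw₂, hκ, hv, honly⟩ := exists_decl hw₁ htypes
    fun B hB => (hsorted B hB).imp fun _ h => h.2
  have hd : ∀ B ∈ types, Der P Δ₂ (declVar Δ₂ (B.ren κ)) (B.ren κ) ∧
      Sh m (fun _ => Cls.free) (declVar Δ₂ (B.ren κ)) none .cst :=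
    fun B hB => declVar_ok (hv B hB)
  let Θ : Ops S :=
    { O := fun s => (O₁ s).ren κ
      o := fun s => declVar Δ₂ ((O₁ s).ren κ)
      f := fun a b => declVar Δ₂ ((tyF (a, b)).ren κ)
      g := fun s => declVar Δ₂ ((tyG s).ren κ) }
  refine ⟨Δ₂, Θ, fun a => declVar Δ₂ ((tyE a).ren κ), fun _ => Cls.free, hw₂,
    ⟨fun hs => (hans _ (.inl hs)).rename hκ, fun hs => hd _ (.inl (.inl (.inl ⟨_, .inl hs, rfl⟩))),
      fun {t c} h1 h2 => ?_, fun {a b} ha hb hr => ?_, fun {s} hs => ?_⟩,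
    fun _ => rfl, fun s hs => ⟨?_, hd _ (.inl (.inl (.inl ⟨_, .inr hs, rfl⟩)))⟩,
    fun a ha => ?_, fun n Y hY => ?_⟩
  rotate_right
  · rcases honly n Y hY with ⟨k, Z, hZ, -, rfl⟩ | ⟨B, hB, rfl⟩
    · rcases honly₁ k Z hZ with ⟨j, W, hW, -, -⟩ | ⟨B, ⟨s, -, rfl⟩, rfl⟩
      · cases hW
      · exact .inl ⟨s, rfl⟩
    · obtain ⟨z, hz, hd'⟩ := hsorted B hB
      exact .inr ⟨z, hz, hd'.rename hκ⟩
  · obtain ⟨h, h'⟩ := hvar t ⟨⟨c, h1⟩, .inr (.inr ⟨c, h2, h1⟩)⟩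
    exact ⟨h.rename hκ, h'.ren fun _ => rfl⟩
  · obtain ⟨h, h'⟩ := hd _ (.inl (.inl (.inr ⟨(a, b), ⟨ha, hb, hr⟩, rfl⟩)))
    exact ⟨by simpa [tyF, Θ, Tm.arr_ren] using h, h'⟩
  · obtain ⟨h, h'⟩ := hd _ (.inl (.inr ⟨s, hs, rfl⟩))
    exact ⟨by simpa [tyG, Θ, Tm.arr_ren] using h, h'⟩
  · obtain ⟨h, h'⟩ := hvar s ⟨hKax s hs, .inr (.inl hs)⟩
    exact ⟨h.rename hκ, h'.ren fun _ => rfl⟩
  · exact hd _ (.inr ⟨a, ha, rfl⟩)

end Vale.Agent.P340
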