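import Vale.Agent.P340.MemLayers

/-!
# Polarised classes of colours

Give the colours of a class signs, flipped from domain to result and kept from codomain to
result. Candidate sets indexed by types modulo conversion are then a fixed point of a monotone
operator, inclusion being reversed at negative types. No normalisation hypothesis is used.
-/

namespace Vale.Agent.P340

open Relation

variable {S L : Type}

/-- The term inside memory pairs. -/
def MTm.core : MTm S L → MTm S L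
  | .mem p _ => p.core
  | t => t

@[simp] theorem MTm.ren_id (M : MTm S L) : M.ren id = M := by
  induction M <;> simp [*]

/-- Signs on `C`: a domain has the sign opposite to the result, a codomain the same sign. -/
def Polar (P : Spec S) (col : S → L) (C : Set L) (sg : L → Bool) : Prop :=
  ∀ a b r, P.rule a b r → col r ∈ C →
    (col a ∈ C → sg (col a) = !sg (col r)) ∧ (col b ∈ C → sg (col b) = sg (col r))

variable {P : Spec S} (K : Colouring P L) (C : Set L) (sg : L → Bool)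

/-- A type of sign `i` in `C`. -/
def Signed (i : Bool) (Γ : List (Tm S)) (T : Tm S) : Prop :=
  Wf P Γ ∧ ∃ s, Der P Γ T (.srt s) ∧ K.col s ∈ C ∧ sg (K.col s) = i

/-- Families of sets of terms, indexed by contexts and types. -/
abbrev Fam (S L : Type) : Type := List (Tm S) → Tm S → MTm S L → Prop

/-- Read a family with inclusion reversed at negative types, constant outside `C`. -/
def decode (Y : Fam S L) : Fam S L := fun Γ T M =>
  (Signed K C sg true Γ T → Y Γ T M) ∧ (Signed K C sg false Γ T → ¬ Y Γ T M) ∧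
    (¬ Signed K C sg true Γ T → ¬ Signed K C sg false Γ T → MSN C M)

/-- The defining condition of the candidates. -/
def body (X : Fam S L) : Fam S L := fun Γ T M =>
  MSN C M ∧ ∀ Δ ξ A B s, Rens ξ Γ Δ → Wf P Δ → BConv (T.ren ξ) (.pi A B) →
    Der P Δ (.pi A B) (.srt s) → K.col s ∈ C → ∀ f' N A' b', MRed C (M.ren ξ) f' →
      f'.core = .lam A' b' → MDer P K.col Δ N A → X Δ A N →
        X Δ (B.inst N.erase) (.mem (.mem (b'.inst N) N) A')

/-- The coded operator. -/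
def coded (Y : Fam S L) : Fam S L := fun Γ T M =>
  (Signed K C sg true Γ T ∧ body K C (decode K C sg Y) Γ T M) ∨
    (Signed K C sg false Γ T ∧ ¬ body K C (decode K C sg Y) Γ T M)

variable {K C sg}

theorem Signed.excl {Γ : List (Tm S)} {T : Tm S} (h : Signed K C sg true Γ T)
    (h' : Signed K C sg false Γ T) : False := by
  obtain ⟨hΓ, s, hs, _, e⟩ := h
  obtain ⟨_, s', hs', _, e'⟩ := h'
  rw [K.sound hΓ hs hs', e'] at e
  simp at e

theorem Signed.of_sort {Γ : List (Tm S)} {T : Tm S} {i : Bool} {s : S}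
    (h : Signed K C sg i Γ T) (hs : Der P Γ T (.srt s)) : K.col s ∈ C ∧ sg (K.col s) = i := by
  obtain ⟨hΓ, s', hs', hc, e⟩ := h
  rw [K.sound hΓ hs hs']
  exact ⟨hc, e⟩

/-- The colours of the parts of a product type seen from a signed type. -/
theorem Signed.parts (hP : Polar P K.col C sg) {Γ Δ : List (Tm S)} {T A B : Tm S}
    {N : MTm S L} {ξ : ℕ → ℕ} {i : Bool} {s : S} (h : Signed K C sg i Γ T) (hξ : Rens ξ Γ Δ)
    (hΔ : Wf P Δ) (hc : BConv (T.ren ξ) (.pi A B)) (hp : Der P Δ (.pi A B) (.srt s))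
    (hN : MDer P K.col Δ N A) :
    ¬ Signed K C sg i Δ A ∧ ¬ Signed K C sg (!i) Δ (B.inst N.erase) := by
  obtain ⟨_, s₀, hs₀, hC, e⟩ := h
  have hcol : K.col s₀ = K.col s := K.sound_conv hΔ (by simpa using hs₀.rename hξ) hp hc
  obtain ⟨s₁, s₂, hrule, hA, hB⟩ := hp.pi_rule
  obtain ⟨ha, hb⟩ := hP s₁ s₂ s hrule (hcol ▸ hC)
  refine ⟨fun hA' => ?_, fun hB' => ?_⟩
  · obtain ⟨h₁, h₂⟩ := hA'.of_sort hA
    rw [ha h₁, ← hcol, e] at h₂
    simp at h₂
  · obtain ⟨h₁, h₂⟩ := hB'.of_sort (hB.inst hN.toDer)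
    rw [hb h₁, ← hcol, e] at h₂
    simp at h₂

theorem decode_le {Y Y' : Fam S L} (hY : Y ≤ Y') {Γ : List (Tm S)} {T : Tm S} {M : MTm S L}
    (h : ¬ Signed K C sg false Γ T) (hM : decode K C sg Y Γ T M) : decode K C sg Y' Γ T M :=
  ⟨fun hp => hY _ _ _ (hM.1 hp), fun hn => (h hn).elim, hM.2.2⟩

theorem decode_ge {Y Y' : Fam S L} (hY : Y ≤ Y') {Γ : List (Tm S)} {T : Tm S} {M : MTm S L}
    (h : ¬ Signed K C sg true Γ T) (hM : decode K C sg Y' Γ T M) : decode K C sg Y Γ T M :=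
  ⟨fun hp => (h hp).elim, fun hn hy => hM.2.1 hn (hY _ _ _ hy), hM.2.2⟩

theorem coded_mono (hP : Polar P K.col C sg) : Monotone (coded K C sg) := by
  intro Y Y' hY Γ T M h
  rcases h with ⟨hs, hb⟩ | ⟨hs, hb⟩
  · refine .inl ⟨hs, hb.1, fun Δ ξ A B s hξ hΔ hc hp hC f' N A' b' hf hl hN hX => ?_⟩
    obtain ⟨h₁, h₂⟩ := hs.parts hP hξ hΔ hc hp hN
    exact decode_le hY h₂
      (hb.2 Δ ξ A B s hξ hΔ hc hp hC f' N A' b' hf hl hN (decode_ge hY h₁ hX))
  · refine .inr ⟨hs, fun hb' => hb ⟨hb'.1, fun Δ ξ A B s hξ hΔ hc hp hC f' N A' b' hf hl hN hX => ?_⟩⟩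
    obtain ⟨h₁, h₂⟩ := hs.parts hP hξ hΔ hc hp hN
    exact decode_ge hY h₂
      (hb'.2 Δ ξ A B s hξ hΔ hc hp hC f' N A' b' hf hl hN (decode_le hY h₁ hX))

/-- The candidates. -/
def cand (hP : Polar P K.col C sg) : Fam S L :=
  decode K C sg (OrderHom.lfp ⟨coded K C sg, coded_mono hP⟩)

/-- A sort, or a type with a sort. -/
def IsTy (P : Spec S) (Γ : List (Tm S)) (T : Tm S) : Prop :=
  (∃ s, T = .srt s) ∨ ∃ s, Der P Γ T (.srt s)

theorem IsTy.ren {Γ Δ : List (Tm S)} {T : Tm S} {ξ : ℕ → ℕ} (h : IsTy P Γ T)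
    (hξ : Rens ξ Γ Δ) : IsTy P Δ (T.ren ξ) := by
  rcases h with ⟨s, rfl⟩ | ⟨s, hs⟩
  · exact .inl ⟨s, rfl⟩
  · exact .inr ⟨s, by simpa using hs.rename hξ⟩

variable {hP : Polar P K.col C sg}

/-- The candidates satisfy their defining condition. -/
theorem cand_iff {Γ : List (Tm S)} {T : Tm S} {M : MTm S L} (hΓ : Wf P Γ) (hT : IsTy P Γ T) :
    cand hP Γ T M ↔ body K C (cand hP) Γ T M := by
  let F : Fam S L →o Fam S L := ⟨coded K C sg, coded_mono hP⟩
  have hfix : coded K C sg F.lfp = F.lfp := OrderHom.map_lfp F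
  have hfix' : coded K C sg F.lfp Γ T M ↔ F.lfp Γ T M := by rw [hfix]
  change decode K C sg F.lfp Γ T M ↔ body K C (decode K C sg F.lfp) Γ T M
  by_cases hp : Signed K C sg true Γ T
  · refine ⟨fun h => ?_, fun h => ⟨fun _ => hfix'.mp (.inl ⟨hp, h⟩),
      fun hn => (hp.excl hn).elim, fun h' => (h' hp).elim⟩⟩
    rcases hfix'.mpr (h.1 hp) with ⟨_, hb⟩ | ⟨hn, _⟩
    · exact hb
    · exact (hp.excl hn).elim
  by_cases hn : Signed K C sg false Γ T
  · refine ⟨fun h => ?_, fun h => ⟨fun h' => (hp h').elim, fun _ hy => ?_,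
      fun _ h' => (h' hn).elim⟩⟩
    · by_contra hb
      exact h.2.1 hn (hfix'.mp (.inr ⟨hn, hb⟩))
    · rcases hfix'.mpr hy with ⟨h', _⟩ | ⟨_, hb⟩
      · exact hp h'
      · exact hb h
  refine ⟨fun h => ⟨h.2.2 hp hn, fun Δ ξ A B s hξ hΔ hc hp' hC => ?_⟩,
    fun h => ⟨fun h' => (hp h').elim, fun h' => (hn h').elim, fun _ _ => h.1⟩⟩
  exfalso
  rcases hT with ⟨s₀, rfl⟩ | ⟨s₀, hs₀⟩
  · exact not_bconv_srt_pi hc
  · have hcol := K.sound_conv hΔ (by simpa using hs₀.rename hξ) hp' hc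
    cases e : sg (K.col s₀) with
    | true => exact hp ⟨hΓ, s₀, hs₀, hcol ▸ hC, e⟩
    | false => exact hn ⟨hΓ, s₀, hs₀, hcol ▸ hC, e⟩

theorem cand_msn {Γ : List (Tm S)} {T : Tm S} {M : MTm S L} (hΓ : Wf P Γ) (hT : IsTy P Γ T)
    (h : cand hP Γ T M) : MSN C M :=
  ((cand_iff hΓ hT).mp h).1

theorem cand_conv {Γ : List (Tm S)} {T T' : Tm S} {M : MTm S L} (hΓ : Wf P Γ) (hT : IsTy P Γ T)
    (hT' : IsTy P Γ T') (hc : BConv T T') (h : cand hP Γ T M) : cand hP Γ T' M := by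
  obtain ⟨h₁, h₂⟩ := (cand_iff hΓ hT).mp h
  exact (cand_iff hΓ hT').mpr
    ⟨h₁, fun Δ ξ A B s hξ hΔ hc' => h₂ Δ ξ A B s hξ hΔ ((hc.ren ξ).trans hc')⟩

theorem cand_red {Γ : List (Tm S)} {T : Tm S} {M M' : MTm S L} (hΓ : Wf P Γ) (hT : IsTy P Γ T)
    (hr : MRed C M M') (h : cand hP Γ T M) : cand hP Γ T M' := by
  obtain ⟨h₁, h₂⟩ := (cand_iff hΓ hT).mp h
  refine (cand_iff hΓ hT).mpr ⟨h₁.red hr, fun Δ ξ A B s hξ hΔ hc hp hC f' N A' b' hf => ?_⟩
  exact h₂ Δ ξ A B s hξ hΔ hc hp hC f' N A' b'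
    ((MRed.lift (fun _ _ h => h.ren ξ) hr).trans hf)

theorem cand_ren {Γ Δ : List (Tm S)} {T : Tm S} {M : MTm S L} {ξ : ℕ → ℕ} (hΓ : Wf P Γ)
    (hΔ : Wf P Δ) (hT : IsTy P Γ T) (hξ : Rens ξ Γ Δ) (h : cand hP Γ T M) :
    cand hP Δ (T.ren ξ) (M.ren ξ) := by
  obtain ⟨h₁, h₂⟩ := (cand_iff hΓ hT).mp h
  refine (cand_iff hΔ (hT.ren hξ)).mpr
    ⟨h₁.ren ξ, fun Θ ζ A B s hζ hΘ hc hp hC f' N A' b' hf => ?_⟩
  refine h₂ Θ (ζ ∘ ξ) A B s (fun n A hl => ?_) hΘ (by simpa using hc) hp hC f' N A' b'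
    (by simpa using hf)
  simpa using hζ _ _ (hξ n A hl)

/-- A term with no reduct an abstraction under memory pairs lies in every candidate. -/
theorem cand_of_neutral {Γ : List (Tm S)} {T : Tm S} {M : MTm S L} (hΓ : Wf P Γ)
    (hT : IsTy P Γ T) (hM : MSN C M)
    (hn : ∀ ξ f' A b, MRed C (M.ren ξ) f' → f'.core ≠ .lam A b) : cand hP Γ T M :=
  (cand_iff hΓ hT).mpr ⟨hM, fun _ ξ _ _ _ _ _ _ _ _ f' _ A' b' hf hl =>
    (hn ξ f' A' b' hf hl).elim⟩

theorem cand_mem {Γ : List (Tm S)} {T : Tm S} {p e : MTm S L} (hΓ : Wf P Γ) (hT : IsTy P Γ T)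
    (he : MSN C e) (h : cand hP Γ T p) : cand hP Γ T (.mem p e) := by
  obtain ⟨h₁, h₂⟩ := (cand_iff hΓ hT).mp h
  refine (cand_iff hΓ hT).mpr
    ⟨msn_mem h₁ he, fun Δ ξ A B s hξ hΔ hc hp hC f' N A' b' hf hl => ?_⟩
  obtain ⟨p', e', rfl, hp', _⟩ := mred_mem hf
  exact h₂ Δ ξ A B s hξ hΔ hc hp hC p' N A' b' hp' hl

theorem MSN.of_map {F : MTm S L → MTm S L} (hF : ∀ x y, MStep C x y → MStep C (F x) (F y))
    {M : MTm S L} (h : MSN C (F M)) : MSN C M := by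
  generalize e : F M = K at h
  induction h generalizing M with
  | intro K _ ih => exact Acc.intro _ fun N hN => ih (F N) (e ▸ hF _ _ hN) rfl

/-- A whole contraction lies in a candidate when that of its core does. -/
theorem cand_ctr {Γ : List (Tm S)} {T : Tm S} (hΓ : Wf P Γ) (hT : IsTy P Γ T) {f a r : MTm S L}
    (hr : Ctr f a r) : MSN C f →
    (∀ A b, f.core = .lam A b → cand hP Γ T (.mem (.mem (b.inst a) a) A)) → cand hP Γ T r := by
  induction hr with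
  | lam A b a => intro _ h; exact h A b rfl
  | @mem p a r e _ ih =>
    intro hf h
    exact cand_mem hΓ hT (MSN.of_map (F := fun x => MTm.mem p x) (fun _ _ h => .memR p h) hf)
      (ih (MSN.of_map (F := fun x => MTm.mem x e) (fun _ _ h => .memL e h) hf) h)

theorem MRed.of_ren {t u : MTm S L} {ξ : ℕ → ℕ} (h : MRed C (t.ren ξ) u) :
    ∃ t', MRed C t t' ∧ u = t'.ren ξ := by
  induction h with
  | refl => exact ⟨t, .refl, rfl⟩
  | tail _ h ih =>
    obtain ⟨t', h', rfl⟩ := ih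
    obtain ⟨t'', h'', rfl⟩ := MStep.of_ren h
    exact ⟨t'', h'.tail h'', rfl⟩

/-- The substituted terms lie in the candidates. -/
def CSubs (hP : Polar P K.col C sg) (σ : ℕ → MTm S L) (Γ Δ : List (Tm S)) : Prop :=
  ∀ n A, Lk Γ n A → cand hP Δ (A.sub fun m => (σ m).erase) (σ n)

theorem IsTy.sub {Γ Δ : List (Tm S)} {T : Tm S} {σ : ℕ → Tm S} (h : IsTy P Γ T)
    (hσ : Subs P σ Γ Δ) : IsTy P Δ (T.sub σ) := by
  rcases h with ⟨s, rfl⟩ | ⟨s, hs⟩
  · exact .inl ⟨s, rfl⟩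
  · exact .inr ⟨s, by simpa using hs.subst hσ⟩

theorem cand_var {Γ : List (Tm S)} {T : Tm S} (hΓ : Wf P Γ) (hT : IsTy P Γ T) (n : ℕ) :
    cand hP Γ T (.var n) :=
  cand_of_neutral hΓ hT (msn_var n) fun ξ f' A b hf => by
    rw [MTm.ren_var] at hf; simp [mred_var hf, MTm.core]

theorem CSubs.up {σ : ℕ → MTm S L} {Γ Δ : List (Tm S)} {A : Tm S} (h : CSubs hP σ Γ Δ)
    (hσ : MSubs P K.col σ Γ Δ) (hΓ : Wf P Γ) (hΔ : Wf P Δ)
    (hΔ' : Wf P (A.sub (fun m => (σ m).erase) :: Δ)) :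
    CSubs hP (MTm.up σ) (A :: Γ) (A.sub (fun m => (σ m).erase) :: Δ) := by
  intro n B hl
  rw [MTm.erase_up]
  cases hl with
  | zero =>
    refine cand_var hΔ' (.inr ?_) 0
    obtain ⟨s, hs⟩ := hΔ'.lookup .zero
    exact ⟨s, by simpa [Tm.ren_sub, Tm.sub_ren, Function.comp_def] using hs⟩
  | @succ _ B' _ n hl =>
    obtain ⟨s, hs⟩ := hΓ.lookup hl
    have h' := cand_ren hΔ hΔ' (.inr ⟨s, by simpa using hs.subst hσ.erase⟩) (Rens.succ _ _)
      (h n B' hl)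
    simpa [Tm.ren_sub, Tm.sub_ren, Function.comp_def] using h'

/-- The fundamental lemma. -/
theorem MDer.mem_cand {t : MTm S L} {T : Tm S} {Γ : List (Tm S)} (h : MDer P K.col Γ t T) :
    ∀ {Δ : List (Tm S)} {σ : ℕ → MTm S L}, Wf P Γ → Wf P Δ → MSubs P K.col σ Γ Δ →
      CSubs hP σ Γ Δ → cand hP Δ (T.sub fun m => (σ m).erase) (t.sub σ) := by
  induction h with
  | axiom_ _ =>
    intro Δ σ _ hΔ _ _
    refine cand_of_neutral hΔ (.inl ⟨_, rfl⟩) (msn_srt _) fun ξ f' A b hf => ?_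
    rw [MTm.sub_srt, MTm.ren_srt] at hf
    simp [mred_srt hf, MTm.core]
  | var hl => intro Δ σ _ _ _ hX; exact hX _ _ hl
  | prod hA hB _ ihA ihB =>
    intro Δ σ hΓ hΔ hσ hX
    have hw := hΓ.cons hA.toDer
    have hwΔ := hΔ.cons (by simpa using hA.toDer.subst hσ.erase)
    have hB' := ihB hw hwΔ (by simpa using hσ.up _)
      (by simpa using hX.up hσ hΓ hΔ (by simpa using hwΔ))
    refine cand_of_neutral hΔ (.inl ⟨_, rfl⟩)
      (msn_pi (cand_msn hΔ (.inl ⟨_, rfl⟩) (ihA hΓ hΔ hσ hX))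
        (cand_msn hwΔ (.inl ⟨_, rfl⟩) hB')) fun ξ f' A b hf => ?_
    rw [MTm.sub_pi, MTm.ren_pi] at hf
    obtain ⟨_, _, rfl⟩ := mred_pi hf
    simp [MTm.core]
  | @abs Γ A b B s₁ s hA hb hp ihA ihb =>
    intro Δ σ hΓ hΔ hσ hX
    have hw := hΓ.cons hA.toDer
    have hwΔ := hΔ.cons (by simpa using hA.toDer.subst hσ.erase)
    have hTy : IsTy P Δ ((Tm.pi A.erase B).sub fun m => (σ m).erase) :=
      .inr ⟨s, by simpa using hp.subst hσ.erase⟩
    obtain ⟨t₁, t₂, _, _, hBt⟩ := hp.pi_rule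
    have hsnA : MSN C (A.sub σ) := cand_msn hΔ (.inl ⟨_, rfl⟩) (ihA hΓ hΔ hσ hX)
    have hσu : MSubs P K.col (MTm.up σ) (A.erase :: Γ)
        (A.erase.sub (fun m => (σ m).erase) :: Δ) := hσ.up A.erase
    have hsnb : MSN C (b.sub (MTm.up σ)) :=
      cand_msn hwΔ (.inr ⟨t₂, by simpa using hBt.subst hσu.erase⟩)
        (ihb hw hwΔ hσu (by simpa using hX.up hσ hΓ hΔ (by simpa using hwΔ)))
    refine (cand_iff hΔ hTy).mpr ⟨msn_lam hsnA hsnb, ?_⟩
    intro Θ ξ A₀ B₀ s₀ hξ hΘ hc hp₀ _ f' N A' b' hf hl hN hXN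
    rw [MTm.sub_lam, MTm.ren_lam] at hf
    obtain ⟨A'', b'', rfl, hA'', hb''⟩ := mred_lam hf
    simp only [MTm.core, MTm.lam.injEq] at hl
    obtain ⟨rfl, rfl⟩ := hl
    let τ := fun n => (σ n).ren ξ
    have hτ : MSubs P K.col τ Γ Θ := fun n C' hl => by
      simpa [τ, Tm.ren_sub] using (hσ n C' hl).rename hξ
    have hXτ : CSubs hP τ Γ Θ := fun n C' hl => by
      obtain ⟨s', hs'⟩ := hΓ.lookup hl
      simpa [τ, Tm.ren_sub] using
        cand_ren hΔ hΘ (.inr ⟨s', by simpa using hs'.subst hσ.erase⟩) hξ (hX n C' hl)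
    obtain ⟨hAA, hBB⟩ := bconv_pi_inj hc
    have hAΘ : Der P Θ (A.erase.sub fun m => (τ m).erase) (.srt s₁) := by
      simpa using hA.toDer.subst hτ.erase
    have hAA' : BConv A₀ (A.erase.sub fun m => (τ m).erase) := by
      simpa [τ, Tm.ren_sub] using hAA.symm
    obtain ⟨u₁, u₂, _, hA₀, hB₀⟩ := hp₀.pi_rule
    have hN' : MDer P K.col Θ N (A.erase.sub fun m => (τ m).erase) := .conv hN hAΘ hAA'
    have hτ' := hτ.scons hN'
    have hXτ' : CSubs hP (MTm.scons N τ) (A.erase :: Γ) Θ := by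
      intro n C' hl
      cases hl with
      | zero =>
        simpa [Tm.sub_ren, Function.comp_def] using
          cand_conv hΘ (.inr ⟨u₁, hA₀⟩) (.inr ⟨s₁, hAΘ⟩) hAA' hXN
      | succ hl => simpa [Tm.sub_ren, Function.comp_def] using hXτ _ _ hl
    have hB₀' : IsTy P Θ (B₀.inst N.erase) := .inr ⟨u₂, hB₀.inst hN.toDer⟩
    refine cand_mem hΘ hB₀' ((hsnA.ren ξ).red hA'') (cand_mem hΘ hB₀'
      (cand_msn hΘ (.inr ⟨u₁, hA₀⟩) hXN) ?_)
    have hbody := ihb hw hΘ hτ' hXτ'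
    have hTy' : IsTy P Θ (B.sub fun m => (MTm.scons N τ m).erase) :=
      .inr ⟨t₂, by simpa using hBt.subst hτ'.erase⟩
    refine cand_conv hΘ hTy' hB₀' ?_ (cand_red hΘ hTy' ?_ hbody)
    · have e : (fun m => (MTm.scons N τ m).erase) =
          fun m => (((ups fun k => (σ k).erase) m).ren (upr ξ)).sub (sub0 N.erase) := by
        funext m
        cases m with
        | zero => rfl
        | succ m =>
          simp [τ, Function.comp_def]
          exact Tm.ren_eq_sub _ _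
      rw [e, ← Tm.sub_sub, ← Tm.ren_sub]
      exact hBB.sub _
    · have e : b.sub (MTm.scons N τ) = ((b.sub (MTm.up σ)).ren (upr ξ)).inst N := by
        rw [MTm.ren_sub, MTm.ren_comp_up, MTm.inst_up]
      rw [e, MTm.inst, MTm.inst]
      exact MRed.lift (fun _ _ h => h.sub _) hb''
  | @appl Γ f a A B s c hf ha hp hc ihf iha =>
    intro Δ σ hΓ hΔ hσ hX
    have hda := ha.subst hσ
    have hp' := hp.subst hσ.erase
    simp only [Tm.sub_pi, Tm.sub_srt] at hp'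
    obtain ⟨u₁, u₂, _, hA', hB'⟩ := hp'.pi_rule
    have hTyf : IsTy P Δ ((Tm.pi A B).sub fun m => (σ m).erase) := .inr ⟨s, hp'⟩
    obtain ⟨hsnf, hbody⟩ := (cand_iff hΔ hTyf).mp (ihf hΓ hΔ hσ hX)
    have hca := iha hΓ hΔ hσ hX
    have hsna := cand_msn hΔ (.inr ⟨u₁, hA'⟩) hca
    have hTy : IsTy P Δ ((B.inst a.erase).sub fun m => (σ m).erase) := by
      rw [Tm.sub_inst]
      exact .inr ⟨u₂, hB'.inst (by simpa using hda.toDer)⟩
    have key : ∀ f' a' r, c ∈ C → MRed C (f.sub σ) f' → MRed C (a.sub σ) a' → Ctr f' a' r →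
        cand hP Δ ((B.inst a.erase).sub fun m => (σ m).erase) r := by
      intro f' a' r hcC h₁ h₂ hr
      refine cand_ctr hΔ hTy hr (hsnf.red h₁) fun A' b' hl => ?_
      have hda' := hda.red hΔ h₂
      have h := hbody Δ id _ _ s (fun n C' hl => by simpa using hl) hΔ
        (by simpa using Relation.EqvGen.refl _) hp' (hc ▸ hcC) f' a' A' b' (by simpa using h₁)
        hl hda' (cand_red hΔ (.inr ⟨u₁, hA'⟩) h₂ hca)
      refine cand_conv hΔ (.inr ⟨u₂, hB'.inst hda'.toDer⟩) hTy ?_ h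
      rw [Tm.sub_inst, ← MTm.erase_sub]
      refine BConv.inst_right _ (BConv.symm ?_)
      clear h hr hda'
      induction h₂ with
      | refl => exact .refl _
      | tail _ hs ih => exact ih.trans hs.erase.bconv
    refine (cand_iff hΔ hTy).mpr ⟨msn_app hsnf hsna fun f' a' r hcC h₁ h₂ hr =>
      cand_msn hΔ hTy (key f' a' r hcC h₁ h₂ hr), ?_⟩
    intro Θ ξ A₀ B₀ s₀ hξ hΘ hc₀ hp₀ hC₀ f'' N A'' b'' hf'' hl hN hXN
    obtain ⟨u, hu, rfl⟩ := MRed.of_ren hf''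
    rcases mred_app hu with ⟨_, _, rfl, _, _⟩ | ⟨f', a', r, hcC, h₁, h₂, hr, h₄⟩
    · simp [MTm.core] at hl
    · exact ((cand_iff hΔ hTy).mp (key f' a' r hcC h₁ h₂ hr)).2 Θ ξ A₀ B₀ s₀ hξ hΘ hc₀ hp₀
        hC₀ _ N A'' b'' (MRed.lift (fun _ _ h => h.ren ξ) h₄) hl hN hXN
  | @mem Γ p e B E hp he ihp ihe =>
    intro Δ σ hΓ hΔ hσ hX
    exact cand_mem hΔ (IsTy.sub (hp.correct hΓ) hσ.erase)
      (cand_msn hΔ (IsTy.sub (he.correct hΓ) hσ.erase) (ihe hΓ hΔ hσ hX)) (ihp hΓ hΔ hσ hX)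
  | conv h hB hc ih =>
    intro Δ σ hΓ hΔ hσ hX
    exact cand_conv hΔ (IsTy.sub (h.correct hΓ) hσ.erase)
      (IsTy.sub (.inr ⟨_, hB⟩) hσ.erase) (hc.sub _) (ih hΓ hΔ hσ hX)

/-- Steps at a polarised set of colours terminate. -/
theorem msn_of_polar (hP : Polar P K.col C sg) {Γ : List (Tm S)} {t : MTm S L} {T : Tm S}
    (hΓ : Wf P Γ) (h : MDer P K.col Γ t T) : MSN C t := by
  have hX : CSubs hP MTm.var Γ Γ := fun n A hl => by
    obtain ⟨s, hs⟩ := hΓ.lookup hl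
    simpa [MTm.erase] using cand_var (hP := hP) hΓ (.inr ⟨s, hs⟩) n
  have := h.mem_cand hΓ hΓ (MSubs.id Γ) hX
  rw [MTm.sub_id] at this
  exact cand_msn hΓ (IsTy.sub (h.correct hΓ) (MSubs.id (P := P) (col := K.col) Γ).erase) this

/-- A specification whose classes of colours are all polarised is strongly normalizing. -/
theorem stronglyNormalizing_of_polar {P : Spec S} (K : Colouring P L)
    (hP : ∀ c, HasDomainEdge P K.col c → ∃ sg, Polar P K.col (colClass P K.col c) sg) :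
    StronglyNormalizing P :=
  stronglyNormalizing_of_classes K fun c hE Γ t T hΓ h => by
    obtain ⟨sg, hsg⟩ := hP c hE
    exact msn_of_polar hsg hΓ h

end Vale.Agent.P340
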