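import Vale.Agent.P340.CpsTgt
import Vale.Agent.P340.MemPolar

/-!
# Walks in an unpolarised class

A finite strongly connected class without signs has walks of even length between any two of its
colours, closed walks of one common positive length and a predecessor of every colour.
-/

namespace Vale.Agent.P340

variable {S : Type} {P : Spec S}

/-- A rule between two colours of `C`. -/
def ClassEdge (P : Spec S) (C : Set S) (a b : S) : Prop := a ∈ C ∧ b ∈ C ∧ P.rule a b b

/-- A path of `n` edges. -/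
inductive GPath (E : S → S → Prop) : ℕ → S → S → Prop
  | refl (a : S) : GPath E 0 a a
  | cons {n a b c} : E a b → GPath E n b c → GPath E (n + 1) a c

theorem GPath.trans {E : S → S → Prop} {n m : ℕ} {a b c : S} (h : GPath E n a b)
    (h' : GPath E m b c) : GPath E (n + m) a c := by
  induction h with
  | refl => simpa using h'
  | cons he _ ih =>
    rw [Nat.add_right_comm]
    exact .cons he (ih h')

theorem GPath.of_rtg {E : S → S → Prop} {a b : S} (h : Relation.ReflTransGen E a b) :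
    ∃ n, GPath E n a b := by
  induction h with
  | refl => exact ⟨0, .refl _⟩
  | tail _ he ih =>
    obtain ⟨n, hn⟩ := ih
    exact ⟨_, hn.trans (.cons he (.refl _))⟩

theorem GPath.repeat {E : S → S → Prop} {n : ℕ} {a : S} (h : GPath E n a a) :
    ∀ j, GPath E (j * n) a a
  | 0 => by simpa using GPath.refl a
  | j + 1 => by simpa [Nat.succ_mul] using (h.repeat j).trans h

theorem Walk.congr {D D' : HData S} (hC : D.C = D'.C) {a z : S} {l : List (S × S)}
    (h : Walk P D a l z) : Walk P D' a l z := by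
  induction h with
  | nil a => exact .nil a
  | cons h1 h2 h3 h4 _ ih => exact .cons (hC ▸ h1) (hC ▸ h2) h3 h4 ih

/-- An even path is a walk. -/
theorem GPath.walk (D : HData S) : ∀ (k : ℕ) {a b : S},
    GPath (ClassEdge P D.C) (2 * k) a b → ∃ l, Walk P D a l b ∧ l.length = k
  | 0, a, b, h => by
    cases h
    exact ⟨[], .nil a, rfl⟩
  | k + 1, a, b, h => by
    rw [show 2 * (k + 1) = 2 * k + 1 + 1 by omega] at h
    cases h with
    | @cons _ _ d _ h1 h =>
      cases h with
      | @cons _ _ d' _ h2 h =>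
        obtain ⟨l, hl, hlen⟩ := GPath.walk D k h
        exact ⟨(d, d') :: l, .cons h1.2.1 h2.2.1 h1.2.2 h2.2.2 hl, by simp [hlen]⟩

/-- Without signs some colour lies on a closed path of odd length. -/
theorem exists_odd_cycle (hP : PairSpec P) {C : Set S}
    (hconn : ∀ a ∈ C, ∀ b ∈ C, ∃ n, GPath (ClassEdge P C) n a b)
    (hpol : ¬ ∃ sg, Polar P id C sg) :
    ∃ a ∈ C, ∃ n, Odd n ∧ GPath (ClassEdge P C) n a a := by
  classical
  by_contra hno
  push Not at hno
  rcases C.eq_empty_or_nonempty with hC | ⟨r, hr⟩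
  · exact hpol ⟨fun _ => true, fun a b c _ hc => by simp [hC] at hc⟩
  let sg : S → Bool := fun b =>
    if h : ∃ n, GPath (ClassEdge P C) n r b then decide (Odd h.choose) else true
  refine hpol ⟨sg, fun a b c hrule hc => ⟨fun ha => ?_, fun _ => by rw [hP.rule_eq hrule]⟩⟩
  simp only [id] at hc ha ⊢
  obtain rfl := hP.rule_eq hrule
  have hra := hconn r hr a ha
  have hrc := hconn r hr c hc
  obtain ⟨q, hq⟩ := hconn c hc r hr
  have e : ClassEdge P C a c := ⟨ha, hc, hrule⟩
  have p1 : GPath (ClassEdge P C) (hra.choose + 1 + q) r r :=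
    (hra.choose_spec.trans (.cons e (.refl _))).trans hq
  have p2 : GPath (ClassEdge P C) (hrc.choose + q) r r := hrc.choose_spec.trans hq
  have o1 : ¬ Odd (hra.choose + 1 + q) := fun h => hno r hr _ h p1
  have o2 : ¬ Odd (hrc.choose + q) := fun h => hno r hr _ h p2
  simp only [sg, dif_pos hra, dif_pos hrc]
  by_cases x : Odd hra.choose <;> by_cases y : Odd hrc.choose <;>
    simp only [x, y, decide_true, decide_false, Bool.not_true, Bool.not_false] <;>
    simp only [Nat.odd_iff] at * <;> omega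

/-- The walks and predecessors of a class without signs. -/
theorem exists_classOK (hP : PairSpec P) {C K : Set S} (hfin : C.Finite)
    (hpred : ∀ b ∈ C, ∃ a ∈ C, P.rule a b b)
    (hconn : ∀ a ∈ C, ∀ b ∈ C, Relation.ReflTransGen (ClassEdge P C) a b)
    (hpol : ¬ ∃ sg, Polar P id C sg) (hKC : ∀ s ∈ C, s ∉ K)
    (hKax : ∀ s t, P.ax s t → t ∉ K) :
    ∃ walk cp m, ClassOK P (⟨C, K, walk, cp⟩ : HData S) m := by
  classical
  have hpath : ∀ a ∈ C, ∀ b ∈ C, ∃ n, GPath (ClassEdge P C) n a b :=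
    fun a ha b hb => GPath.of_rtg (hconn a ha b hb)
  obtain ⟨o, ho, n₀, hodd, hcyc⟩ := exists_odd_cycle hP hpath hpol
  have heven : ∀ a ∈ C, ∀ b ∈ C, ∃ k, GPath (ClassEdge P C) (2 * k) a b := by
    intro a ha b hb
    obtain ⟨p, hp⟩ := hpath a ha o ho
    obtain ⟨q, hq⟩ := hpath o ho b hb
    obtain ⟨j, hj⟩ := hodd
    rcases Nat.even_or_odd (p + q) with ⟨k, hk⟩ | ⟨k, hk⟩
    · exact ⟨k, by rw [show 2 * k = p + q by omega]; exact hp.trans hq⟩
    · exact ⟨k + j + 1,
        by rw [show 2 * (k + j + 1) = p + n₀ + q by omega]; exact (hp.trans hcyc).trans hq⟩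
  have hloop : ∀ s : C, ∃ n, 0 < n ∧ GPath (ClassEdge P C) n s.1 s.1 := by
    intro ⟨s, hs⟩
    obtain ⟨a, ha, hr⟩ := hpred s hs
    obtain ⟨p, hp⟩ := hpath s hs a ha
    exact ⟨p + 1, Nat.succ_pos _, hp.trans (.cons ⟨ha, hs, hr⟩ (.refl _))⟩
  choose len hlen0 hlen using hloop
  have := hfin.fintype
  let M := ∏ s : C, len s
  have hM : 0 < M := Finset.prod_pos fun s _ => hlen0 s
  let D₀ : HData S := ⟨C, K, fun _ => [], id⟩
  have hw : ∀ s ∈ C, ∃ l, Walk P D₀ s l s ∧ l.length = M := by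
    intro s hs
    refine GPath.walk D₀ M ?_
    obtain ⟨j, hj⟩ : len ⟨s, hs⟩ ∣ M := Finset.dvd_prod_of_mem _ (Finset.mem_univ _)
    rw [show 2 * M = (2 * j) * len ⟨s, hs⟩ by rw [hj]; ring]
    exact (hlen ⟨s, hs⟩).repeat _
  choose! walk hwalk hwlen using hw
  choose! cp hcp hcpr using hpred
  refine ⟨walk, cp, M - 1, ⟨hKax, fun {s} h => hKC s h, fun {s} h => Walk.congr (D := D₀) (D' := ⟨C, K, walk, cp⟩) rfl (hwalk s h),
    fun {s} h => hcp s h, fun {s} h => hcpr s h⟩, fun {s} h => ?_, fun {a b} ha hb => ?_⟩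
  · rw [hwlen s h]; omega
  · obtain ⟨k, hk⟩ := heven a ha b hb
    obtain ⟨l, hl, _⟩ := GPath.walk (⟨C, K, walk, cp⟩ : HData S) k hk
    exact ⟨l, hl⟩

end Vale.Agent.P340
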