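import Vale.Agent.P340.PairSpec

/-!
# The two homomorphisms of a class of colours

Every binder is doubled. The world `false` keeps products; in the world `true` a product whose
sort lies in the class binds a third, computational argument and negates its codomain. Terms
whose colour lies in a collapsed set become constants.
-/

namespace Vale.Agent.P340

variable {S : Type}

/-- A non-dependent product. -/
def Tm.arr (A B : Tm S) : Tm S := .pi A (B.ren Nat.succ)

/-- Iterated double negations along a list of pairs of answer sorts. -/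
def negs (O : S → Tm S) : List (S × S) → Tm S → Tm S
  | [], T => T
  | (d, d') :: l, T => negs O l (Tm.arr (Tm.arr T (O d)) (O d'))

/-- The images of the variables and the closed answer types and values. -/
structure HEnv (S : Type) where
  v : Bool → ℕ → Tm S
  O : S → Tm S
  o : S → Tm S

/-- Going under a doubled binder. -/
def HEnv.up (e : HEnv S) : HEnv S where
  v w n := match n with
    | 0 => if w then .var 0 else .var 1
    | n + 1 => (e.v w n).ren (· + 2)
  O s := (e.O s).ren (· + 2)
  o s := (e.o s).ren (· + 2)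

/-- A substitution applied to the targets. -/
def HEnv.sub (e : HEnv S) (τ : ℕ → Tm S) : HEnv S where
  v w n := (e.v w n).sub τ
  O s := (e.O s).sub τ
  o s := (e.o s).sub τ

/-- The class, the collapsed colours, the closed walks and the chosen predecessors. -/
structure HData (S : Type) where
  C : Set S
  K : Set S
  walk : S → List (S × S)
  cp : S → S

variable (P : Spec S) (D : HData S)

open Classical in
/-- The type position: a type of collapsed sort becomes the constant type. -/
noncomputable def tySel (Γ : List (Tm S)) (O : S → Tm S) (A img : Tm S) : Tm S :=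
  if h : ∃ s ∈ D.K, Der P Γ A (.srt s) then O h.choose else img

open Classical in
/-- The term position: a term of collapsed colour becomes the constant. -/
noncomputable def colSel (Γ : List (Tm S)) (o : S → Tm S) (t img : Tm S) : Tm S :=
  if h : ∃ s ∈ D.K, HasCol P Γ t s then o h.choose else img

open Classical in
/-- The type of the computational argument, over the doubled binder. -/
noncomputable def hatSel (Γ : List (Tm S)) (O : S → Tm S) (A img : Tm S) (b : S) : Tm S :=
  if h : ∃ a ∈ D.C, Der P Γ A (.srt a) then negs O (D.walk h.choose) img else O (D.cp b)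

open Classical in
/-- The codomain of a product in the world `true`. -/
noncomputable def codSel (Γ : List (Tm S)) (A B : Tm S) (O : S → Tm S) (imgA imgB : Tm S) :
    Tm S :=
  if h : ∃ b ∈ D.C, Der P (A :: Γ) B (.srt b) then
    Tm.arr (hatSel P D Γ O A imgA h.choose) (negs O (D.walk h.choose) imgB)
  else imgB

/-- The homomorphisms. -/
noncomputable def hom : List (Tm S) → HEnv S → Bool → Tm S → Tm S
  | Γ, e, w, .var n => colSel P D Γ e.o (.var n) (e.v w n)
  | _, _, _, .srt s => .srt s
  | Γ, e, w, .app f a =>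
    colSel P D Γ e.o (.app f a)
      (.app (.app (hom Γ e w f) (hom Γ e false a)) (hom Γ e true a))
  | Γ, e, w, .lam A b =>
    let A₀ := tySel P D Γ e.O A (hom Γ e false A)
    colSel P D Γ e.o (.lam A b) (.lam A₀ (.lam (A₀.ren Nat.succ) (hom (A :: Γ) e.up w b)))
  | Γ, e, w, .pi A B =>
    let A₀ := tySel P D Γ e.O A (hom Γ e false A)
    let B₀ := hom (A :: Γ) e.up w B
    .pi A₀ (.pi (A₀.ren Nat.succ) (tySel P D (A :: Γ) e.up.O B
      (if w then codSel P D Γ A B e.up.O ((hom Γ e true A).ren (· + 2)) B₀ else B₀)))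

/-- The image of an expression in type position. -/
noncomputable def homTy (Γ : List (Tm S)) (e : HEnv S) (w : Bool) (A : Tm S) : Tm S :=
  tySel P D Γ e.O A (hom P D Γ e w A)

variable {P D} {Γ : List (Tm S)} {O : S → Tm S} {A B t img imgA imgB : Tm S} {s c : S}

theorem tySel_mem (hP : PairSpec P) (h : Der P Γ A (.srt s)) (hs : s ∈ D.K) :
    tySel P D Γ O A img = O s := by
  have h' : ∃ s ∈ D.K, Der P Γ A (.srt s) := ⟨s, hs, h⟩
  rw [tySel, dif_pos h', hP.sort_eq h'.choose_spec.2 h]

theorem tySel_not_mem (hP : PairSpec P) (h : Der P Γ A (.srt s)) (hs : s ∉ D.K) :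
    tySel P D Γ O A img = img := by
  rw [tySel, dif_neg]
  rintro ⟨s', hs', h'⟩
  exact hs (hP.sort_eq h h' ▸ hs')

theorem tySel_srt (hK : ∀ s t, P.ax s t → t ∉ D.K) :
    tySel P D Γ O (.srt s) img = img := by
  rw [tySel, dif_neg]
  rintro ⟨t, ht, h⟩
  exact hK _ _ h.srt_type ht

theorem colSel_mem (hP : PairSpec P) (hΓ : Wf P Γ) (h : HasCol P Γ t c) (hc : c ∈ D.K) :
    colSel P D Γ O t img = O c := by
  have h' : ∃ s ∈ D.K, HasCol P Γ t s := ⟨c, hc, h⟩
  rw [colSel, dif_pos h', h'.choose_spec.2.unique hP hΓ h]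

theorem colSel_not_mem (hP : PairSpec P) (hΓ : Wf P Γ) (h : HasCol P Γ t c) (hc : c ∉ D.K) :
    colSel P D Γ O t img = img := by
  rw [colSel, dif_neg]
  rintro ⟨s', hs', h'⟩
  exact hc (h.unique hP hΓ h' ▸ hs')

theorem hatSel_mem (hP : PairSpec P) (h : Der P Γ A (.srt s)) (hs : s ∈ D.C) :
    hatSel P D Γ O A img c = negs O (D.walk s) img := by
  have h' : ∃ a ∈ D.C, Der P Γ A (.srt a) := ⟨s, hs, h⟩
  rw [hatSel, dif_pos h', hP.sort_eq h'.choose_spec.2 h]

theorem hatSel_not_mem (hP : PairSpec P) (h : Der P Γ A (.srt s)) (hs : s ∉ D.C) :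
    hatSel P D Γ O A img c = O (D.cp c) := by
  rw [hatSel, dif_neg]
  rintro ⟨s', hs', h'⟩
  exact hs (hP.sort_eq h h' ▸ hs')

theorem codSel_mem (hP : PairSpec P) (h : Der P (A :: Γ) B (.srt s)) (hs : s ∈ D.C) :
    codSel P D Γ A B O imgA imgB =
      Tm.arr (hatSel P D Γ O A imgA s) (negs O (D.walk s) imgB) := by
  have h' : ∃ b ∈ D.C, Der P (A :: Γ) B (.srt b) := ⟨s, hs, h⟩
  rw [codSel, dif_pos h', hP.sort_eq h'.choose_spec.2 h]

theorem codSel_not_mem (hP : PairSpec P) (h : Der P (A :: Γ) B (.srt s)) (hs : s ∉ D.C) :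
    codSel P D Γ A B O imgA imgB = imgB := by
  rw [codSel, dif_neg]
  rintro ⟨s', hs', h'⟩
  exact hs (hP.sort_eq h h' ▸ hs')

end Vale.Agent.P340
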