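import Vale.Agent.P340.MemSyntax

/-!
# Parallel reduction with memory

The flag records that at least one contraction is made. As nothing is erased, commuting with a
disjoint set of labels keeps the flag.
-/

namespace Vale.Agent.P340

open Relation

variable {S L : Type}

/-- Parallel contraction of labels in `R`; flag `true`: at least one contraction. -/
inductive MPar (R : Set L) : Bool → MTm S L → MTm S L → Prop
  | var (n) : MPar R false (.var n) (.var n)
  | srt (s) : MPar R false (.srt s) (.srt s)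
  | pi {i j k A A' B B'} : MPar R i A A' → MPar R j B B' → (k = true → i = true ∨ j = true) →
      MPar R k (.pi A B) (.pi A' B')
  | lam {i j k A A' b b'} : MPar R i A A' → MPar R j b b' → (k = true → i = true ∨ j = true) →
      MPar R k (.lam A b) (.lam A' b')
  | app {i j k c f f' a a'} : MPar R i f f' → MPar R j a a' → (k = true → i = true ∨ j = true) →
      MPar R k (.app c f a) (.app c f' a')
  | mem {i j k p p' e e'} : MPar R i p p' → MPar R j e e' → (k = true → i = true ∨ j = true) →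
      MPar R k (.mem p e) (.mem p' e')
  | beta {k c f f' a a' r} : c ∈ R → LamHd f → MPar R false f f' → MPar R false a a' →
      Ctr f' a' r → MPar R k (.app c f a) r

variable {R H C : Set L}

theorem MPar.refl : ∀ t : MTm S L, MPar R false t t
  | .var n => .var n
  | .srt s => .srt s
  | .pi A B => .pi (MPar.refl A) (MPar.refl B) (by simp)
  | .lam A b => .lam (MPar.refl A) (MPar.refl b) (by simp)
  | .app _ f a => .app (MPar.refl f) (MPar.refl a) (by simp)
  | .mem p e => .mem (MPar.refl p) (MPar.refl e) (by simp)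

theorem MPar.weak {i : Bool} {t u : MTm S L} (h : MPar R i t u) : MPar R false t u := by
  cases h with
  | var n => exact .var n
  | srt s => exact .srt s
  | pi h₁ h₂ _ => exact .pi h₁ h₂ (by simp)
  | lam h₁ h₂ _ => exact .lam h₁ h₂ (by simp)
  | app h₁ h₂ _ => exact .app h₁ h₂ (by simp)
  | mem h₁ h₂ _ => exact .mem h₁ h₂ (by simp)
  | beta hc hl h₁ h₂ hr => exact .beta hc hl h₁ h₂ hr

theorem MStep.par {t u : MTm S L} (h : MStep R t u) : MPar R true t u := by
  induction h with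
  | beta hc hr => exact .beta hc hr.lamHd (.refl _) (.refl _) hr
  | piL B _ ih => exact .pi ih (.refl _) (by simp)
  | piR A _ ih => exact .pi (.refl _) ih (by simp)
  | lamL b _ ih => exact .lam ih (.refl _) (by simp)
  | lamR A _ ih => exact .lam (.refl _) ih (by simp)
  | appL c a _ ih => exact .app ih (.refl _) (by simp)
  | appR c f _ ih => exact .app (.refl _) ih (by simp)
  | memL e _ ih => exact .mem ih (.refl _) (by simp)
  | memR p _ ih => exact .mem (.refl _) ih (by simp)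

theorem LamHd.par {i : Bool} {f f' : MTm S L} (h : LamHd f) (hp : MPar R i f f') : LamHd f' := by
  induction h generalizing i f' with
  | lam A b => cases hp with | lam _ _ _ => exact .lam _ _
  | mem e _ ih => cases hp with | mem h₁ _ _ => exact .mem _ (ih h₁)

theorem MPar.ren {i : Bool} {t u : MTm S L} (h : MPar R i t u) :
    ∀ ξ, MPar R i (t.ren ξ) (u.ren ξ) := by
  induction h with
  | var n => intro ξ; exact .var _
  | srt s => intro ξ; exact .srt _
  | pi _ _ hk ih₁ ih₂ => intro ξ; exact .pi (ih₁ _) (ih₂ _) hk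
  | lam _ _ hk ih₁ ih₂ => intro ξ; exact .lam (ih₁ _) (ih₂ _) hk
  | app _ _ hk ih₁ ih₂ => intro ξ; exact .app (ih₁ _) (ih₂ _) hk
  | mem _ _ hk ih₁ ih₂ => intro ξ; exact .mem (ih₁ _) (ih₂ _) hk
  | beta hc hl _ _ hr ih₁ ih₂ =>
    intro ξ
    refine .beta hc ?_ (ih₁ _) (ih₂ _) (hr.ren ξ)
    obtain ⟨r', hr'⟩ := hl.ctr (.var 0)
    exact (hr'.ren ξ).lamHd

theorem mpar_up {σ τ : ℕ → MTm S L} (h : ∀ n, MPar R false (σ n) (τ n)) :
    ∀ n, MPar R false (MTm.up σ n) (MTm.up τ n)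
  | 0 => .var 0
  | n + 1 => (h n).ren _

theorem MPar.sub {i : Bool} {t u : MTm S L} (h : MPar R i t u) :
    ∀ {σ τ : ℕ → MTm S L}, (∀ n, MPar R false (σ n) (τ n)) → MPar R i (t.sub σ) (u.sub τ) := by
  induction h with
  | var n => intro σ τ hs; exact hs n
  | srt s => intro σ τ _; exact .srt _
  | pi _ _ hk ih₁ ih₂ => intro σ τ hs; exact .pi (ih₁ hs) (ih₂ (mpar_up hs)) hk
  | lam _ _ hk ih₁ ih₂ => intro σ τ hs; exact .lam (ih₁ hs) (ih₂ (mpar_up hs)) hk
  | app _ _ hk ih₁ ih₂ => intro σ τ hs; exact .app (ih₁ hs) (ih₂ hs) hk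
  | mem _ _ hk ih₁ ih₂ => intro σ τ hs; exact .mem (ih₁ hs) (ih₂ hs) hk
  | beta hc hl _ _ hr ih₁ ih₂ =>
    intro σ τ hs
    refine .beta hc ?_ (ih₁ hs) (ih₂ hs) (hr.sub τ)
    obtain ⟨r', hr'⟩ := hl.ctr (.var 0)
    exact (hr'.sub σ).lamHd

/-- Contraction is compatible with parallel reduction, keeping the flag. -/
theorem Ctr.par {f a r f' a' : MTm S L} (h : Ctr f a r) :
    ∀ {i j k : Bool}, MPar R i f f' → MPar R j a a' → (k = true → i = true ∨ j = true) →
      ∃ r', Ctr f' a' r' ∧ MPar R k r r' := by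
  induction h generalizing f' a' with
  | lam A b a =>
    intro i j k hf ha hk
    cases hf with
    | @lam i₁ i₂ _ A _ b _ hA hb hi =>
      refine ⟨_, .lam _ _ _, ?_⟩
      have hin : MPar R i₂ (b.inst a) _ :=
        hb.sub (σ := MTm.scons a MTm.var) (τ := MTm.scons a' MTm.var)
          fun n => by cases n with
            | zero => exact ha.weak
            | succ n => exact .var n
      refine MPar.mem (i := i₂ || j) (j := i₁) (MPar.mem hin ha (by simp)) hA ?_
      intro e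
      rcases hk e with h | h
      · rcases hi h with h' | h' <;> simp [h']
      · simp [h]
  | mem e _ ih =>
    intro i j k hf ha hk
    cases hf with
    | @mem i₁ i₂ _ _ p' _ e' hp he hi =>
      obtain ⟨r', hr', hpar⟩ := ih (k := i₁ || j) hp ha (by simp)
      refine ⟨_, .mem _ hr', .mem hpar he ?_⟩
      intro h
      rcases hk h with h | h
      · rcases hi h with h' | h' <;> simp [h']
      · simp [h]

theorem Ctr.unique {f a r r' : MTm S L} (h : Ctr f a r) (h' : Ctr f a r') : r = r' := by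
  induction h generalizing r' with
  | lam A b a => cases h'; rfl
  | mem e _ ih => cases h' with | mem _ h' => rw [ih h']

/-- Parallel reductions of disjoint sets of labels commute, keeping the flag. -/
theorem MPar.commute (hd : Disjoint C H) {i : Bool} {t x : MTm S L} (h : MPar C i t x) :
    ∀ {y : MTm S L}, MPar H false t y → ∃ z, MPar H false x z ∧ MPar C i y z := by
  induction h with
  | var n => intro y hy; cases hy; exact ⟨_, .var n, .var n⟩
  | srt s => intro y hy; cases hy; exact ⟨_, .srt s, .srt s⟩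
  | pi _ _ hk ih₁ ih₂ =>
    intro y hy
    cases hy with
    | pi g₁ g₂ _ =>
      obtain ⟨z₁, a₁, b₁⟩ := ih₁ g₁.weak
      obtain ⟨z₂, a₂, b₂⟩ := ih₂ g₂.weak
      exact ⟨_, .pi a₁ a₂ (by simp), .pi b₁ b₂ hk⟩
  | lam _ _ hk ih₁ ih₂ =>
    intro y hy
    cases hy with
    | lam g₁ g₂ _ =>
      obtain ⟨z₁, a₁, b₁⟩ := ih₁ g₁.weak
      obtain ⟨z₂, a₂, b₂⟩ := ih₂ g₂.weak
      exact ⟨_, .lam a₁ a₂ (by simp), .lam b₁ b₂ hk⟩
  | mem _ _ hk ih₁ ih₂ =>
    intro y hy
    cases hy with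
    | mem g₁ g₂ _ =>
      obtain ⟨z₁, a₁, b₁⟩ := ih₁ g₁.weak
      obtain ⟨z₂, a₂, b₂⟩ := ih₂ g₂.weak
      exact ⟨_, .mem a₁ a₂ (by simp), .mem b₁ b₂ hk⟩
  | app h₁ _ hk ih₁ ih₂ =>
    intro y hy
    cases hy with
    | app g₁ g₂ _ =>
      obtain ⟨z₁, a₁, b₁⟩ := ih₁ g₁.weak
      obtain ⟨z₂, a₂, b₂⟩ := ih₂ g₂.weak
      exact ⟨_, .app a₁ a₂ (by simp), .app b₁ b₂ hk⟩
    | beta hc hl g₁ g₂ hr =>
      obtain ⟨z₁, a₁, b₁⟩ := ih₁ g₁
      obtain ⟨z₂, a₂, b₂⟩ := ih₂ g₂
      obtain ⟨z, hz, hp⟩ := hr.par b₁ b₂ hk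
      exact ⟨z, .beta hc (hl.par h₁) a₁ a₂ hz, hp⟩
  | beta hc hl _ _ hr ih₁ ih₂ =>
    intro y hy
    cases hy with
    | app g₁ g₂ _ =>
      obtain ⟨z₁, a₁, b₁⟩ := ih₁ g₁.weak
      obtain ⟨z₂, a₂, b₂⟩ := ih₂ g₂.weak
      obtain ⟨z, hz, hp⟩ := hr.par (k := false) a₁ a₂ (by simp)
      exact ⟨z, hp, .beta hc (hl.par g₁) b₁ b₂ hz⟩
    | beta hc' _ _ _ _ => exact (Set.disjoint_left.mp hd hc hc').elim

theorem MRed.lift {F : MTm S L → MTm S L} (hF : ∀ x y, MStep R x y → MStep R (F x) (F y))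
    {t u : MTm S L} (h : MRed R t u) : MRed R (F t) (F u) :=
  Relation.ReflTransGen.lift F hF _ _ h

theorem MPar.red {i : Bool} {t u : MTm S L} (h : MPar R i t u) :
    MRed R t u ∧ (i = true → TransGen (MStep R) t u) := by
  induction h with
  | var n => exact ⟨.refl, by simp⟩
  | srt s => exact ⟨.refl, by simp⟩
  | @pi i j k A A' B B' _ _ hk ih₁ ih₂ =>
    refine ⟨(MRed.lift (fun _ _ h => .piL B h) ih₁.1).trans
      (MRed.lift (fun _ _ h => .piR A' h) ih₂.1), fun e => ?_⟩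
    rcases hk e with h | h
    · exact ((ih₁.2 h).lift (MTm.pi · B) fun _ _ h => .piL B h).trans_left
        (MRed.lift (fun _ _ h => .piR A' h) ih₂.1)
    · exact ((ih₂.2 h).lift (MTm.pi A' ·) fun _ _ h => .piR A' h).trans_right
        (MRed.lift (fun _ _ h => .piL B h) ih₁.1)
  | @lam i j k A A' B B' _ _ hk ih₁ ih₂ =>
    refine ⟨(MRed.lift (fun _ _ h => .lamL B h) ih₁.1).trans
      (MRed.lift (fun _ _ h => .lamR A' h) ih₂.1), fun e => ?_⟩
    rcases hk e with h | h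
    · exact ((ih₁.2 h).lift (MTm.lam · B) fun _ _ h => .lamL B h).trans_left
        (MRed.lift (fun _ _ h => .lamR A' h) ih₂.1)
    · exact ((ih₂.2 h).lift (MTm.lam A' ·) fun _ _ h => .lamR A' h).trans_right
        (MRed.lift (fun _ _ h => .lamL B h) ih₁.1)
  | @app i j k c A A' B B' _ _ hk ih₁ ih₂ =>
    refine ⟨(MRed.lift (fun _ _ h => .appL c B h) ih₁.1).trans
      (MRed.lift (fun _ _ h => .appR c A' h) ih₂.1), fun e => ?_⟩
    rcases hk e with h | h
    · exact ((ih₁.2 h).lift (MTm.app c · B) fun _ _ h => .appL c B h).trans_left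
        (MRed.lift (fun _ _ h => .appR c A' h) ih₂.1)
    · exact ((ih₂.2 h).lift (MTm.app c A' ·) fun _ _ h => .appR c A' h).trans_right
        (MRed.lift (fun _ _ h => .appL c B h) ih₁.1)
  | @mem i j k A A' B B' _ _ hk ih₁ ih₂ =>
    refine ⟨(MRed.lift (fun _ _ h => .memL B h) ih₁.1).trans
      (MRed.lift (fun _ _ h => .memR A' h) ih₂.1), fun e => ?_⟩
    rcases hk e with h | h
    · exact ((ih₁.2 h).lift (MTm.mem · B) fun _ _ h => .memL B h).trans_left
        (MRed.lift (fun _ _ h => .memR A' h) ih₂.1)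
    · exact ((ih₂.2 h).lift (MTm.mem A' ·) fun _ _ h => .memR A' h).trans_right
        (MRed.lift (fun _ _ h => .memL B h) ih₁.1)
  | @beta k c f f' a a' r hc _ _ _ hr ih₁ ih₂ =>
    have hp : MRed R (.app c f a) (.app c f' a') :=
      (MRed.lift (fun _ _ h => .appL c a h) ih₁.1).trans
        (MRed.lift (fun _ _ h => .appR c f' h) ih₂.1)
    exact ⟨hp.tail (.beta hc hr), fun _ => TransGen.tail' hp (.beta hc hr)⟩

/-- A step of `C` commutes with a reduction of `H`, leaving at least one contraction. -/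
theorem MPar.commute_red (hd : Disjoint C H) {i : Bool} {t x y : MTm S L} (h : MPar C i t x)
    (hy : MRed H t y) : ∃ z, MRed H x z ∧ MPar C i y z := by
  induction hy with
  | refl => exact ⟨x, .refl, h⟩
  | tail _ hs ih =>
    obtain ⟨z, h₁, h₂⟩ := ih
    obtain ⟨w, g₁, g₂⟩ := h₂.commute hd hs.par.weak
    exact ⟨w, h₁.trans g₁.red.1, g₂⟩

/-- Joining two reductions of one set of labels. -/
theorem MPar.diamond {t x : MTm S L} {i : Bool} (h : MPar R i t x) :
    ∀ {y : MTm S L} {j : Bool}, MPar R j t y → ∃ z, MPar R false x z ∧ MPar R false y z := by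
  induction h with
  | var n => intro y j hy; cases hy; exact ⟨_, .var n, .var n⟩
  | srt s => intro y j hy; cases hy; exact ⟨_, .srt s, .srt s⟩
  | pi _ _ _ ih₁ ih₂ =>
    intro y j hy
    cases hy with
    | pi g₁ g₂ _ =>
      obtain ⟨z₁, a₁, b₁⟩ := ih₁ g₁
      obtain ⟨z₂, a₂, b₂⟩ := ih₂ g₂
      exact ⟨_, .pi a₁ a₂ (by simp), .pi b₁ b₂ (by simp)⟩
  | lam _ _ _ ih₁ ih₂ =>
    intro y j hy
    cases hy with
    | lam g₁ g₂ _ =>
      obtain ⟨z₁, a₁, b₁⟩ := ih₁ g₁
      obtain ⟨z₂, a₂, b₂⟩ := ih₂ g₂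
      exact ⟨_, .lam a₁ a₂ (by simp), .lam b₁ b₂ (by simp)⟩
  | mem _ _ _ ih₁ ih₂ =>
    intro y j hy
    cases hy with
    | mem g₁ g₂ _ =>
      obtain ⟨z₁, a₁, b₁⟩ := ih₁ g₁
      obtain ⟨z₂, a₂, b₂⟩ := ih₂ g₂
      exact ⟨_, .mem a₁ a₂ (by simp), .mem b₁ b₂ (by simp)⟩
  | app h₁ _ _ ih₁ ih₂ =>
    intro y j hy
    cases hy with
    | app g₁ g₂ _ =>
      obtain ⟨z₁, a₁, b₁⟩ := ih₁ g₁
      obtain ⟨z₂, a₂, b₂⟩ := ih₂ g₂
      exact ⟨_, .app a₁ a₂ (by simp), .app b₁ b₂ (by simp)⟩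
    | beta hc hl g₁ g₂ hr =>
      obtain ⟨z₁, a₁, b₁⟩ := ih₁ g₁
      obtain ⟨z₂, a₂, b₂⟩ := ih₂ g₂
      obtain ⟨z, hz, hp⟩ := hr.par (k := false) b₁ b₂ (by simp)
      exact ⟨z, .beta hc (hl.par h₁) a₁ a₂ hz, hp⟩
  | beta hc hl _ _ hr ih₁ ih₂ =>
    intro y j hy
    cases hy with
    | app g₁ g₂ _ =>
      obtain ⟨z₁, a₁, b₁⟩ := ih₁ g₁
      obtain ⟨z₂, a₂, b₂⟩ := ih₂ g₂
      obtain ⟨z, hz, hp⟩ := hr.par (k := false) a₁ a₂ (by simp)
      exact ⟨z, hp, .beta hc (hl.par g₁) b₁ b₂ hz⟩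
    | beta _ _ g₁ g₂ hr' =>
      obtain ⟨z₁, a₁, b₁⟩ := ih₁ g₁
      obtain ⟨z₂, a₂, b₂⟩ := ih₂ g₂
      obtain ⟨z, hz, hp⟩ := hr.par (k := false) a₁ a₂ (by simp)
      obtain ⟨z', hz', hp'⟩ := hr'.par (k := false) b₁ b₂ (by simp)
      exact ⟨z, hp, hz.unique hz' ▸ hp'⟩

/-- Confluence of one set of labels. -/
theorem MRed.confluence {t x y : MTm S L} (h₁ : MRed R t x) (h₂ : MRed R t y) :
    ∃ z, MRed R x z ∧ MRed R y z := by
  let P := fun u v : MTm S L => MPar R false u v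
  have toP : ∀ {u v}, MRed R u v → ReflTransGen P u v := fun h =>
    ReflTransGen.mono (fun _ _ h => h.par.weak) _ _ h
  have ofP : ∀ {u v}, ReflTransGen P u v → MRed R u v := fun h => by
    induction h with
    | refl => exact .refl
    | tail _ h ih => exact ih.trans (MPar.red h).1
  obtain ⟨z, g₁, g₂⟩ := Relation.church_rosser (r := P)
    (fun a b c hab hac => by
      obtain ⟨d, d₁, d₂⟩ := MPar.diamond hab hac
      exact ⟨d, .single d₁, .single d₂⟩) (toP h₁) (toP h₂)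
  exact ⟨z, ofP g₁, ofP g₂⟩

end Vale.Agent.P340
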