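import Vale.Agent.P340.Typing
import Vale.Agent.P340.MemPar

/-!
# Typed terms with memory

Types and contexts are ordinary expressions; conversion acts on erasures.
-/

namespace Vale.Agent.P340

open Relation

variable {S L : Type}

/-- A colouring of sorts: sorts of one type get one colour. -/
structure Colouring (P : Spec S) (L : Type) where
  col : S → L
  sound : ∀ {Γ : List (Tm S)} {T : Tm S} {s s' : S}, Wf P Γ →
    Der P Γ T (.srt s) → Der P Γ T (.srt s') → col s = col s'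

variable {P : Spec S}

theorem Colouring.sound_conv (K : Colouring P L) {Γ : List (Tm S)} {T T' : Tm S} {s s' : S}
    (hΓ : Wf P Γ) (h : Der P Γ T (.srt s)) (h' : Der P Γ T' (.srt s')) (hc : BConv T T') :
    K.col s = K.col s' := by
  obtain ⟨C, h₁, h₂⟩ := bconv_join hc
  exact K.sound hΓ (h.red hΓ h₁) (h'.red hΓ h₂)

/-- Typing of terms with memory. The label of an application is the colour of the sort of the
type of its function. -/
inductive MDer (P : Spec S) (col : S → L) : List (Tm S) → MTm S L → Tm S → Prop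
  | axiom_ {Γ s t} : P.ax s t → MDer P col Γ (.srt s) (.srt t)
  | var {Γ n A} : Lk Γ n A → MDer P col Γ (.var n) A
  | prod {Γ A B s₁ s₂ s₃} : MDer P col Γ A (.srt s₁) →
      MDer P col (A.erase :: Γ) B (.srt s₂) → P.rule s₁ s₂ s₃ →
      MDer P col Γ (.pi A B) (.srt s₃)
  | abs {Γ A b B s₁ s} : MDer P col Γ A (.srt s₁) → MDer P col (A.erase :: Γ) b B →
      Der P Γ (.pi A.erase B) (.srt s) → MDer P col Γ (.lam A b) (.pi A.erase B)
  | appl {Γ f a A B s c} : MDer P col Γ f (.pi A B) → MDer P col Γ a A →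
      Der P Γ (.pi A B) (.srt s) → c = col s → MDer P col Γ (.app c f a) (B.inst a.erase)
  | mem {Γ p e B E} : MDer P col Γ p B → MDer P col Γ e E → MDer P col Γ (.mem p e) B
  | conv {Γ t A B s} : MDer P col Γ t A → Der P Γ B (.srt s) → BConv A B → MDer P col Γ t B

variable {col : S → L}

theorem MDer.toDer {Γ : List (Tm S)} {t : MTm S L} {T : Tm S} (h : MDer P col Γ t T) :
    Der P Γ t.erase T := by
  induction h with
  | axiom_ h => exact .axiom_ h
  | var h => exact .var h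
  | prod _ _ hr ihA ihB => exact .prod ihA ihB hr
  | abs _ _ hp ihA ihb => exact .abs ihA ihb hp
  | appl _ _ _ _ ihf iha => exact .appl ihf iha
  | mem _ _ ihp _ => exact ihp
  | conv _ hB hc ih => exact .conv ih hB hc

/-- Correctness of types. -/
theorem MDer.correct {Γ : List (Tm S)} {t : MTm S L} {T : Tm S} (h : MDer P col Γ t T)
    (hΓ : Wf P Γ) : (∃ s, T = .srt s) ∨ ∃ s, Der P Γ T (.srt s) :=
  h.toDer.correct hΓ

theorem MDer.rename {Γ Δ : List (Tm S)} {t : MTm S L} {T : Tm S} {ξ : ℕ → ℕ}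
    (h : MDer P col Γ t T) (hξ : Rens ξ Γ Δ) : MDer P col Δ (t.ren ξ) (T.ren ξ) := by
  induction h generalizing Δ ξ with
  | axiom_ h => exact .axiom_ h
  | var h => exact .var (hξ _ _ h)
  | prod _ _ hr ihA ihB =>
    exact .prod (ihA hξ) (by simpa using ihB (hξ.up _)) hr
  | @abs Γ A b B s₁ s _ _ hp ihA ihb =>
    have h1 : MDer P col Δ (.lam (A.ren ξ) (b.ren (upr ξ))) (.pi (A.ren ξ).erase (B.ren (upr ξ))) :=
      .abs (ihA hξ) (by simpa using ihb (hξ.up _)) (by simpa using hp.rename hξ)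
    simpa using h1
  | appl _ _ hp hc ihf iha =>
    rw [Tm.ren_inst, ← MTm.erase_ren]
    exact .appl (ihf hξ) (iha hξ) (hp.rename hξ) hc
  | mem _ _ ihp ihe => exact .mem (ihp hξ) (ihe hξ)
  | conv _ hB hc ih => exact .conv (ih hξ) (hB.rename hξ) (hc.ren ξ)

theorem MDer.weaken {Γ : List (Tm S)} {t : MTm S L} {T : Tm S} (h : MDer P col Γ t T)
    (A : Tm S) : MDer P col (A :: Γ) (t.ren Nat.succ) (T.ren Nat.succ) :=
  h.rename (Rens.succ Γ A)

/-- A substitution between contexts. -/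
def MSubs (P : Spec S) (col : S → L) (σ : ℕ → MTm S L) (Γ Δ : List (Tm S)) : Prop :=
  ∀ n A, Lk Γ n A → MDer P col Δ (σ n) (A.sub fun m => (σ m).erase)

theorem MSubs.erase {σ : ℕ → MTm S L} {Γ Δ : List (Tm S)} (h : MSubs P col σ Γ Δ) :
    Subs P (fun m => (σ m).erase) Γ Δ :=
  fun n A hl => (h n A hl).toDer

theorem MSubs.up {σ : ℕ → MTm S L} {Γ Δ : List (Tm S)} (h : MSubs P col σ Γ Δ) (A : Tm S) :
    MSubs P col (MTm.up σ) (A :: Γ) (A.sub (fun m => (σ m).erase) :: Δ) := by
  intro n B hB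
  rw [MTm.erase_up]
  cases hB with
  | zero => simpa [Tm.sub_ren, Tm.ren_sub, Function.comp_def] using
      (MDer.var (P := P) (col := col) (Lk.zero (Γ := Δ) (A := A.sub fun m => (σ m).erase)))
  | succ h' => simpa [Tm.sub_ren, Tm.ren_sub, Function.comp_def] using
      (h _ _ h').weaken (A.sub fun m => (σ m).erase)

theorem MDer.subst {Γ Δ : List (Tm S)} {t : MTm S L} {T : Tm S} {σ : ℕ → MTm S L}
    (h : MDer P col Γ t T) (hσ : MSubs P col σ Γ Δ) :
    MDer P col Δ (t.sub σ) (T.sub fun m => (σ m).erase) := by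
  induction h generalizing Δ σ with
  | axiom_ h => exact .axiom_ h
  | var h => exact hσ _ _ h
  | prod _ _ hr ihA ihB => exact .prod (ihA hσ) (by simpa using ihB (hσ.up _)) hr
  | @abs Γ A b B s₁ s _ _ hp ihA ihb =>
    have h1 : MDer P col Δ (.lam (A.sub σ) (b.sub (MTm.up σ)))
        (.pi (A.sub σ).erase (B.sub (ups fun m => (σ m).erase))) :=
      .abs (ihA hσ) (by simpa [MTm.erase_up] using ihb (hσ.up _))
        (by simpa using hp.subst hσ.erase)
    simpa using h1
  | appl _ _ hp hc ihf iha =>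
    rw [Tm.sub_inst, ← MTm.erase_sub]
    exact .appl (ihf hσ) (iha hσ) (hp.subst hσ.erase) hc
  | mem _ _ ihp ihe => exact .mem (ihp hσ) (ihe hσ)
  | conv _ hB hc ih => exact .conv (ih hσ) (hB.subst hσ.erase) (hc.sub _)

theorem MSubs.id (Γ : List (Tm S)) : MSubs P col MTm.var Γ Γ := by
  intro n A h; simpa [MTm.erase] using MDer.var h

theorem MSubs.scons {σ : ℕ → MTm S L} {Γ Δ : List (Tm S)} {A : Tm S} {a : MTm S L}
    (h : MSubs P col σ Γ Δ) (ha : MDer P col Δ a (A.sub fun m => (σ m).erase)) :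
    MSubs P col (MTm.scons a σ) (A :: Γ) Δ := by
  intro n B hB
  cases hB with
  | zero => simpa [Tm.sub_ren, Function.comp_def] using ha
  | succ h' => simpa [Tm.sub_ren, Function.comp_def] using h _ _ h'

theorem MDer.inst {Γ : List (Tm S)} {A : Tm S} {t a : MTm S L} {T : Tm S}
    (h : MDer P col (A :: Γ) t T) (ha : MDer P col Γ a A) :
    MDer P col Γ (t.inst a) (T.inst a.erase) := by
  have h1 := h.subst ((MSubs.id Γ).scons (a := a) (by simpa [MTm.erase] using ha))
  have e : (fun m => (MTm.scons a MTm.var m).erase) = sub0 a.erase := by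
    funext n; cases n <;> rfl
  rwa [e] at h1

theorem MDer.convHead {Γ : List (Tm S)} {A A' : Tm S} {s : S} {t : MTm S L} {T : Tm S}
    (h : MDer P col (A :: Γ) t T) (hA : Der P Γ A (.srt s)) (hc : BConv A' A) :
    MDer P col (A' :: Γ) t T := by
  have hs : MSubs P col MTm.var (A :: Γ) (A' :: Γ) := by
    intro n B hB
    have e : (fun m => (MTm.var m : MTm S L).erase) = (Tm.var : ℕ → Tm S) := rfl
    rw [e, Tm.sub_id]
    cases hB with
    | zero => exact .conv (.var .zero) (hA.weaken A') (hc.ren _)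
    | succ h' => exact .var h'.succ
  simpa [MTm.erase] using h.subst hs

/-! ### Generation -/

theorem MDer.gen_var {Γ : List (Tm S)} {n : ℕ} {T : Tm S}
    (h : MDer P col Γ (.var n) T) : ∃ A, Lk Γ n A ∧ BConv A T := by
  generalize hM : (MTm.var n : MTm S L) = M at h
  induction h with
  | var h => cases hM; exact ⟨_, h, .refl _⟩
  | conv _ _ hc ih => obtain ⟨A, h1, h2⟩ := ih hM; exact ⟨A, h1, h2.trans hc⟩
  | _ => simp at hM

theorem MDer.gen_lam {Γ : List (Tm S)} {A b : MTm S L} {T : Tm S}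
    (h : MDer P col Γ (.lam A b) T) :
    ∃ s₁ B s, MDer P col Γ A (.srt s₁) ∧ MDer P col (A.erase :: Γ) b B ∧
      Der P Γ (.pi A.erase B) (.srt s) ∧ BConv (.pi A.erase B) T := by
  generalize hM : MTm.lam A b = M at h
  induction h with
  | abs hA hb hp => cases hM; exact ⟨_, _, _, hA, hb, hp, .refl _⟩
  | conv _ _ hc ih =>
    obtain ⟨a, b', c, h1, h2, h3, h4⟩ := ih hM
    exact ⟨a, b', c, h1, h2, h3, h4.trans hc⟩
  | _ => simp at hM

theorem MDer.gen_app {Γ : List (Tm S)} {c : L} {f a : MTm S L} {T : Tm S}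
    (h : MDer P col Γ (.app c f a) T) :
    ∃ A B s, MDer P col Γ f (.pi A B) ∧ MDer P col Γ a A ∧ Der P Γ (.pi A B) (.srt s) ∧
      c = col s ∧ BConv (B.inst a.erase) T := by
  generalize hM : MTm.app c f a = M at h
  induction h with
  | appl hf ha hp hc => cases hM; exact ⟨_, _, _, hf, ha, hp, hc, .refl _⟩
  | conv _ _ hc ih =>
    obtain ⟨a, b', s, h1, h2, h3, h4, h5⟩ := ih hM
    exact ⟨a, b', s, h1, h2, h3, h4, h5.trans hc⟩
  | _ => simp at hM

theorem MDer.gen_mem {Γ : List (Tm S)} {p e : MTm S L} {T : Tm S}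
    (h : MDer P col Γ (.mem p e) T) :
    MDer P col Γ p T ∧ ∃ E, MDer P col Γ e E := by
  generalize hM : MTm.mem p e = M at h
  induction h with
  | mem hp he => cases hM; exact ⟨hp, _, he⟩
  | conv _ hB hc ih =>
    obtain ⟨h1, h2⟩ := ih hM
    exact ⟨.conv h1 hB hc, h2⟩
  | _ => simp at hM

/-- The result of a contraction has the type of the application. -/
theorem Ctr.der {f a r : MTm S L} (hr : Ctr f a r) : ∀ {Γ : List (Tm S)} {A B : Tm S},
    Wf P Γ → MDer P col Γ f (.pi A B) → MDer P col Γ a A →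
    MDer P col Γ r (B.inst a.erase) := by
  induction hr with
  | lam A' b a =>
    intro Γ A B hΓ hf ha
    obtain ⟨s₁, s₂, s₃, _, hB, _, _⟩ := hf.toDer.pi_type hΓ
    obtain ⟨s₁', B', s, hA', hb, _, hc⟩ := hf.gen_lam
    obtain ⟨hAA, hBB⟩ := bconv_pi_inj hc
    have ha' : MDer P col Γ a A'.erase := .conv ha hA'.toDer hAA.symm
    exact .mem (.mem (.conv (hb.inst ha') (hB.inst ha.toDer) (hBB.sub _)) ha') hA'
  | mem e _ ih =>
    intro Γ A B hΓ hf ha
    obtain ⟨hp, E, he⟩ := hf.gen_mem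
    exact .mem (ih hΓ hp ha) he

variable {R : Set L}

/-- Subject reduction for one step. -/
theorem MDer.step {Γ : List (Tm S)} {t u : MTm S L} {T : Tm S} (h : MDer P col Γ t T)
    (hΓ : Wf P Γ) (hs : MStep R t u) : MDer P col Γ u T := by
  induction h generalizing u with
  | axiom_ => cases hs
  | var => cases hs
  | prod hA hB hr ihA ihB =>
    cases hs with
    | piL _ hs =>
      exact .prod (ihA hΓ hs) (hB.convHead hA.toDer hs.erase.bconv.symm) hr
    | piR _ hs => exact .prod hA (ihB (hΓ.cons hA.toDer) hs) hr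
  | abs hA hb hp ihA ihb =>
    cases hs with
    | lamL _ hs =>
      exact .conv (.abs (ihA hΓ hs) (hb.convHead hA.toDer hs.erase.bconv.symm)
        (hp.red hΓ (Red.pi hs.erase .refl))) hp
        (BConv.pi hs.erase.bconv (.refl _)).symm
    | lamR _ hs => exact .abs hA (ihb (hΓ.cons hA.toDer) hs) hp
  | @appl Γ f a A B s c hf ha hp hc ihf iha =>
    cases hs with
    | appL _ _ hs => exact .appl (ihf hΓ hs) ha hp hc
    | appR _ _ hs =>
      obtain ⟨s₁, s₂, s₃, _, hB, _, _⟩ := hf.toDer.pi_type hΓ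
      exact .conv (.appl hf (iha hΓ hs) hp hc) (hB.inst ha.toDer)
        (BConv.inst_right B hs.erase.bconv.symm)
    | beta _ hr => exact hr.der hΓ hf ha
  | mem _ _ ihp ihe =>
    cases hs with
    | memL _ hs => exact .mem (ihp hΓ hs) (by assumption)
    | memR _ hs => exact .mem (by assumption) (ihe hΓ hs)
  | conv _ hB hc ih => exact .conv (ih hΓ hs) hB hc

/-- Subject reduction. -/
theorem MDer.red {Γ : List (Tm S)} {t u : MTm S L} {T : Tm S} (h : MDer P col Γ t T)
    (hΓ : Wf P Γ) (hr : MRed R t u) : MDer P col Γ u T := by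
  induction hr with
  | refl => exact h
  | tail _ hs ih => exact ih.step hΓ hs

/-- Every derivation has a labelled version. -/
theorem Der.toMem {Γ : List (Tm S)} {M T : Tm S} (h : Der P Γ M T) :
    Wf P Γ → ∃ t : MTm S L, t.erase = M ∧ MDer P col Γ t T := by
  induction h with
  | @axiom_ Γ s t h => intro _; exact ⟨.srt s, rfl, .axiom_ h⟩
  | @var Γ n A h => intro _; exact ⟨.var n, rfl, .var h⟩
  | prod hA _ hr ihA ihB =>
    intro hΓ
    obtain ⟨A', rfl, hA'⟩ := ihA hΓ
    obtain ⟨B', rfl, hB'⟩ := ihB (hΓ.cons hA)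
    exact ⟨.pi A' B', rfl, .prod hA' hB' hr⟩
  | abs hA _ hp ihA ihb _ =>
    intro hΓ
    obtain ⟨A', rfl, hA'⟩ := ihA hΓ
    obtain ⟨b', rfl, hb'⟩ := ihb (hΓ.cons hA)
    exact ⟨.lam A' b', rfl, .abs hA' hb' hp⟩
  | appl hf _ ihf iha =>
    intro hΓ
    obtain ⟨_, _, s, _, _, _, hp⟩ := hf.pi_type hΓ
    obtain ⟨f', rfl, hf'⟩ := ihf hΓ
    obtain ⟨a', rfl, ha'⟩ := iha hΓ
    exact ⟨.app (col s) f' a', rfl, .appl hf' ha' hp rfl⟩
  | conv _ hB hc ih _ =>
    intro hΓ
    obtain ⟨t, rfl, ht⟩ := ih hΓ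
    exact ⟨t, rfl, .conv ht hB hc⟩

/-- Strong normalisation with memory, at all labels, gives strong normalisation. -/
theorem stronglyNormalizing_of_mem (col : S → L)
    (h : ∀ Γ (t : MTm S L) T, Wf P Γ → MDer P col Γ t T → MSN Set.univ t) :
    StronglyNormalizing P := by
  have key : ∀ Γ M T, Wf P Γ → Der P Γ M T → StronglyNormal M := fun Γ M T hΓ hM => by
    obtain ⟨t, rfl, ht⟩ := hM.toMem (col := col) hΓ
    exact (h Γ t T hΓ ht).erase
  rintro M ⟨Γ, B, hM | hM⟩
  · exact key _ _ _ hM.toDer.1 hM.toDer.2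
  · rcases hM.toDer.2.correct hM.toDer.1 with ⟨s, rfl⟩ | ⟨s, hs⟩
    · exact stronglyNormal_srt s
    · exact key _ _ _ hM.toDer.1 hs

end Vale.Agent.P340
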