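import Vale.Agent.P340.CpsSk
import Vale.Agent.P340.MemTyping
import Vale.Agent.P340.HomDef

/-!
# The skeleton of a typed term with memory at one class

Colours are sorts. Variables are kept when their colour is the domain of a rule into the class;
binders of other colours are dropped together with their variables.
-/

namespace Vale.Agent.P340

variable {S : Type}

/-- The colours that may be bound by an abstraction of the class. -/
def HData.Dom (P : Spec S) (D : HData S) : Set S := {a | ∃ b ∈ D.C, P.rule a b b}

open Classical in
/-- The flag of a variable or argument: its colour lies in the class. -/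
noncomputable def colFlag (P : Spec S) (D : HData S) (Γ : List (Tm S)) (t : Tm S) : Bool :=
  decide (∃ a ∈ D.C, HasCol P Γ t a)

open Classical in
/-- The flag of a binder: the sort of its type lies in the class. -/
noncomputable def typeFlag (P : Spec S) (D : HData S) (Γ : List (Tm S)) (A : Tm S) : Bool :=
  decide (∃ a ∈ D.C, Der P Γ A (.srt a))

open Classical in
/-- A binder outside the class. -/
noncomputable def skBinder (P : Spec S) (D : HData S) (Γ : List (Tm S)) (A : Tm S) (a b : Sk) :
    Sk :=
  if ∃ s ∈ D.Dom P, Der P Γ A (.srt s) then .bind (typeFlag P D Γ A) a b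
  else .node a (b.ren Nat.pred)

open Classical in
/-- The skeleton. -/
noncomputable def skel (P : Spec S) (D : HData S) : List (Tm S) → MTm S S → Sk
  | Γ, .var n =>
    if ∃ a ∈ D.Dom P, HasCol P Γ (.var n) a then .var (colFlag P D Γ (.var n)) n else .cst
  | _, .srt _ => .cst
  | Γ, .mem p e => .mem (skel P D Γ p) (skel P D Γ e)
  | Γ, .app c f a =>
    if c ∈ D.C then .app (colFlag P D Γ a.erase) (skel P D Γ f) (skel P D Γ a)
    else .node (skel P D Γ f) (skel P D Γ a)
  | Γ, .lam A b =>
    if ∃ c ∈ D.C, HasCol P Γ (Tm.lam A.erase b.erase) c then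
      .lam (typeFlag P D Γ A.erase) (skel P D Γ A) (skel P D (A.erase :: Γ) b)
    else skBinder P D Γ A.erase (skel P D Γ A) (skel P D (A.erase :: Γ) b)
  | Γ, .pi A B => skBinder P D Γ A.erase (skel P D Γ A) (skel P D (A.erase :: Γ) B)

end Vale.Agent.P340
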