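import Vale.Agent.P340.PairSpec
import Vale.Agent.P340.CpsSkel

/-!
# The condition on kinds

A sort that is both source and target of axioms needs uniform inhabitants for its types when it
cannot be bound in an odd class. Either a rule makes the quantification over all its types
available, or the sort above it is equally unbindable and has no such rule.
-/

namespace Vale.Agent.P340

variable {S : Type}

/-- `b` lies on a closed path of odd length along rules. -/
def OddLoop (P : Spec S) (b : S) : Prop :=
  ∃ y, Relation.ReflTransGen (fun x z => ∃ w, P.rule x w w ∧ P.rule w z z) b y ∧ P.rule y b b

/-- Every sort `a` that is source and target of axioms, with `t` above it, either has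
quantification over itself (rule `(t, a)`), or `t` has none and cannot be bound by an odd loop
without `a` being bindable there as well. -/
def KindCond (P : Spec S) : Prop :=
  ∀ z a t, P.ax z a → P.ax a t → P.rule t a a ∨
    ((∀ b, OddLoop P b → P.rule t b b → P.rule a b b) ∧ ∀ u, P.ax t u → ¬ P.rule u t t)

/-- The collapsed colours: sources that are no target and no domain into the class. -/
def collapseSet (P : Spec S) (C : Set S) : Set S :=
  {a | (∃ t, P.ax a t) ∧ (¬ ∃ b ∈ C, P.rule a b b) ∧ ¬ ∃ z, P.ax z a}

end Vale.Agent.P340
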