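import Vale.Agent.P340.Levels

/-!
# Finite fragments

A derivation uses finitely many axioms and rules, so it lives in the restriction of the
specification to a finite set of sorts. In such a restriction only finitely many sorts are levels.
-/

namespace Vale.Agent.P340

variable {S : Type} {P Q : Spec S} {F : Finset S} {Γ : List (Tm S)} {M T : Tm S}

/-- The specification with axioms starting in `F` and rules with domain and codomain in `F`. -/
def Spec.frag (P : Spec S) (F : Finset S) : Spec S where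
  ax s t := s ∈ F ∧ P.ax s t
  rule s₁ s₂ s₃ := s₁ ∈ F ∧ s₂ ∈ F ∧ P.rule s₁ s₂ s₃

theorem Ty.mono (h : Ty P Γ M T) (hax : ∀ {s t}, P.ax s t → Q.ax s t)
    (hrule : ∀ {s₁ s₂ s₃}, P.rule s₁ s₂ s₃ → Q.rule s₁ s₂ s₃) :
    Ty Q Γ M T := by
  induction h with
  | axiom_ h => exact .axiom_ (hax h)
  | var _ ih => exact .var ih
  | weak _ _ ihM ihA => exact .weak ihM ihA
  | prod _ _ hr ihA ihB => exact .prod ihA ihB (hrule hr)
  | abs _ _ ihM ihP => exact .abs ihM ihP
  | appl _ _ ihM ihN => exact .appl ihM ihN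
  | conv _ _ hc ihM ihB => exact .conv ihM ihB hc

theorem Ty.of_frag (h : Ty (P.frag F) Γ M T) : Ty P Γ M T :=
  h.mono (fun h => h.2) (fun h => h.2.2)

theorem Ty.frag_mono {G : Finset S} (hFG : F ⊆ G) (h : Ty (P.frag F) Γ M T) :
    Ty (P.frag G) Γ M T :=
  h.mono (fun h => ⟨hFG h.1, h.2⟩) (fun h => ⟨hFG h.1, hFG h.2.1, h.2.2⟩)

/-- Every derivation lives in a finite fragment. -/
theorem Ty.exists_frag (h : Ty P Γ M T) : ∃ F : Finset S, Ty (P.frag F) Γ M T := by
  classical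
  induction h with
  | @axiom_ s t h => exact ⟨{s}, .axiom_ ⟨Finset.mem_singleton_self s, h⟩⟩
  | var _ ih =>
    obtain ⟨F, h⟩ := ih
    exact ⟨F, .var h⟩
  | weak _ _ ihM ihA =>
    obtain ⟨F, hM⟩ := ihM
    obtain ⟨G, hA⟩ := ihA
    exact ⟨F ∪ G, .weak (hM.frag_mono Finset.subset_union_left)
      (hA.frag_mono Finset.subset_union_right)⟩
  | @prod Γ A B s₁ s₂ s₃ _ _ hr ihA ihB =>
    obtain ⟨F, hA⟩ := ihA
    obtain ⟨G, hB⟩ := ihB
    refine ⟨F ∪ G ∪ {s₁, s₂}, .prod (hA.frag_mono ?_) (hB.frag_mono ?_) ⟨?_, ?_, hr⟩⟩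
    · exact Finset.subset_union_left.trans Finset.subset_union_left
    · exact Finset.subset_union_right.trans Finset.subset_union_left
    · simp
    · simp
  | abs _ _ ihM ihP =>
    obtain ⟨F, hM⟩ := ihM
    obtain ⟨G, hP⟩ := ihP
    exact ⟨F ∪ G, .abs (hM.frag_mono Finset.subset_union_left)
      (hP.frag_mono Finset.subset_union_right)⟩
  | appl _ _ ihM ihN =>
    obtain ⟨F, hM⟩ := ihM
    obtain ⟨G, hN⟩ := ihN
    exact ⟨F ∪ G, .appl (hM.frag_mono Finset.subset_union_left)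
      (hN.frag_mono Finset.subset_union_right)⟩
  | conv _ _ hc ihM ihB =>
    obtain ⟨F, hM⟩ := ihM
    obtain ⟨G, hB⟩ := ihB
    exact ⟨F ∪ G, .conv (hM.frag_mono Finset.subset_union_left)
      (hB.frag_mono Finset.subset_union_right) hc⟩

theorem Legal.of_frag (h : Legal (P.frag F) M) : Legal P M :=
  let ⟨Γ, B, hB⟩ := h
  ⟨Γ, B, hB.imp Ty.of_frag Ty.of_frag⟩

theorem Legal.exists_frag (h : Legal P M) : ∃ F : Finset S, Legal (P.frag F) M := by
  obtain ⟨Γ, B, hB | hB⟩ := h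
  · obtain ⟨F, hF⟩ := hB.exists_frag
    exact ⟨F, Γ, B, .inl hF⟩
  · obtain ⟨F, hF⟩ := hB.exists_frag
    exact ⟨F, Γ, B, .inr hF⟩

theorem WeaklyNormalizing.frag (h : WeaklyNormalizing P) (F : Finset S) :
    WeaklyNormalizing (P.frag F) :=
  fun M hM => h M hM.of_frag

/-- It suffices to treat finite fragments. -/
theorem stronglyNormalizing_of_frag (h : ∀ F : Finset S, StronglyNormalizing (P.frag F)) :
    StronglyNormalizing P := fun M hM => by
  obtain ⟨F, hF⟩ := hM.exists_frag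
  exact h F M hF

variable [PartialOrder S]

theorem GenNonDependent.frag (hP : GenNonDependent P) (F : Finset S) :
    GenNonDependent (P.frag F) where
  ax_fun h h' := hP.ax_fun h.2 h'.2
  ax_lt h := hP.ax_lt h.2
  rule_eq h := hP.rule_eq h.2.2
  rule_le h := hP.rule_le h.2.2
  rule_mono h h' := by
    obtain ⟨t₂, h₂, hle⟩ := hP.rule_mono h.2.2 h'.2
    exact ⟨t₂, ⟨h.2.1, h₂⟩, hle⟩

/-- The sorts in `F` and those they have as axioms. -/
def fragSorts (P : Spec S) (F : Finset S) : Set S := ↑F ∪ ⋃ s ∈ F, {t | P.ax s t}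

omit [PartialOrder S] in
theorem mem_fragSorts {j : S} (h : j ∈ F ∨ ∃ s ∈ F, P.ax s j) : j ∈ fragSorts P F := by
  rcases h with h | ⟨s, hs, ha⟩
  · exact .inl h
  · exact .inr (Set.mem_biUnion hs ha)

theorem fragSorts_finite (hP : GenNonDependent P) (F : Finset S) :
    (fragSorts P F).Finite :=
  F.finite_toSet.union (F.finite_toSet.biUnion fun _ _ =>
    Set.Subsingleton.finite fun _ ht _ ht' => hP.ax_fun ht ht')

omit [PartialOrder S] in
theorem frag_ax_finite (P : Spec S) (F : Finset S) (i : S) :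
    {s | (P.frag F).ax s i}.Finite :=
  F.finite_toSet.subset fun _ h => h.1

/-- A type convertible to a sort is a sort of the fragment. -/
theorem Der.mem_fragSorts (hP : GenNonDependent P) {j : S} (h : Der (P.frag F) Γ M T)
    (hΓ : Wf (P.frag F) Γ) (hc : BConv T (.srt j)) : j ∈ fragSorts P F := by
  have key : ∀ {Δ : List (Tm S)} {U : Tm S} {s : S}, Wf (P.frag F) Δ →
      Der (P.frag F) Δ U (.srt s) → BConv U (.srt j) → j ∈ fragSorts P F := by
    intro Δ U s hΔ hU hc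
    obtain ⟨t, ht, -⟩ := (hU.red hΔ (red_of_bconv_srt hc)).gen_srt
    exact Vale.Agent.P340.mem_fragSorts (.inl ht.1)
  induction h with
  | @axiom_ Δ s t h =>
    exact bconv_srt_inj hc ▸ Vale.Agent.P340.mem_fragSorts (.inr ⟨s, h.1, h.2⟩)
  | var h =>
    obtain ⟨s, hs⟩ := hΓ.lookup h
    exact key hΓ hs hc
  | prod _ _ hr =>
    exact bconv_srt_inj hc ▸ Vale.Agent.P340.mem_fragSorts (.inl (hP.rule_eq hr.2.2 ▸ hr.2.1))
  | abs _ _ _ => exact absurd hc not_bconv_pi_srt
  | appl hM hN =>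
    obtain ⟨s₁, s₂, s₃, _, hB, _, _⟩ := hM.pi_type hΓ
    exact key hΓ (hB.inst hN) hc
  | conv _ hB _ _ _ => exact key hΓ hB hc

theorem Lv.mem_fragSorts (hP : GenNonDependent P) {j : S} (hΓ : Wf (P.frag F) Γ)
    (h : Lv (P.frag F) Γ M j) : j ∈ fragSorts P F :=
  let ⟨_, _, hT⟩ := h
  hT.mem_fragSorts hP hΓ (.refl _)

end Vale.Agent.P340
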