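import Vale.Agent.P340.Typing

/-!
# Functional specifications with pair rules

Axioms are functional and the sort of a product is the sort of its codomain. Types are unique
up to conversion, so an expression has at most one colour (the sort of its type).
-/

namespace Vale.Agent.P340

variable {S : Type} {P : Spec S}

/-- Functional axioms, rules of the shape `(a, b, b)`. -/
structure PairSpec (P : Spec S) : Prop where
  ax_fun : ∀ {s t t'}, P.ax s t → P.ax s t' → t = t'
  rule_eq : ∀ {s₁ s₂ s₃}, P.rule s₁ s₂ s₃ → s₃ = s₂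

theorem Lk.det {Γ : List (Tm S)} {n : ℕ} {A B : Tm S} (h : Lk Γ n A) (h' : Lk Γ n B) :
    A = B := by
  induction h generalizing B with
  | zero => cases h'; rfl
  | succ _ ih => cases h' with | succ h' => rw [ih h']

/-- Types are unique up to conversion. -/
theorem PairSpec.types_unique (hP : PairSpec P) {Γ : List (Tm S)} {M T T' : Tm S}
    (h : Der P Γ M T) (h' : Der P Γ M T') : BConv T T' := by
  induction h generalizing T' with
  | axiom_ h =>
    obtain ⟨t, ht, hc⟩ := h'.gen_srt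
    rw [hP.ax_fun h ht]; exact hc
  | var h =>
    obtain ⟨A, hl, hc⟩ := h'.gen_var
    rw [h.det hl]; exact hc
  | prod _ _ hr ihA ihB =>
    obtain ⟨s₁, s₂, s₃, hA, hB, hr', hc⟩ := h'.gen_pi
    rw [hP.rule_eq hr, bconv_srt_inj (ihB hB), ← hP.rule_eq hr']; exact hc
  | abs _ _ _ _ ihM _ =>
    obtain ⟨s₁, B, s, _, hb, _, hc⟩ := h'.gen_lam
    exact (BConv.pi (.refl _) (ihM hb)).trans hc
  | appl _ _ ihM _ =>
    obtain ⟨A', B', hf, _, hc⟩ := h'.gen_app
    exact ((bconv_pi_inj (ihM hf)).2.sub _).trans hc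
  | conv _ _ hc ih _ => exact hc.symm.trans (ih h')

variable {Γ Δ : List (Tm S)} {M M' T T' A B b f a : Tm S} {i j s t : S}

/-- Convertible typed types have one sort. -/
theorem PairSpec.sort_conv (hP : PairSpec P) (hΓ : Wf P Γ) (h : Der P Γ T (.srt s))
    (h' : Der P Γ T' (.srt j)) (hc : BConv T T') : s = j := by
  obtain ⟨C, h1, h2⟩ := bconv_join hc
  exact bconv_srt_inj (hP.types_unique (h.red hΓ h1) (h'.red hΓ h2))

theorem PairSpec.sort_eq (hP : PairSpec P) (h : Der P Γ T (.srt s)) (h' : Der P Γ T (.srt j)) :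
    s = j :=
  bconv_srt_inj (hP.types_unique h h')

/-- `M` has a type of sort `c`. -/
def HasCol (P : Spec S) (Γ : List (Tm S)) (M : Tm S) (c : S) : Prop :=
  ∃ T, Der P Γ M T ∧ Der P Γ T (.srt c)

theorem HasCol.unique (hP : PairSpec P) (hΓ : Wf P Γ) (h : HasCol P Γ M i)
    (h' : HasCol P Γ M j) : i = j := by
  obtain ⟨T, hM, hT⟩ := h
  obtain ⟨T', hM', hT'⟩ := h'
  exact hP.sort_conv hΓ hT hT' (hP.types_unique hM hM')

theorem HasCol.subst {σ : ℕ → Tm S} (h : HasCol P Γ M i) (hσ : Subs P σ Γ Δ) :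
    HasCol P Δ (M.sub σ) i := by
  obtain ⟨T, hM, hT⟩ := h
  exact ⟨_, hM.subst hσ, hT.subst hσ⟩

theorem HasCol.red (hΓ : Wf P Γ) (h : HasCol P Γ M i) (hr : Red M M') : HasCol P Γ M' i := by
  obtain ⟨T, hM, hT⟩ := h
  exact ⟨T, hM.red hΓ hr, hT⟩

/-- The sort of a product is the sort of its codomain. -/
theorem PairSpec.pi_sort (hP : PairSpec P) (h : Der P Γ (.pi A B) (.srt s)) :
    Der P (A :: Γ) B (.srt s) := by
  obtain ⟨s₁, s₂, s₃, _, hB, hr, hc⟩ := h.gen_pi
  rw [← bconv_srt_inj hc, hP.rule_eq hr]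
  exact hB

/-- An application has a colour. -/
theorem PairSpec.app_col (hP : PairSpec P) (hΓ : Wf P Γ) (hf : Der P Γ f (.pi A B))
    (ha : Der P Γ a A) : ∃ s, HasCol P Γ (.app f a) s ∧ Der P Γ (.pi A B) (.srt s) := by
  obtain ⟨s₁, s₂, s₃, _, hB, hr, hp⟩ := hf.pi_type hΓ
  exact ⟨s₃, ⟨_, .appl hf ha, (hP.pi_sort hp).inst ha⟩, hp⟩

/-- A derivation of a sort as a type. -/
theorem Der.srt_type (h : Der P Γ (.srt s) (.srt t)) : P.ax s t := by
  obtain ⟨u, hu, hc⟩ := h.gen_srt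
  rwa [← bconv_srt_inj hc]

end Vale.Agent.P340
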