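import Vale.Agent.P340.MemPolar
import Vale.Agent.P340.PairSpec
import Vale.Agent.P340.Fragment
import Vale.Agent.P340.CpsClass

/-!
# Finite live fragments and their classes

A derivation lives in a fragment with finitely many axioms whose rules relate sources and
targets of those axioms only. There a class with a domain edge is finite, strongly connected by
domain edges and inside its own domains.
-/

namespace Vale.Agent.P340

open Relation

variable {S : Type} {P : Spec S} {F : Finset S} {Γ : List (Tm S)} {M T : Tm S} {s : S}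

/-- A source or a target of an axiom. -/
def Live (P : Spec S) (s : S) : Prop := (∃ t, P.ax s t) ∨ ∃ t, P.ax t s

/-- The axioms starting in `F` and all rules between their sources and targets. -/
def Spec.cut (P : Spec S) (F : Finset S) : Spec S where
  ax s t := s ∈ F ∧ P.ax s t
  rule a b c := P.rule a b c ∧ Live (P.frag F) a ∧ Live (P.frag F) b

theorem Spec.live_cut : Live (P.cut F) s ↔ Live (P.frag F) s := Iff.rfl

theorem Spec.cut_rule_live {a b c : S} (h : (P.cut F).rule a b c) :
    Live (P.cut F) a ∧ Live (P.cut F) b :=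
  h.2

theorem PairSpec.frag (hP : PairSpec P) (F : Finset S) : PairSpec (P.frag F) :=
  ⟨fun h h' => hP.ax_fun h.2 h'.2, fun h => hP.rule_eq h.2.2⟩

theorem PairSpec.cut (hP : PairSpec P) (F : Finset S) : PairSpec (P.cut F) :=
  ⟨fun h h' => hP.ax_fun h.2 h'.2, fun h => hP.rule_eq h.1⟩

theorem WeaklyNormalizing.cut (h : WeaklyNormalizing P) (F : Finset S) :
    WeaklyNormalizing (P.cut F) := fun M ⟨Γ, B, hB⟩ =>
  h M ⟨Γ, B, hB.imp (fun h => h.mono (fun h => h.2) fun h => h.1)
    fun h => h.mono (fun h => h.2) fun h => h.1⟩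

/-- The sources and targets of a cut are finite. -/
theorem live_cut_finite (hP : PairSpec P) (F : Finset S) : {s | Live (P.cut F) s}.Finite :=
  (F.finite_toSet.union (F.finite_toSet.biUnion (t := fun z => {t | P.ax z t}) fun _ _ =>
    Set.Subsingleton.finite fun _ ht _ ht' => hP.ax_fun ht ht')).subset <| by
      rintro s (⟨t, h, -⟩ | ⟨t, h, h'⟩)
      · exact .inl h
      · exact .inr (Set.mem_biUnion h h')

/-- A sort that is the type of something is a source or a target. -/
theorem Der.live (hP : PairSpec P) (h : Der P Γ M T) :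
    Wf P Γ → ∀ {s : S}, BConv T (.srt s) → Live P s := by
  have key : ∀ {Δ : List (Tm S)} {U : Tm S} {z s : S}, Wf P Δ → Der P Δ U (.srt z) →
      BConv U (.srt s) → Live P s := by
    intro Δ U z s hΔ hU hc
    obtain ⟨t, ht, -⟩ := (hU.red hΔ (red_of_bconv_srt hc)).gen_srt
    exact .inl ⟨t, ht⟩
  induction h with
  | axiom_ h => intro _ s hc; exact bconv_srt_inj hc ▸ .inr ⟨_, h⟩
  | var h =>
    intro hΓ s hc
    obtain ⟨z, hz⟩ := hΓ.lookup h
    exact key hΓ hz hc
  | prod hA _ hr _ ihB =>
    intro hΓ s hc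
    exact ihB (hΓ.cons hA) (hP.rule_eq hr ▸ hc)
  | abs => intro _ s hc; exact (not_bconv_pi_srt hc).elim
  | appl hM hN =>
    intro hΓ s hc
    obtain ⟨s₁, s₂, s₃, _, hB, _, _⟩ := hM.pi_type hΓ
    exact key hΓ (hB.inst hN) hc
  | conv _ hB => intro hΓ s hc; exact key hΓ hB hc

theorem Ty.to_cut (hP : PairSpec P) (h : Ty (P.frag F) Γ M T) : Ty (P.cut F) Γ M T := by
  induction h with
  | axiom_ h => exact .axiom_ h
  | var _ ih => exact .var ih
  | weak _ _ ihM ihA => exact .weak ihM ihA
  | prod hA hB hr ihA ihB =>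
    exact .prod ihA ihB ⟨hr.2.2,
      hA.toDer.2.live (hP.frag F) hA.toDer.1 (.refl _),
      hB.toDer.2.live (hP.frag F) hB.toDer.1 (.refl _)⟩
  | abs _ _ ihM ihP => exact .abs ihM ihP
  | appl _ _ ihM ihN => exact .appl ihM ihN
  | conv _ _ hc ihM ihB => exact .conv ihM ihB hc

/-- It suffices to treat the cuts. -/
theorem stronglyNormalizing_of_cut (hP : PairSpec P)
    (h : ∀ F : Finset S, StronglyNormalizing (P.cut F)) : StronglyNormalizing P := fun M hM => by
  obtain ⟨F, Γ, B, hB⟩ := hM.exists_frag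
  exact h F M ⟨Γ, B, hB.imp (Ty.to_cut hP) (Ty.to_cut hP)⟩

/-! ### The class of a colour with a domain edge -/

theorem Reach.classEdge (hP : PairSpec P) {c x y : S} (h : Reach P id x y)
    (hx : Reach P id c x) (hy : Reach P id y c) :
    ReflTransGen (ClassEdge P (colClass P id c)) x y := by
  induction h using ReflTransGen.head_induction_on with
  | refl => exact .refl
  | @head x z he hz ih =>
    have hcz : Reach P id c z := hx.tail he
    obtain ⟨a, b, r, hr, e, e'⟩ := he
    obtain rfl := hP.rule_eq hr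
    rcases e' with e' | e'
    · obtain rfl : a = x := e'
      obtain rfl : r = z := e
      refine .head ⟨⟨hx, ?_⟩, ⟨hcz, hz.trans hy⟩, hr⟩ (ih hcz)
      exact ReflTransGen.head ⟨a, r, r, hr, rfl, .inl rfl⟩ (hz.trans hy)
    · obtain rfl : r = x := e'
      obtain rfl : r = z := e
      exact ih hcz

/-- A class with a domain edge is strongly connected, without sinks and without sources. -/
theorem class_edges (hP : PairSpec P) {c : S} (hE : HasDomainEdge P id c) :
    (∀ a ∈ colClass P id c, ∀ b ∈ colClass P id c,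
      ReflTransGen (ClassEdge P (colClass P id c)) a b) ∧
    (∀ b ∈ colClass P id c, ∃ a ∈ colClass P id c, P.rule a b b) ∧
    ∀ a ∈ colClass P id c, ∃ b ∈ colClass P id c, P.rule a b b := by
  have conn : ∀ a ∈ colClass P id c, ∀ b ∈ colClass P id c,
      ReflTransGen (ClassEdge P (colClass P id c)) a b :=
    fun a ha b hb => Reach.classEdge hP (ha.2.trans hb.1) ha.1 hb.2
  obtain ⟨a₀, b₀, r₀, hr, ha₀, hr₀⟩ := hE
  obtain rfl := hP.rule_eq hr
  refine ⟨conn, fun b hb => ?_, fun a ha => ?_⟩
  · rcases ReflTransGen.cases_tail (conn r₀ hr₀ b hb) with rfl | ⟨z, _, hz⟩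
    · exact ⟨a₀, ha₀, hr⟩
    · exact ⟨z, hz.1, hz.2.2⟩
  · rcases ReflTransGen.cases_head (conn a ha a₀ ha₀) with rfl | ⟨z, hz, _⟩
    · exact ⟨r₀, hr₀, hr⟩
    · exact ⟨z, hz.2.1, hz.2.2⟩

/-- In a cut a class with a domain edge is finite and consists of sources and targets. -/
theorem class_live (hP : PairSpec P) {c : S} (hE : HasDomainEdge (P.cut F) id c) :
    (∀ s ∈ colClass (P.cut F) id c, Live (P.cut F) s) ∧
      (colClass (P.cut F) id c).Finite := by
  have h : ∀ s ∈ colClass (P.cut F) id c, Live (P.cut F) s := fun s hs =>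
    let ⟨_, _, hr⟩ := (class_edges (hP.cut F) hE).2.2 s hs
    (Spec.cut_rule_live hr).1
  exact ⟨h, (live_cut_finite hP F).subset h⟩

end Vale.Agent.P340
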