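import Vale.Agent.P340.UStepBasic

/-!
# Occurrences, and the congruences of the skeleton reduction

`Keeping` and `Proper` are preserved by steps.
-/

namespace Vale.Agent.P340

open Relation

/-- Finitely many skeleton steps. -/
abbrev URed : U → U → Prop := Relation.ReflTransGen UStep

/-- At least one skeleton step. -/
abbrev UPlus : U → U → Prop := Relation.TransGen UStep

namespace URed

variable {a a' b b' f f' u v : U}

theorem lam (h : URed b b') : URed (.lam b) (.lam b') :=
  ReflTransGen.lift U.lam (fun _ _ => UStep.lam) _ _ h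

theorem tlam (h : URed b b') : URed (.tlam b) (.tlam b') :=
  ReflTransGen.lift U.tlam (fun _ _ => UStep.tlam) _ _ h

theorem app (hf : URed f f') (ha : URed a a') : URed (.app f a) (.app f' a') :=
  (ReflTransGen.lift (fun x => U.app x a) (fun _ _ => UStep.appL a) _ _ hf).trans
    (ReflTransGen.lift (U.app f') (fun _ _ => UStep.appR f') _ _ ha)

theorem tapp (h : URed f f') : URed (.tapp f) (.tapp f') :=
  ReflTransGen.lift U.tapp (fun _ _ => UStep.tapp) _ _ h

theorem upi (ha : URed a a') (hb : URed b b') : URed (.upi a b) (.upi a' b') :=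
  (ReflTransGen.lift (fun x => U.upi x b) (fun _ _ => UStep.upiL b) _ _ ha).trans
    (ReflTransGen.lift (U.upi a') (fun _ _ => UStep.upiR a') _ _ hb)

theorem ren (h : URed u v) (ξ : ℕ → ℕ) : URed (u.ren ξ) (v.ren ξ) :=
  ReflTransGen.lift (U.ren ξ) (fun _ _ h => h.ren ξ) _ _ h

theorem sub (h : URed u v) (σ : ℕ → U) : URed (u.sub σ) (v.sub σ) :=
  ReflTransGen.lift (U.sub σ) (fun _ _ h => h.sub σ) _ _ h

theorem subst (b : U) :
    ∀ {σ τ : ℕ → U}, (∀ n, URed (σ n) (τ n)) → URed (b.sub σ) (b.sub τ) := by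
  have hup : ∀ {σ τ : ℕ → U}, (∀ n, URed (σ n) (τ n)) → ∀ n, URed (U.up σ n) (U.up τ n) := by
    intro σ τ h n
    cases n with
    | zero => exact .refl
    | succ n => exact (h n).ren _
  induction b with
  | var n => intro σ τ h; exact h n
  | cst => intro σ τ h; exact .refl
  | lam b ih => intro σ τ h; exact (ih (hup h)).lam
  | tlam b ih => intro σ τ h; exact (ih (hup h)).tlam
  | app f a ihf iha => intro σ τ h; exact (ihf h).app (iha h)
  | tapp f ih => intro σ τ h; exact (ih h).tapp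
  | upi a b iha ihb => intro σ τ h; exact (iha h).upi (ihb (hup h))

end URed

namespace UPlus

variable {a a' b b' f f' : U}

theorem lam (h : UPlus b b') : UPlus (.lam b) (.lam b') :=
  TransGen.lift U.lam (fun _ _ => UStep.lam) _ _ h

theorem tlam (h : UPlus b b') : UPlus (.tlam b) (.tlam b') :=
  TransGen.lift U.tlam (fun _ _ => UStep.tlam) _ _ h

theorem appL (a : U) (h : UPlus f f') : UPlus (.app f a) (.app f' a) :=
  TransGen.lift (fun x => U.app x a) (fun _ _ => UStep.appL a) _ _ h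

theorem appR (f : U) (h : UPlus a a') : UPlus (.app f a) (.app f a') :=
  TransGen.lift (U.app f) (fun _ _ => UStep.appR f) _ _ h

theorem tapp (h : UPlus f f') : UPlus (.tapp f) (.tapp f') :=
  TransGen.lift U.tapp (fun _ _ => UStep.tapp) _ _ h

theorem upiL (b : U) (h : UPlus a a') : UPlus (.upi a b) (.upi a' b) :=
  TransGen.lift (fun x => U.upi x b) (fun _ _ => UStep.upiL b) _ _ h

theorem upiR (a : U) (h : UPlus b b') : UPlus (.upi a b) (.upi a b') :=
  TransGen.lift (U.upi a) (fun _ _ => UStep.upiR a) _ _ h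

theorem ren {u v : U} (h : UPlus u v) (ξ : ℕ → ℕ) : UPlus (u.ren ξ) (v.ren ξ) :=
  TransGen.lift (U.ren ξ) (fun _ _ h => h.ren ξ) _ _ h

end UPlus

namespace U

theorem occ_ren : ∀ (u : U) (ξ : ℕ → ℕ) (n : ℕ),
    Occ n (u.ren ξ) ↔ ∃ m, Occ m u ∧ ξ m = n := by
  have hupr : ∀ (ξ : ℕ → ℕ) (P : ℕ → Prop) (n : ℕ),
      (∃ m, P m ∧ upr ξ m = n + 1) ↔ ∃ m, P (m + 1) ∧ ξ m = n := by
    intro ξ P n
    constructor
    · rintro ⟨_ | m, h, e⟩
      · simp [upr] at e
      · exact ⟨m, h, Nat.succ.inj e⟩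
    · rintro ⟨m, h, e⟩
      exact ⟨m + 1, h, by simp [upr, e]⟩
  intro u
  induction u with
  | var k =>
    intro ξ n
    constructor
    · intro h; exact ⟨k, rfl, h.symm⟩
    · rintro ⟨m, hm, e⟩; exact (hm ▸ e).symm
  | cst => intro ξ n; simp [Occ]
  | lam b ih => intro ξ n; simp only [ren_lam, Occ, ih, hupr]
  | tlam b ih => intro ξ n; simp only [ren_tlam, Occ, ih, hupr]
  | app f a ihf iha => intro ξ n; simp only [ren_app, Occ, ihf, iha, or_and_right, exists_or]
  | tapp f ih => intro ξ n; simp only [ren_tapp, Occ, ih]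
  | upi a b iha ihb =>
    intro ξ n; simp only [ren_upi, Occ, iha, ihb, hupr, or_and_right, exists_or]

theorem occ_succ (u : U) (n : ℕ) : Occ (n + 1) (u.ren Nat.succ) ↔ Occ n u := by
  rw [occ_ren]
  exact ⟨fun ⟨m, h, e⟩ => Nat.succ.inj e ▸ h, fun h => ⟨n, h, rfl⟩⟩

theorem not_occ_zero_succ (u : U) : ¬ Occ 0 (u.ren Nat.succ) := by
  rw [occ_ren]
  rintro ⟨m, -, e⟩
  exact Nat.succ_ne_zero m e

theorem occ_up (σ : ℕ → U) (m n : ℕ) :
    Occ (n + 1) (up σ m) ↔ ∃ k, m = k + 1 ∧ Occ n (σ k) := by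
  cases m with
  | zero => simp [Occ]
  | succ k => simp [occ_succ]

theorem occ_sub : ∀ (u : U) (σ : ℕ → U) (n : ℕ),
    Occ n (u.sub σ) ↔ ∃ m, Occ m u ∧ Occ n (σ m) := by
  have hup : ∀ (σ : ℕ → U) (P : ℕ → Prop) (n : ℕ),
      (∃ m, P m ∧ Occ (n + 1) (up σ m)) ↔ ∃ m, P (m + 1) ∧ Occ n (σ m) := by
    intro σ P n
    simp only [occ_up]
    constructor
    · rintro ⟨m, h, k, rfl, h'⟩; exact ⟨k, h, h'⟩
    · rintro ⟨k, h, h'⟩; exact ⟨k + 1, h, k, rfl, h'⟩
  intro u
  induction u with
  | var k =>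
    intro σ n
    exact ⟨fun h => ⟨k, rfl, h⟩, by rintro ⟨m, hm, h⟩; exact (hm ▸ h)⟩
  | cst => intro σ n; simp [Occ]
  | lam b ih => intro σ n; simp only [sub_lam, Occ, ih, hup]
  | tlam b ih => intro σ n; simp only [sub_tlam, Occ, ih, hup]
  | app f a ihf iha => intro σ n; simp only [sub_app, Occ, ihf, iha, or_and_right, exists_or]
  | tapp f ih => intro σ n; simp only [sub_tapp, Occ, ih]
  | upi a b iha ihb =>
    intro σ n; simp only [sub_upi, Occ, iha, ihb, hup, or_and_right, exists_or]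

theorem occ_inst (b a : U) (n : ℕ) :
    Occ n (b.inst a) ↔ (Occ 0 b ∧ Occ n a) ∨ Occ (n + 1) b := by
  rw [inst, occ_sub]
  constructor
  · rintro ⟨_ | m, h, h'⟩
    · exact .inl ⟨h, h'⟩
    · exact .inr ((show n = m from h') ▸ h)
  · rintro (⟨h, h'⟩ | h)
    · exact ⟨0, h, h'⟩
    · exact ⟨n + 1, h, rfl⟩

theorem keeping_ren : ∀ {u : U}, u.Keeping → ∀ ξ : ℕ → ℕ, (u.ren ξ).Keeping := by
  intro u
  induction u with
  | var k => intro _ ξ; exact trivial
  | cst => intro _ ξ; exact trivial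
  | lam b ih => intro h ξ; exact ⟨(occ_ren _ _ _).2 ⟨0, h.1, rfl⟩, ih h.2 _⟩
  | tlam b ih => intro h ξ; exact ih h _
  | app f a ihf iha => intro h ξ; exact ⟨ihf h.1 _, iha h.2 _⟩
  | tapp f ih => intro h ξ; exact ih h _
  | upi a b iha ihb => intro h ξ; exact ⟨iha h.1 _, ihb h.2 _⟩

theorem keeping_sub : ∀ {u : U}, u.Keeping → ∀ {σ : ℕ → U}, (∀ m, (σ m).Keeping) →
    (u.sub σ).Keeping := by
  have hup : ∀ {σ : ℕ → U}, (∀ m, (σ m).Keeping) → ∀ m, (up σ m).Keeping := by
    intro σ h m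
    cases m with
    | zero => exact trivial
    | succ m => exact keeping_ren (h m) _
  intro u
  induction u with
  | var k => intro _ σ hσ; exact hσ k
  | cst => intro _ σ _; exact trivial
  | lam b ih =>
    intro h σ hσ
    exact ⟨(occ_sub _ _ _).2 ⟨0, h.1, rfl⟩, ih h.2 (hup hσ)⟩
  | tlam b ih => intro h σ hσ; exact ih h (hup hσ)
  | app f a ihf iha => intro h σ hσ; exact ⟨ihf h.1 hσ, iha h.2 hσ⟩
  | tapp f ih => intro h σ hσ; exact ih h hσ
  | upi a b iha ihb => intro h σ hσ; exact ⟨iha h.1 hσ, ihb h.2 (hup hσ)⟩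

theorem proper_ren : ∀ {u : U}, u.Proper → ∀ ξ : ℕ → ℕ, (u.ren ξ).Proper := by
  intro u
  induction u with
  | var k => intro _ ξ; exact trivial
  | cst => intro _ ξ; exact trivial
  | lam b ih => intro h ξ; exact ih h _
  | tlam b ih =>
    intro h ξ
    refine ⟨fun ho => ?_, ih h.2 _⟩
    obtain ⟨_ | m, hm, e⟩ := (occ_ren _ _ _).1 ho
    · exact h.1 hm
    · simp [upr] at e
  | app f a ihf iha => intro h ξ; exact ⟨ihf h.1 _, iha h.2 _⟩
  | tapp f ih => intro h ξ; exact ih h _
  | upi a b iha ihb => intro h ξ; exact ⟨iha h.1 _, ihb h.2 _⟩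

theorem proper_sub : ∀ {u : U}, u.Proper → ∀ {σ : ℕ → U}, (∀ m, (σ m).Proper) →
    (u.sub σ).Proper := by
  have hup : ∀ {σ : ℕ → U}, (∀ m, (σ m).Proper) → ∀ m, (up σ m).Proper := by
    intro σ h m
    cases m with
    | zero => exact trivial
    | succ m => exact proper_ren (h m) _
  intro u
  induction u with
  | var k => intro _ σ hσ; exact hσ k
  | cst => intro _ σ _; exact trivial
  | lam b ih => intro h σ hσ; exact ih h (hup hσ)
  | tlam b ih =>
    intro h σ hσ
    refine ⟨fun ho => ?_, ih h.2 (hup hσ)⟩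
    obtain ⟨_ | m, hm, e⟩ := (occ_sub _ _ _).1 ho
    · exact h.1 hm
    · exact not_occ_zero_succ _ e
  | app f a ihf iha => intro h σ hσ; exact ⟨ihf h.1 hσ, iha h.2 hσ⟩
  | tapp f ih => intro h σ hσ; exact ih h hσ
  | upi a b iha ihb => intro h σ hσ; exact ⟨iha h.1 hσ, ihb h.2 (hup hσ)⟩

end U

variable {u v : U}

theorem UStep.occ_le (h : UStep u v) : ∀ n, U.Occ n v → U.Occ n u := by
  induction h with
  | beta b a =>
    intro n hn
    rcases (U.occ_inst _ _ _).1 hn with ⟨-, h⟩ | h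
    · exact .inr h
    · exact .inl h
  | tbeta b =>
    intro n hn
    rcases (U.occ_inst _ _ _).1 hn with ⟨-, h⟩ | h
    · exact h.elim
    · exact h
  | lam _ ih => intro n hn; exact ih _ hn
  | tlam _ ih => intro n hn; exact ih _ hn
  | appL a _ ih => intro n hn; exact hn.imp (ih n) id
  | appR f _ ih => intro n hn; exact hn.imp id (ih n)
  | tapp _ ih => intro n hn; exact ih _ hn
  | upiL b _ ih => intro n hn; exact hn.imp (ih n) id
  | upiR a _ ih => intro n hn; exact hn.imp id (ih (n + 1))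

theorem UStep.occ_ge (h : UStep u v) : u.Keeping → ∀ n, U.Occ n u → U.Occ n v := by
  induction h with
  | beta b a =>
    intro hk n hn
    rcases hn with h | h
    · exact (U.occ_inst _ _ _).2 (.inr h)
    · exact (U.occ_inst _ _ _).2 (.inl ⟨hk.1.1, h⟩)
  | tbeta b => intro _ n hn; exact (U.occ_inst _ _ _).2 (.inr hn)
  | lam _ ih => intro hk n hn; exact ih hk.2 _ hn
  | tlam _ ih => intro hk n hn; exact ih hk _ hn
  | appL a _ ih => intro hk n hn; exact hn.imp (ih hk.1 n) id
  | appR f _ ih => intro hk n hn; exact hn.imp id (ih hk.2 n)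
  | tapp _ ih => intro hk n hn; exact ih hk _ hn
  | upiL b _ ih => intro hk n hn; exact hn.imp (ih hk.1 n) id
  | upiR a _ ih => intro hk n hn; exact hn.imp id (ih hk.2 (n + 1))

theorem UStep.keeping (h : UStep u v) : u.Keeping → v.Keeping := by
  induction h with
  | beta b a =>
    intro hk
    exact U.keeping_sub (u := b) (σ := U.sub0 a) hk.1.2 fun m => by cases m with
      | zero => exact hk.2
      | succ m => exact trivial
  | tbeta b => intro hk; exact U.keeping_sub (u := b) (σ := U.sub0 .cst) hk fun m => by cases m <;> exact trivial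
  | lam hs ih => intro hk; exact ⟨hs.occ_ge hk.2 _ hk.1, ih hk.2⟩
  | tlam _ ih => intro hk; exact ih hk
  | appL a _ ih => intro hk; exact ⟨ih hk.1, hk.2⟩
  | appR f _ ih => intro hk; exact ⟨hk.1, ih hk.2⟩
  | tapp _ ih => intro hk; exact ih hk
  | upiL b _ ih => intro hk; exact ⟨ih hk.1, hk.2⟩
  | upiR a _ ih => intro hk; exact ⟨hk.1, ih hk.2⟩

theorem UStep.proper (h : UStep u v) : u.Proper → v.Proper := by
  induction h with
  | beta b a =>
    intro hk
    exact U.proper_sub (u := b) (σ := U.sub0 a) hk.1 fun m => by cases m with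
      | zero => exact hk.2
      | succ m => exact trivial
  | tbeta b => intro hk; exact U.proper_sub (u := b) (σ := U.sub0 .cst) hk.2 fun m => by cases m <;> exact trivial
  | lam _ ih => intro hk; exact ih hk
  | tlam hs ih => intro hk; exact ⟨fun ho => hk.1 (hs.occ_le _ ho), ih hk.2⟩
  | appL a _ ih => intro hk; exact ⟨ih hk.1, hk.2⟩
  | appR f _ ih => intro hk; exact ⟨hk.1, ih hk.2⟩
  | tapp _ ih => intro hk; exact ih hk
  | upiL b _ ih => intro hk; exact ⟨ih hk.1, hk.2⟩
  | upiR a _ ih => intro hk; exact ⟨hk.1, ih hk.2⟩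

theorem URed.keeping (h : URed u v) (hk : u.Keeping) : v.Keeping := by
  induction h with
  | refl => exact hk
  | tail _ hs ih => exact hs.keeping ih

/-- Reducing a term substituted for a variable that occurs gives at least one step. -/
theorem UPlus.subst (b : U) : ∀ {σ τ : ℕ → U} {m : ℕ}, (∀ n, URed (σ n) (τ n)) →
    UPlus (σ m) (τ m) → U.Occ m b → UPlus (b.sub σ) (b.sub τ) := by
  have hup : ∀ {σ τ : ℕ → U}, (∀ n, URed (σ n) (τ n)) → ∀ n, URed (U.up σ n) (U.up τ n) := by
    intro σ τ h n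
    cases n with
    | zero => exact .refl
    | succ n => exact (h n).ren _
  induction b with
  | var n => intro σ τ m _ hm ho; exact (show m = n from ho) ▸ hm
  | cst => intro σ τ m _ _ ho; exact ho.elim
  | lam b ih => intro σ τ m h hm ho; exact (ih (hup h) (m := m + 1) (hm.ren _) ho).lam
  | tlam b ih => intro σ τ m h hm ho; exact (ih (hup h) (m := m + 1) (hm.ren _) ho).tlam
  | app f a ihf iha =>
    intro σ τ m h hm ho
    rcases ho with ho | ho
    · exact TransGen.trans_left ((ihf h hm ho).appL _) (URed.app .refl (URed.subst a h))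
    · exact TransGen.trans_right (URed.app (URed.subst f h) .refl) ((iha h hm ho).appR _)
  | tapp f ih => intro σ τ m h hm ho; exact (ih h hm ho).tapp
  | upi a b iha ihb =>
    intro σ τ m h hm ho
    rcases ho with ho | ho
    · exact TransGen.trans_left ((iha h hm ho).upiL _)
        (URed.upi .refl (URed.subst b (hup h)))
    · exact TransGen.trans_right (URed.upi (URed.subst a h) .refl)
        ((ihb (hup h) (m := m + 1) (hm.ren _) ho).upiR _)

end Vale.Agent.P340
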