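import Vale.Agent.P340.CpsSk
import Vale.Agent.P340.UOcc

/-!
# The algebra of skeletons of one class
-/

namespace Vale.Agent.P340

namespace Sk

@[simp] theorem up_zero (σ : Bool → ℕ → Sk) (fl : Bool) : up σ fl 0 = .var fl 0 := rfl

@[simp] theorem up_succ (σ : Bool → ℕ → Sk) (fl : Bool) (n : ℕ) :
    up σ fl (n + 1) = (σ fl n).ren Nat.succ := rfl

@[simp] theorem ren_ren (M : Sk) : ∀ ξ ζ : ℕ → ℕ, (M.ren ξ).ren ζ = M.ren (ζ ∘ ξ) := by
  induction M <;> intros <;> simp [ren, upr_comp, *]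

theorem up_comp_upr (σ : Bool → ℕ → Sk) (ξ : ℕ → ℕ) :
    (fun fl n => up σ fl (upr ξ n)) = up fun fl n => σ fl (ξ n) := by
  funext fl n; cases n <;> rfl

theorem ren_comp_up (σ : Bool → ℕ → Sk) (ζ : ℕ → ℕ) :
    (fun fl n => (up σ fl n).ren (upr ζ)) = up fun fl n => (σ fl n).ren ζ := by
  funext fl n; cases n <;> simp [ren]

theorem sub_ren (M : Sk) : ∀ (σ : Bool → ℕ → Sk) (ξ : ℕ → ℕ),
    (M.ren ξ).sub σ = M.sub fun fl n => σ fl (ξ n) := by
  induction M <;> intros <;> simp [ren, sub, up_comp_upr, *]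

theorem ren_sub (M : Sk) : ∀ (σ : Bool → ℕ → Sk) (ζ : ℕ → ℕ),
    (M.sub σ).ren ζ = M.sub fun fl n => (σ fl n).ren ζ := by
  induction M <;> intros <;> simp [ren, sub, ren_comp_up, *]

@[simp] theorem up_var : up (fun fl n => Sk.var fl n) = fun fl n => Sk.var fl n := by
  funext fl n; cases n <;> rfl

@[simp] theorem sub_id (M : Sk) : M.sub (fun fl n => Sk.var fl n) = M := by
  induction M <;> simp [sub, *]

theorem ren_eq_sub (M : Sk) (ξ : ℕ → ℕ) : M.ren ξ = M.sub fun fl n => .var fl (ξ n) := by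
  conv_lhs => rw [← M.sub_id, ren_sub]
  rfl

theorem ren_inst (b a : Sk) (ξ : ℕ → ℕ) :
    (b.inst a).ren ξ = (b.ren (upr ξ)).inst (a.ren ξ) := by
  rw [inst, inst, ren_sub, sub_ren]
  congr 1
  funext fl n
  cases n <;> rfl

theorem occ_ren (fl : Bool) : ∀ (u : Sk) (ξ : ℕ → ℕ) (n : ℕ),
    Occ fl n (u.ren ξ) ↔ ∃ m, Occ fl m u ∧ ξ m = n := by
  intro u
  induction u <;> intro ξ n <;> simp only [ren, Occ]
  case var fl' m =>
    exact ⟨fun ⟨h, h'⟩ => ⟨m, ⟨h, rfl⟩, h'.symm⟩,
      fun ⟨k, ⟨h, hk⟩, e⟩ => ⟨h, by rw [← e, hk]⟩⟩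
  case cst => simp
  case node a b iha ihb => rw [iha, ihb]; grind
  case app fl' a b iha ihb => rw [iha, ihb]; grind
  case mem a b iha ihb => rw [iha, ihb]; grind
  case bind fl' A b ihA ihb =>
    rw [ihA, ihb]
    constructor
    · rintro (⟨m, h, e⟩ | ⟨m, h, e⟩)
      · exact ⟨m, .inl h, e⟩
      · cases m with
        | zero => simp at e
        | succ m => exact ⟨m, .inr h, by simpa using e⟩
    · rintro ⟨m, h | h, rfl⟩
      · exact .inl ⟨m, h, rfl⟩
      · exact .inr ⟨m + 1, h, rfl⟩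
  case lam fl' A b ihA ihb =>
    rw [ihA, ihb]
    constructor
    · rintro (⟨m, h, e⟩ | ⟨m, h, e⟩)
      · exact ⟨m, .inl h, e⟩
      · cases m with
        | zero => simp at e
        | succ m => exact ⟨m, .inr h, by simpa using e⟩
    · rintro ⟨m, h | h, rfl⟩
      · exact .inl ⟨m, h, rfl⟩
      · exact .inr ⟨m + 1, h, rfl⟩

theorem occ_succ (fl : Bool) (u : Sk) (n : ℕ) :
    Occ fl (n + 1) (u.ren Nat.succ) ↔ Occ fl n u := by
  rw [occ_ren]
  exact ⟨fun ⟨m, h, e⟩ => Nat.succ.inj e ▸ h, fun h => ⟨n, h, rfl⟩⟩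

theorem not_occ_zero_succ (fl : Bool) (u : Sk) : ¬ Occ fl 0 (u.ren Nat.succ) := by
  rw [occ_ren]
  simp

theorem Stub.sub {t : Sk} (h : t.Stub) (σ : Bool → ℕ → Sk) : (t.sub σ).Stub := by
  cases t <;> simp_all [Stub, Sk.sub]

end Sk

theorem SkCtr.ren {fl : Bool} {f a r : Sk} (h : SkCtr fl f a r) (ξ : ℕ → ℕ) :
    SkCtr fl (f.ren ξ) (a.ren ξ) (r.ren ξ) := by
  induction h with
  | lam A a hb =>
    simp only [Sk.ren, Sk.ren_inst]
    refine .lam _ _ fun h => hb ?_
    obtain ⟨m, h, e⟩ := (Sk.occ_ren _ _ _ _).1 h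
    cases m with
    | zero => exact h
    | succ m => simp at e
  | mem e _ ih => exact .mem _ ih

theorem SkStep.ren {t u : Sk} (h : SkStep t u) : ∀ ξ : ℕ → ℕ, SkStep (t.ren ξ) (u.ren ξ) := by
  induction h with
  | beta hr => intro ξ; exact .beta (hr.ren ξ)
  | lamL b _ ih => intro ξ; exact .lamL _ (ih _)
  | lamR A _ ih => intro ξ; exact .lamR _ (ih _)
  | appL a _ ih => intro ξ; exact .appL _ (ih _)
  | appR f _ ih => intro ξ; exact .appR _ (ih _)
  | memL e _ ih => intro ξ; exact .memL _ (ih _)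
  | memR p _ ih => intro ξ; exact .memR _ (ih _)
  | nodeL b _ ih => intro ξ; exact .nodeL _ (ih _)
  | nodeR a _ ih => intro ξ; exact .nodeR _ (ih _)
  | bindL b _ ih => intro ξ; exact .bindL _ (ih _)
  | bindR a _ ih => intro ξ; exact .bindR _ (ih _)

theorem SkStep.stub {t u : Sk} (h : SkStep t u) (ht : t.Stub) : u.Stub := by
  cases h <;> simp_all [Sk.Stub]

namespace U

theorem sub_congr_occ (M : U) :
    ∀ {σ τ : ℕ → U}, (∀ n, Occ n M → σ n = τ n) → M.sub σ = M.sub τ := by
  induction M with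
  | var n => intro σ τ h; exact h n rfl
  | cst => intros; rfl
  | lam b ih =>
    intro σ τ h
    simp only [sub_lam]
    rw [ih (σ := up σ) (τ := up τ) fun n hn => by
      cases n with | zero => rfl | succ n => simp [h n hn]]
  | tlam b ih =>
    intro σ τ h
    simp only [sub_tlam]
    rw [ih (σ := up σ) (τ := up τ) fun n hn => by
      cases n with | zero => rfl | succ n => simp [h n hn]]
  | app f a ihf iha =>
    intro σ τ h
    simp only [sub_app]
    rw [ihf fun n hn => h n (.inl hn), iha fun n hn => h n (.inr hn)]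
  | tapp f ih =>
    intro σ τ h
    simp only [sub_tapp]
    rw [ih fun n hn => h n hn]
  | upi a b iha ihb =>
    intro σ τ h
    simp only [sub_upi]
    rw [iha fun n hn => h n (.inl hn),
      ihb (σ := up σ) (τ := up τ) fun n hn => by
        cases n with | zero => rfl | succ n => simp [h n (.inr hn)]]

theorem Closed.sub_eq {k : U} (h : k.Closed) (σ : ℕ → U) : k.sub σ = k :=
  (sub_congr_occ k fun n hn => (h n hn).elim).trans k.sub_id

@[simp] theorem lift_sub (m : ℕ) :
    ∀ (x : U) (σ : ℕ → U), (lift m x).sub σ = lift m (x.sub σ) := by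
  induction m with
  | zero => intros; rfl
  | succ m ih =>
    intro x σ
    simp only [lift, wrap, sub_lam, sub_app, sub_var, sub_cst, up_zero, ren_succ_sub, ih]

@[simp] theorem appCont_sub (h k : U) (σ : ℕ → U) :
    (appCont h k).sub σ = appCont (h.sub σ) (k.sub σ) := by
  simp only [appCont, wrap, sub_lam, sub_app, sub_var, sub_cst, sub_tapp, up_zero, ren_succ_sub]

theorem value_sub (b : U) (σ : ℕ → U) :
    (value b).sub σ = value (b.sub (up (up (up (up σ))))) := rfl

theorem frozen_sub (b : U) (σ : ℕ → U) :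
    (frozen b).sub σ = frozen (b.sub (up (up (up σ)))) := rfl

theorem wrap_sub (x : U) (σ : ℕ → U) : (wrap x).sub σ = wrap (x.sub σ) := rfl

theorem merge_sub (x y : U) (σ : ℕ → U) : (merge x y).sub σ = merge (x.sub σ) (y.sub σ) := rfl

theorem lift_red (m : ℕ) {x x' : U} (h : URed x x') : URed (lift m x) (lift m x') := by
  induction m with
  | zero => exact h
  | succ m ih => exact (URed.app .refl (URed.app .refl (ih.ren _))).lam

theorem lift_plus (m : ℕ) {x x' : U} (h : UPlus x x') : UPlus (lift m x) (lift m x') := by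
  induction m with
  | zero => exact h
  | succ m ih => exact (((ih.ren _).appR _).appR _).lam

end U

theorem Wraps.sub {x y : U} (h : Wraps x y) (σ : ℕ → U) : Wraps (x.sub σ) (y.sub σ) := by
  induction h with
  | refl => exact .refl
  | wrap _ ih => exact .wrap ih

theorem Wraps.plus {x x' y : U} (h : Wraps x y) (hx : UPlus x x') :
    ∃ y', UPlus y y' ∧ Wraps x' y' := by
  induction h with
  | refl => exact ⟨x', hx, .refl⟩
  | wrap _ ih => obtain ⟨y', h1, h2⟩ := ih; exact ⟨_, h1.appR _, .wrap h2⟩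

theorem Wraps.red {x x' y : U} (h : Wraps x y) (hx : URed x x') :
    ∃ y', URed y y' ∧ Wraps x' y' := by
  induction h with
  | refl => exact ⟨x', hx, .refl⟩
  | wrap _ ih => obtain ⟨y', h1, h2⟩ := ih; exact ⟨_, URed.app .refl h1, .wrap h2⟩

theorem Wraps.trans {x y z : U} (h : Wraps x y) (h' : Wraps y z) : Wraps x z := by
  induction h' with
  | refl => exact h
  | wrap _ ih => exact .wrap ih

/-- A lifted continuation meets a lifted value. -/
theorem U.lift_meet (m : ℕ) (K V : U) :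
    ∃ y, Wraps (.app K V) y ∧ URed (.app (U.lift m K) (U.lift m V)) y := by
  induction m with
  | zero => exact ⟨_, .refl, .refl⟩
  | succ m ih =>
    obtain ⟨y, hy, hr⟩ := ih
    have s1 : UStep (.app (U.lift (m + 1) K) (U.lift (m + 1) V))
        (U.wrap (.app (U.lift (m + 1) V) (U.lift m K))) := by
      have := UStep.beta (U.wrap (.app (.var 0) ((U.lift m K).ren Nat.succ))) (U.lift (m + 1) V)
      simpa [U.lift, U.wrap, U.inst, Function.comp_def] using this
    have s2 : UStep (U.wrap (.app (U.lift (m + 1) V) (U.lift m K)))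
        (U.wrap (U.wrap (.app (U.lift m K) (U.lift m V)))) := by
      refine UStep.appR _ ?_
      have := UStep.beta (U.wrap (.app (.var 0) ((U.lift m V).ren Nat.succ))) (U.lift m K)
      simpa [U.lift, U.wrap, U.inst, Function.comp_def] using this
    exact ⟨U.wrap (U.wrap y), .wrap (.wrap hy),
      .head s1 (.head s2 (URed.app .refl (URed.app .refl hr)))⟩

end Vale.Agent.P340
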