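import Vale.Agent.P340.UAlgebra

/-!
# Basic properties of the skeleton reduction
-/

namespace Vale.Agent.P340

open Relation

variable {u v b b' a a' f f' : U}

theorem UStep.ren (h : UStep u v) : ∀ ξ : ℕ → ℕ, UStep (u.ren ξ) (v.ren ξ) := by
  induction h with
  | beta b a => intro ξ; rw [U.ren_inst]; exact UStep.beta _ _
  | tbeta b => intro ξ; rw [U.ren_inst]; exact UStep.tbeta _
  | lam _ ih => intro ξ; exact UStep.lam (ih _)
  | tlam _ ih => intro ξ; exact UStep.tlam (ih _)
  | appL a _ ih => intro ξ; exact UStep.appL _ (ih _)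
  | appR f _ ih => intro ξ; exact UStep.appR _ (ih _)
  | tapp _ ih => intro ξ; exact UStep.tapp (ih _)
  | upiL b _ ih => intro ξ; exact UStep.upiL _ (ih _)
  | upiR a _ ih => intro ξ; exact UStep.upiR _ (ih _)

theorem UStep.sub (h : UStep u v) : ∀ σ : ℕ → U, UStep (u.sub σ) (v.sub σ) := by
  induction h with
  | beta b a => intro σ; rw [U.sub_inst]; exact UStep.beta _ _
  | tbeta b => intro σ; rw [U.sub_inst]; exact UStep.tbeta _
  | lam _ ih => intro σ; exact UStep.lam (ih _)
  | tlam _ ih => intro σ; exact UStep.tlam (ih _)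
  | appL a _ ih => intro σ; exact UStep.appL _ (ih _)
  | appR f _ ih => intro σ; exact UStep.appR _ (ih _)
  | tapp _ ih => intro σ; exact UStep.tapp (ih _)
  | upiL b _ ih => intro σ; exact UStep.upiL _ (ih _)
  | upiR a _ ih => intro σ; exact UStep.upiR _ (ih _)

theorem U.SN.step (h : u.SN) (hs : UStep u v) : v.SN :=
  h.inv hs

theorem U.SN.intro (h : ∀ v, UStep u v → v.SN) : u.SN :=
  Acc.intro _ h

theorem U.SN.of_map {F : U → U} (hF : ∀ x y, UStep x y → UStep (F x) (F y))
    (h : (F u).SN) : u.SN := by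
  generalize e : F u = K at h
  induction h generalizing u with
  | intro K _ ih => exact Acc.intro _ fun v hv => ih (F v) (e ▸ hF _ _ hv) rfl

theorem U.SN.of_sub {σ : ℕ → U} (h : (u.sub σ).SN) : u.SN :=
  U.SN.of_map (F := fun x => x.sub σ) (fun _ _ h => h.sub σ) h

theorem U.SN.of_ren {ξ : ℕ → ℕ} (h : (u.ren ξ).SN) : u.SN :=
  U.SN.of_map (F := fun x => x.ren ξ) (fun _ _ h => h.ren ξ) h

theorem U.sn_var (n : ℕ) : (U.var n).SN := U.SN.intro fun _ hv => by cases hv

theorem U.sn_cst : U.cst.SN := U.SN.intro fun _ hv => by cases hv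

theorem U.sn_upi (ha : a.SN) : b.SN → (U.upi a b).SN := by
  induction ha generalizing b with
  | intro a _ iha =>
    intro hb
    induction hb with
    | intro b hb₀ ihb =>
      refine U.SN.intro fun v hv => ?_
      cases hv with
      | upiL _ h => exact iha _ h (Acc.intro b hb₀)
      | upiR _ h => exact ihb _ h

end Vale.Agent.P340
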