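import Vale.Agent.P340.CpsSkSub
import Vale.Agent.P340.UStepBasic

/-!
# The translations simulate every step of a skeleton
-/

namespace Vale.Agent.P340

open Relation

variable {m : ℕ}

theorem uplus_merge_left {x x' : U} (h : UPlus x x') (y : U) :
    UPlus (U.merge x y) (U.merge x' y) :=
  (h.appR _).appL _

theorem uplus_merge_right (x : U) {y y' : U} (h : UPlus y y') :
    UPlus (U.merge x y) (U.merge x y') :=
  h.appR _

/-- Four contractions turn a value applied to an application's continuation into its body. -/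
theorem value_red (body h k : U) :
    UPlus (.app (U.appCont h k) (U.value body))
      (U.wrap (body.sub fun n =>
        ((((U.up (U.up (U.up (U.sub0 .cst)))) n).sub (U.up (U.up (U.sub0 .cst)))).sub
          (U.up (U.sub0 h))).sub (U.sub0 k))) := by
  have s1 : UStep (.app (U.appCont h k) (U.value body))
      (U.wrap (.app (.app (.tapp (.tapp (U.value body))) h) k)) := by
    have := UStep.beta
      (U.wrap (.app (.app (.tapp (.tapp (.var 0))) (h.ren Nat.succ)) (k.ren Nat.succ))) (U.value body)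
    simpa [U.appCont, U.wrap, U.inst, Function.comp_def] using this
  have s2 : UStep (U.wrap (.app (.app (.tapp (.tapp (U.value body))) h) k))
      (U.wrap (.app (.app (.tapp (.tlam (.lam (.lam
        (body.sub (U.up (U.up (U.up (U.sub0 .cst))))))))) h) k)) := by
    refine UStep.appR _ (.appL _ (.appL _ (.tapp ?_)))
    simpa [U.value, U.inst] using UStep.tbeta (.tlam (.lam (.lam body)))
  have s3 : UStep (U.wrap (.app (.app (.tapp (.tlam (.lam (.lam
        (body.sub (U.up (U.up (U.up (U.sub0 .cst))))))))) h) k))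
      (U.wrap (.app (.app (.lam (.lam
        ((body.sub (U.up (U.up (U.up (U.sub0 .cst))))).sub (U.up (U.up (U.sub0 .cst)))))) h) k)) := by
    refine UStep.appR _ (.appL _ (.appL _ ?_))
    simpa [U.inst] using UStep.tbeta
      (.lam (.lam (body.sub (U.up (U.up (U.up (U.sub0 .cst)))))))
  let b2 := (body.sub (U.up (U.up (U.up (U.sub0 .cst))))).sub (U.up (U.up (U.sub0 .cst)))
  have s4 : UStep (U.wrap (.app (.app (.lam (.lam b2)) h) k))
      (U.wrap (.app (.lam (b2.sub (U.up (U.sub0 h)))) k)) := by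
    refine UStep.appR _ (.appL _ ?_)
    simpa [U.inst] using UStep.beta (.lam b2) h
  have s5 : UStep (U.wrap (.app (.lam (b2.sub (U.up (U.sub0 h)))) k))
      (U.wrap ((b2.sub (U.up (U.sub0 h))).sub (U.sub0 k))) :=
    UStep.appR _ (UStep.beta _ _)
  have := ((((TransGen.single s1).tail s2).tail s3).tail s4).tail s5
  simpa [b2, U.sub_sub] using this

/-- A translation of a contraction. -/
theorem sk_ctr {f : Sk} {K u : U} (h : SkEv m f K u) : ∀ {fl : Bool} {a r : Sk} {hh k : U},
    K = U.lift m (U.appCont hh k) → Hat m fl a hh → SkCtr fl f a r →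
    ∃ u', UPlus u u' ∧ SkEv m r k u' := by
  refine (sk_induction (Q := fun _ _ => True) (R := fun _ _ _ => True)
    (P := fun f K u => ∀ {fl a r hh k}, K = U.lift m (U.appCont hh k) → Hat m fl a hh →
      SkCtr fl f a r → ∃ u', UPlus u u' ∧ SkEv m r k u')
    ?_ ?_ ?_ ?_ ?_ ?_ trivial (fun _ => trivial) (fun _ _ _ => trivial)
    (fun _ _ _ _ => trivial) (fun _ _ _ _ => trivial) (fun _ _ _ _ _ _ => trivial)
    (fun _ _ => trivial) (fun _ _ => trivial) (fun _ _ => trivial) (fun _ _ => trivial)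
    (fun _ _ => trivial)).1 h
  · intro n K fl a r hh k _ _ hr; cases hr
  · intro fl A b body K hb _ fl' a r hh k eK ha hr
    subst eK
    cases hr with
    | lam _ _ hocc =>
      obtain ⟨y, hy, hred⟩ := U.lift_meet m (U.appCont hh k) (U.value body)
      let σ : Bool → ℕ → Sk := fun f n => match n with
        | 1 => a
        | n + 4 => .var f n
        | _ => .cst
      let τ : ℕ → U := fun n =>
        ((((U.up (U.up (U.up (U.sub0 .cst)))) n).sub (U.up (U.up (U.sub0 .cst)))).sub
          (U.up (U.sub0 hh))).sub (U.sub0 k)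
      have hστ : HatOn m (.mem (.mem (b.ren valShift) (.var fl 1)) (A.ren (· + 4))) σ τ := by
        intro f n hn
        simp only [Sk.Occ, Sk.occ_ren] at hn
        rcases hn with (⟨j, hj, rfl⟩ | ⟨rfl, rfl⟩) | ⟨j, _, rfl⟩
        · cases j with
          | zero =>
            obtain rfl : f = fl := by
              cases f <;> cases fl <;> first | rfl | exact absurd hj hocc
            simpa [σ, τ, valShift, Function.comp_def] using ha
          | succ j => simpa [σ, τ, valShift, Function.comp_def] using Hat.var f j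
        · simpa [σ, τ, Function.comp_def] using ha
        · simpa [σ, τ, Function.comp_def] using Hat.var f j
      obtain ⟨t', h1, h2⟩ := sk_sub.1 hb σ τ hστ
      have e : (Sk.mem (.mem (b.ren valShift) (.var fl 1)) (A.ren (· + 4))).sub σ =
          .mem (.mem (b.inst a) a) A := by
        simp only [Sk.sub, Sk.sub_ren, Sk.inst]
        have e1 : (fun f n => σ f (valShift n)) = Sk.sub0 a := by
          funext f n; cases n <;> rfl
        have e2 : (fun f n => σ f (n + 4)) = fun f n => Sk.var f n := rfl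
        rw [e1, e2, Sk.sub_id]
      rw [e] at h2
      have ek : (U.var 0).sub τ = k := by simp [τ]
      rw [ek] at h2
      obtain ⟨y', h3, h4⟩ := hy.plus (x' := U.wrap t')
        (TransGen.trans_left (value_red body hh k) (URed.app .refl h1))
      exact ⟨y', TransGen.trans_right hred h3, (SkEv.wrap h2).wraps h4⟩
  · intro fl f a' hh' K u _ _ _ _ fl' a r hh k _ _ hr; cases hr
  · intro p e K u r _ he ih _ fl a r' hh k eK ha hr
    cases hr with
    | mem _ hr =>
      obtain ⟨u', h1, h2⟩ := ih eK ha hr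
      exact ⟨_, uplus_merge_left h1 _, .mem h2 he⟩
  · intro t K r y ht _ _ _ fl a r' hh k _ _ hr
    cases hr <;> exact ht.elim
  · intro t K u _ ih fl a r hh k eK ha hr
    obtain ⟨u', h1, h2⟩ := ih eK ha hr
    exact ⟨_, h1.appR _, .wrap h2⟩

/-- The translations simulate every step. -/
theorem sk_step :
    (∀ {t k u}, SkEv m t k u → ∀ t', SkStep t t' → ∃ u', UPlus u u' ∧ SkEv m t' k u') ∧
      (∀ {t r}, Rho m t r → ∀ t', SkStep t t' → ∃ r', UPlus r r' ∧ Rho m t' r') ∧
      ∀ {fl t h}, Hat m fl t h → ∀ t', SkStep t t' → ∃ h', UPlus h h' ∧ Hat m fl t' h' := by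
  apply sk_induction
  · intro n k t' hs; cases hs
  · intro fl A b body k _ ih t' hs
    cases hs with
    | lamL _ hs =>
      obtain ⟨u', h1, h2⟩ := ih _ (.memR _ (hs.ren _))
      exact ⟨_, (U.lift_plus m h1.lam.lam.tlam.tlam).appR _, .lam k h2⟩
    | lamR _ hs =>
      obtain ⟨u', h1, h2⟩ := ih _ (.memL _ (.memL _ (hs.ren _)))
      exact ⟨_, (U.lift_plus m h1.lam.lam.tlam.tlam).appR _, .lam k h2⟩
  · intro fl f a hh k u ha hf iha ihf t' hs
    cases hs with
    | beta hr => exact sk_ctr hf rfl ha hr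
    | appL _ hs =>
      obtain ⟨u', h1, h2⟩ := ihf _ hs
      exact ⟨u', h1, .app ha h2⟩
    | appR _ hs =>
      obtain ⟨h', h1, h2⟩ := iha _ hs
      obtain ⟨u', h3, h4⟩ := hf.mono_plus'
        (U.lift_plus m ((((h1.ren _).appR _).appL _).appR _).lam)
      exact ⟨u', h3, .app h2 h4⟩
  · intro p e k u r hp he ihp ihe t' hs
    cases hs with
    | memL _ hs =>
      obtain ⟨u', h1, h2⟩ := ihp _ hs
      exact ⟨_, uplus_merge_left h1 _, .mem h2 he⟩
    | memR _ hs =>
      obtain ⟨r', h1, h2⟩ := ihe _ hs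
      exact ⟨_, uplus_merge_right _ h1, .mem hp h2⟩
  · intro t k r y ht _ hy ih t' hs
    obtain ⟨r', h1, h2⟩ := ih t' hs
    exact ⟨_, uplus_merge_left h1 _, .stub (hs.stub ht) h2 hy⟩
  · intro t k u _ ih t' hs
    obtain ⟨u', h1, h2⟩ := ih t' hs
    exact ⟨_, h1.appR _, .wrap h2⟩
  · intro t' hs; cases hs
  · intro n t' hs; cases hs
  · intro t k u hk _ ih t' hs
    obtain ⟨u', h1, h2⟩ := ih t' hs
    exact ⟨u', h1, .comp hk h2⟩
  · intro p e x y hp he ihp ihe t' hs
    cases hs with
    | memL _ hs =>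
      obtain ⟨x', h1, h2⟩ := ihp _ hs
      exact ⟨_, uplus_merge_left h1 _, .mem h2 he⟩
    | memR _ hs =>
      obtain ⟨y', h1, h2⟩ := ihe _ hs
      exact ⟨_, uplus_merge_right _ h1, .mem hp h2⟩
  · intro a b x y ha hb iha ihb t' hs
    cases hs with
    | nodeL _ hs =>
      obtain ⟨x', h1, h2⟩ := iha _ hs
      exact ⟨_, uplus_merge_left h1 _, .node h2 hb⟩
    | nodeR _ hs =>
      obtain ⟨y', h1, h2⟩ := ihb _ hs
      exact ⟨_, uplus_merge_right _ h1, .node ha h2⟩
  · intro fl a b x K body y ha hK hb hy iha ihb t' hs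
    cases hs with
    | bindL _ hs =>
      obtain ⟨x', h1, h2⟩ := iha _ hs
      exact ⟨_, uplus_merge_left h1 _, .bind h2 hK hb hy⟩
    | bindR _ hs =>
      obtain ⟨b', h1, h2⟩ := ihb _ (.memL _ (hs.ren _))
      obtain ⟨y', h3, h4⟩ := hy.plus (h1.lam.tlam.tlam.appR K)
      exact ⟨_, uplus_merge_right _ h3, .bind ha hK h2 h4⟩
  · intro t r _ ih t' hs
    obtain ⟨r', h1, h2⟩ := ih t' hs
    exact ⟨_, h1.appR _, .wrap h2⟩
  · intro t r _ ih t' hs
    obtain ⟨r', h1, h2⟩ := ih t' hs
    exact ⟨_, h1.appR _, .mergeCst h2⟩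
  · intro fl n t' hs; cases hs
  · intro t u _ ih t' hs
    obtain ⟨u', h1, h2⟩ := ih _ (hs.ren _)
    exact ⟨_, h1.lam, .thunk h2⟩
  · intro t r _ ih t' hs
    obtain ⟨r', h1, h2⟩ := ih t' hs
    exact ⟨_, h1.appR _, .keep h2⟩

theorem skStep_sim {t t₂ : Sk} {r : U} (hs : SkStep t t₂) (hr : Rho m t r) :
    ∃ r₂, UPlus r r₂ ∧ Rho m t₂ r₂ :=
  sk_step.2.1 hr t₂ hs

/-- A skeleton with a strongly normal translation is strongly normal. -/
theorem sk_sn {r : U} (h : r.SN) :
    ∀ {t : Sk}, Rho m t r → Acc (fun a b => SkStep b a) t := by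
  have h' := Acc.transGen h
  induction h' with
  | intro r _ ih =>
    intro t ht
    refine Acc.intro _ fun t' hs => ?_
    obtain ⟨r', h1, h2⟩ := skStep_sim hs ht
    refine ih r' (transGen_swap.2 h1) ?_ h2
    clear ih h2
    induction h1 with
    | single h1 => exact h.step h1
    | tail _ h1 ih1 => exact ih1.step h1

end Vale.Agent.P340
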