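import Vale.Agent.P340.CpsSkel
import Vale.Agent.P340.CpsSkAlg
import Vale.Agent.P340.CpsSkSim

/-!
# Steps of the class are steps of the skeleton

A typed step contracting a label of the class gives a step of the skeleton. Hence a skeleton
kept by a strongly normalising translation bounds the steps of the class.
-/

namespace Vale.Agent.P340

/-! ### Substitutions of skeletons agreeing on the free variables -/

namespace Sk

theorem sub_congr : ∀ (M : Sk) {σ τ : Bool → ℕ → Sk},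
    (∀ fl n, Occ fl n M → σ fl n = τ fl n) → M.sub σ = M.sub τ := by
  intro M
  induction M with
  | var fl n => intro σ τ h; exact h fl n ⟨rfl, rfl⟩
  | cst => intros; rfl
  | lam fl A b ihA ihb =>
    intro σ τ h
    simp only [sub]
    rw [ihA fun g n hn => h g n (.inl hn), ihb (τ := up τ)]
    intro g n hn
    cases n with
    | zero => rfl
    | succ n => simp [h g n (.inr hn)]
  | app fl f a ihf iha =>
    intro σ τ h
    simp only [sub]
    rw [ihf fun g n hn => h g n (.inl hn), iha fun g n hn => h g n (.inr hn)]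
  | mem p e ihp ihe =>
    intro σ τ h
    simp only [sub]
    rw [ihp fun g n hn => h g n (.inl hn), ihe fun g n hn => h g n (.inr hn)]
  | node a b iha ihb =>
    intro σ τ h
    simp only [sub]
    rw [iha fun g n hn => h g n (.inl hn), ihb fun g n hn => h g n (.inr hn)]
  | bind fl A b ihA ihb =>
    intro σ τ h
    simp only [sub]
    rw [ihA fun g n hn => h g n (.inl hn), ihb (τ := up τ)]
    intro g n hn
    cases n with
    | zero => rfl
    | succ n => simp [h g n (.inr hn)]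

theorem ren_congr (M : Sk) {ξ ζ : ℕ → ℕ} (h : ∀ fl n, Occ fl n M → ξ n = ζ n) :
    M.ren ξ = M.ren ζ := by
  rw [ren_eq_sub, ren_eq_sub]
  exact sub_congr M fun fl n hn => by rw [h fl n hn]

theorem pred_ren (b : Sk) (h : ∀ fl, ¬ Occ fl 0 b) (ξ : ℕ → ℕ) :
    (b.ren Nat.pred).ren ξ = (b.ren (upr ξ)).ren Nat.pred := by
  simp only [ren_ren]
  refine ren_congr b fun fl n hn => ?_
  cases n with
  | zero => exact (h fl hn).elim
  | succ n => rfl

theorem pred_sub (b : Sk) (h : ∀ fl, ¬ Occ fl 0 b) (θ : Bool → ℕ → Sk) :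
    (b.ren Nat.pred).sub θ = (b.sub (up θ)).ren Nat.pred := by
  rw [sub_ren, ren_sub]
  refine sub_congr b fun fl n hn => ?_
  cases n with
  | zero => exact (h fl hn).elim
  | succ n =>
    rw [up_succ, ren_ren]
    conv_lhs => rw [← sub_id (θ fl (Nat.pred (n + 1)))]
    rw [ren_eq_sub]
    rfl

end Sk

variable {S : Type} {P : Spec S} {D : HData S}

open Classical in
/-- The sort lies in the class. -/
noncomputable def HData.flag (D : HData S) (s : S) : Bool := decide (s ∈ D.C)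

open Classical in
/-- A binder of domain sort `s` outside the class. -/
noncomputable def HData.binder (P : Spec S) (D : HData S) (s : S) (a b : Sk) : Sk :=
  if s ∈ D.Dom P then .bind (D.flag s) a b else .node a (b.ren Nat.pred)

variable {Γ Δ : List (Tm S)} {A A' B : Tm S} {a c s s₁ : S} {n : ℕ}

theorem typeFlag_eq (hP : PairSpec P) (hA : Der P Γ A (.srt s)) :
    typeFlag P D Γ A = D.flag s := by
  simp only [typeFlag, HData.flag]
  exact decide_eq_decide.2 ⟨fun ⟨a, ha, h⟩ => hP.sort_eq h hA ▸ ha, fun h => ⟨s, h, hA⟩⟩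

theorem skBinder_eq (hP : PairSpec P) (hA : Der P Γ A (.srt s)) (x y : Sk) :
    skBinder P D Γ A x y = D.binder P s x y := by
  simp only [skBinder, HData.binder, typeFlag_eq hP hA]
  by_cases h : s ∈ D.Dom P
  · rw [if_pos h, if_pos ⟨s, h, hA⟩]
  · rw [if_neg h, if_neg]
    rintro ⟨a, ha, h'⟩
    exact h (hP.sort_eq h' hA ▸ ha)

theorem colFlag_eq (hP : PairSpec P) (hΓ : Wf P Γ) {M : Tm S} (h : HasCol P Γ M s) :
    colFlag P D Γ M = D.flag s := by
  simp only [colFlag, HData.flag]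
  exact decide_eq_decide.2
    ⟨fun ⟨a, ha, h'⟩ => h'.unique hP hΓ h ▸ ha, fun h' => ⟨s, h', h⟩⟩

theorem skel_var (hP : PairSpec P) (hΓ : Wf P Γ) (h : HasCol P Γ (.var n) a) :
    (a ∈ D.Dom P → skel P D Γ (.var n) = .var (D.flag a) n) ∧
      (a ∉ D.Dom P → skel P D Γ (.var n) = .cst) := by
  refine ⟨fun ha => ?_, fun ha => ?_⟩
  · rw [skel, if_pos ⟨a, ha, h⟩, colFlag_eq hP hΓ h]
  · rw [skel, if_neg]
    rintro ⟨b, hb, h'⟩
    exact ha (h'.unique hP hΓ h ▸ hb)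

theorem skel_app (hP : PairSpec P) (hΓ : Wf P Γ) {f x : MTm S S}
    (hx : HasCol P Γ x.erase s) :
    (c ∈ D.C → skel P D Γ (.app c f x) = .app (D.flag s) (skel P D Γ f) (skel P D Γ x)) ∧
      (c ∉ D.C → skel P D Γ (.app c f x) = .node (skel P D Γ f) (skel P D Γ x)) := by
  refine ⟨fun hc => ?_, fun hc => ?_⟩
  · rw [skel, if_pos hc, colFlag_eq hP hΓ hx]
  · rw [skel, if_neg hc]

theorem skel_pi (hP : PairSpec P) {X Y : MTm S S} (hX : Der P Γ X.erase (.srt s)) :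
    skel P D Γ (.pi X Y) =
      D.binder P s (skel P D Γ X) (skel P D (X.erase :: Γ) Y) := by
  rw [skel, skBinder_eq hP hX]

theorem skel_lam (hP : PairSpec P) (hΓ : Wf P Γ) {X y : MTm S S}
    (hX : Der P Γ X.erase (.srt s)) (h : HasCol P Γ (Tm.lam X.erase y.erase) c) :
    (c ∈ D.C → skel P D Γ (.lam X y) =
        .lam (D.flag s) (skel P D Γ X) (skel P D (X.erase :: Γ) y)) ∧
      (c ∉ D.C → skel P D Γ (.lam X y) =
        D.binder P s (skel P D Γ X) (skel P D (X.erase :: Γ) y)) := by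
  refine ⟨fun hc => ?_, fun hc => ?_⟩
  · rw [skel, if_pos ⟨c, hc, h⟩, typeFlag_eq hP hX]
  · rw [skel, if_neg, skBinder_eq hP hX]
    rintro ⟨b, hb, h'⟩
    exact hc (h'.unique hP hΓ h ▸ hb)

/-! ### Sorts of declared types -/

theorem Lk.sort_zero (hP : PairSpec P) (hA : Der P Γ A (.srt s)) (hl : Lk (A :: Γ) 0 B)
    (hB : Der P (A :: Γ) B (.srt a)) : a = s := by
  cases hl
  exact hP.sort_eq hB (hA.weaken A)

theorem Lk.sort_succ (hP : PairSpec P) (hΓ : Wf P Γ) (hl : Lk (A :: Γ) (n + 1) B)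
    (hB : Der P (A :: Γ) B (.srt a)) : ∃ B₀, Lk Γ n B₀ ∧ Der P Γ B₀ (.srt a) := by
  cases hl with
  | @succ _ B₀ _ _ h =>
    obtain ⟨s', hs⟩ := hΓ.lookup h
    obtain rfl : a = s' := hP.sort_eq hB (hs.weaken A)
    exact ⟨B₀, h, hs⟩

/-! ### Free variables of a skeleton -/

theorem skel_occ (hP : PairSpec P) {t : MTm S S} {T : Tm S} (h : MDer P id Γ t T) :
    Wf P Γ → ∀ fl n, Sk.Occ fl n (skel P D Γ t) →
      ∃ B a, Lk Γ n B ∧ Der P Γ B (.srt a) ∧ a ∈ D.Dom P ∧ fl = D.flag a := by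
  induction h with
  | axiom_ => intro hΓ fl n ho; simp [skel, Sk.Occ] at ho
  | @var Γ k B hl =>
    intro hΓ fl n ho
    obtain ⟨a, ha⟩ := hΓ.lookup hl
    have hv := skel_var (D := D) hP hΓ ⟨B, .var hl, ha⟩
    by_cases hD : a ∈ D.Dom P
    · rw [hv.1 hD] at ho
      obtain ⟨rfl, rfl⟩ := ho
      exact ⟨B, a, hl, ha, hD, rfl⟩
    · rw [hv.2 hD] at ho
      exact ho.elim
  | @prod Γ X Y s₁ s₂ s₃ hX hY hr ihX ihY =>
    intro hΓ fl n ho
    have hΓ' := hΓ.cons hX.toDer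
    rw [skel_pi hP hX.toDer] at ho
    have below : ∀ k, Sk.Occ fl (k + 1) (skel P D (X.erase :: Γ) Y) →
        ∃ B a, Lk Γ k B ∧ Der P Γ B (.srt a) ∧ a ∈ D.Dom P ∧ fl = D.flag a := by
      intro k hk
      obtain ⟨B, a, hl, hB, hD, hf⟩ := ihY hΓ' fl _ hk
      obtain ⟨B₀, hl₀, hB₀⟩ := hl.sort_succ hP hΓ hB
      exact ⟨B₀, a, hl₀, hB₀, hD, hf⟩
    unfold HData.binder at ho
    split at ho
    · exact ho.elim (ihX hΓ fl n) (below n)
    · rename_i hs
      refine ho.elim (ihX hΓ fl n) fun ho => ?_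
      obtain ⟨k, hk, rfl⟩ := (Sk.occ_ren _ _ _ _).1 ho
      cases k with
      | zero =>
        obtain ⟨B, a, hl, hB, hD, _⟩ := ihY hΓ' fl 0 hk
        exact (hs (hl.sort_zero hP hX.toDer hB ▸ hD)).elim
      | succ k => exact below k hk
  | @abs Γ X y Z s₁ s hX hy hp ihX ihy =>
    intro hΓ fl n ho
    have hΓ' := hΓ.cons hX.toDer
    have hv := skel_lam (D := D) hP hΓ hX.toDer
      (y := y) ⟨_, .abs hX.toDer hy.toDer hp, hp⟩
    have below : ∀ k, Sk.Occ fl (k + 1) (skel P D (X.erase :: Γ) y) →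
        ∃ B a, Lk Γ k B ∧ Der P Γ B (.srt a) ∧ a ∈ D.Dom P ∧ fl = D.flag a := by
      intro k hk
      obtain ⟨B, a, hl, hB, hD, hf⟩ := ihy hΓ' fl _ hk
      obtain ⟨B₀, hl₀, hB₀⟩ := hl.sort_succ hP hΓ hB
      exact ⟨B₀, a, hl₀, hB₀, hD, hf⟩
    by_cases hc : s ∈ D.C
    · rw [hv.1 hc] at ho
      exact ho.elim (ihX hΓ fl n) (below n)
    · rw [hv.2 hc] at ho
      unfold HData.binder at ho
      split at ho
      · exact ho.elim (ihX hΓ fl n) (below n)
      · rename_i hs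
        refine ho.elim (ihX hΓ fl n) fun ho => ?_
        obtain ⟨k, hk, rfl⟩ := (Sk.occ_ren _ _ _ _).1 ho
        cases k with
        | zero =>
          obtain ⟨B, a, hl, hB, hD, _⟩ := ihy hΓ' fl 0 hk
          exact (hs (hl.sort_zero hP hX.toDer hB ▸ hD)).elim
        | succ k => exact below k hk
  | @appl Γ f x X Z s c hf hx hp _ ihf ihx =>
    intro hΓ fl n ho
    obtain ⟨s₁, _, _, hX, _, _, _⟩ := hf.toDer.pi_type hΓ
    have hv := skel_app (D := D) hP hΓ (c := c) (f := f) ⟨X, hx.toDer, hX⟩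
    by_cases hc : c ∈ D.C
    · rw [hv.1 hc] at ho; exact ho.elim (ihf hΓ fl n) (ihx hΓ fl n)
    · rw [hv.2 hc] at ho; exact ho.elim (ihf hΓ fl n) (ihx hΓ fl n)
  | mem _ _ ihp ihe =>
    intro hΓ fl n ho
    rw [skel] at ho
    exact ho.elim (ihp hΓ fl n) (ihe hΓ fl n)
  | conv _ _ _ ih => exact ih

/-- The last variable occurs only if its sort is a domain, with the flag of its sort. -/
theorem skel_occ_zero (hP : PairSpec P) {t : MTm S S} {T : Tm S} (hΓ : Wf P Γ)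
    (hA : Der P Γ A (.srt s)) (h : MDer P id (A :: Γ) t T) {fl : Bool}
    (ho : Sk.Occ fl 0 (skel P D (A :: Γ) t)) : s ∈ D.Dom P ∧ fl = D.flag s := by
  obtain ⟨B, a, hl, hB, hD, hf⟩ := skel_occ hP h (hΓ.cons hA) fl 0 ho
  obtain rfl := hl.sort_zero hP hA hB
  exact ⟨hD, hf⟩

theorem HData.binder_ren {x y : Sk} (h : s ∉ D.Dom P → ∀ fl, ¬ Sk.Occ fl 0 y) (ξ : ℕ → ℕ) :
    (D.binder P s x y).ren ξ = D.binder P s (x.ren ξ) (y.ren (upr ξ)) := by
  unfold HData.binder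
  split
  · rfl
  · rename_i hs
    simp only [Sk.ren, y.pred_ren (h hs)]

theorem HData.binder_sub {x y : Sk} (h : s ∉ D.Dom P → ∀ fl, ¬ Sk.Occ fl 0 y)
    (θ : Bool → ℕ → Sk) :
    (D.binder P s x y).sub θ = D.binder P s (x.sub θ) (y.sub (Sk.up θ)) := by
  unfold HData.binder
  split
  · rfl
  · rename_i hs
    simp only [Sk.sub, y.pred_sub (h hs)]

/-! ### Renaming and substitution -/

theorem skel_ren (hP : PairSpec P) {t : MTm S S} {T : Tm S} (h : MDer P id Γ t T) :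
    ∀ {Δ : List (Tm S)} {ξ : ℕ → ℕ}, Wf P Γ → Wf P Δ → Rens ξ Γ Δ →
      skel P D Δ (t.ren ξ) = (skel P D Γ t).ren ξ := by
  induction h with
  | axiom_ => intros; simp [skel, Sk.ren]
  | @var Γ k B hl =>
    intro Δ ξ hΓ hΔ hξ
    obtain ⟨a, ha⟩ := hΓ.lookup hl
    have hv := skel_var (D := D) hP hΓ ⟨B, .var hl, ha⟩
    have hw := skel_var (D := D) hP hΔ (n := ξ k)
      ⟨B.ren ξ, .var (hξ _ _ hl), ha.rename hξ⟩
    by_cases hD : a ∈ D.Dom P
    · simp [hv.1 hD, hw.1 hD, Sk.ren]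
    · simp [hv.2 hD, hw.2 hD, Sk.ren]
  | @prod Γ X Y s₁ s₂ s₃ hX hY hr ihX ihY =>
    intro Δ ξ hΓ hΔ hξ
    have hX' := (hX.rename hξ).toDer
    rw [MTm.ren_pi, skel_pi hP hX', skel_pi hP hX.toDer,
      HData.binder_ren (fun hs fl ho => hs (skel_occ_zero hP hΓ hX.toDer hY ho).1),
      ihX hΓ hΔ hξ]
    simp only [MTm.erase_ren] at hX' ⊢
    rw [ihY (hΓ.cons hX.toDer) (hΔ.cons hX') (hξ.up _)]
  | @abs Γ X y Z s₁ s hX hy hp ihX ihy =>
    intro Δ ξ hΓ hΔ hξ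
    have hX' := (hX.rename hξ).toDer
    have hcol : HasCol P Γ (Tm.lam X.erase y.erase) s :=
      ⟨_, .abs hX.toDer hy.toDer hp, hp⟩
    have hcol' : HasCol P Δ (Tm.lam (X.ren ξ).erase (y.ren (upr ξ)).erase) s := by
      simp only [MTm.erase_ren]
      exact ⟨_, (Der.abs hX.toDer hy.toDer hp).rename hξ, hp.rename hξ⟩
    have hy' := ihy (hΓ.cons hX.toDer) (hΔ.cons (A := (X.ren ξ).erase) hX')
      (by simpa using hξ.up X.erase)
    by_cases hc : s ∈ D.C
    · rw [MTm.ren_lam, (skel_lam hP hΔ hX' hcol').1 hc, (skel_lam hP hΓ hX.toDer hcol).1 hc,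
        ihX hΓ hΔ hξ, hy']
      rfl
    · rw [MTm.ren_lam, (skel_lam hP hΔ hX' hcol').2 hc, (skel_lam hP hΓ hX.toDer hcol).2 hc,
        HData.binder_ren (fun hs fl ho => hs (skel_occ_zero hP hΓ hX.toDer hy ho).1),
        ihX hΓ hΔ hξ, hy']
  | @appl Γ f x X Z s c hf hx hp _ ihf ihx =>
    intro Δ ξ hΓ hΔ hξ
    obtain ⟨s₁, _, _, hX, _, _, _⟩ := hf.toDer.pi_type hΓ
    have hv := skel_app (D := D) hP hΓ (c := c) (f := f) ⟨X, hx.toDer, hX⟩
    have hw := skel_app (D := D) hP hΔ (c := c) (f := f.ren ξ) (x := x.ren ξ) (s := s₁)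
      ⟨X.ren ξ, (hx.rename hξ).toDer, hX.rename hξ⟩
    by_cases hc : c ∈ D.C
    · simp [hv.1 hc, hw.1 hc, Sk.ren, ihf hΓ hΔ hξ, ihx hΓ hΔ hξ]
    · simp [hv.2 hc, hw.2 hc, Sk.ren, ihf hΓ hΔ hξ, ihx hΓ hΔ hξ]
  | mem _ _ ihp ihe =>
    intro Δ ξ hΓ hΔ hξ
    simp [skel, Sk.ren, ihp hΓ hΔ hξ, ihe hΓ hΔ hξ]
  | conv _ _ _ ih => exact ih

theorem skel_weaken (hP : PairSpec P) {t : MTm S S} {T : Tm S} (h : MDer P id Γ t T)
    (hΓ : Wf P Γ) (hA : Der P Γ A (.srt s)) :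
    skel P D (A :: Γ) (t.ren Nat.succ) = (skel P D Γ t).ren Nat.succ :=
  skel_ren hP h hΓ (hΓ.cons hA) (Rens.succ Γ A)

/-- What a substitution must provide for its skeleton. -/
def SkelSubs (P : Spec S) (D : HData S) (σ : ℕ → MTm S S) (θ : Bool → ℕ → Sk)
    (Γ Δ : List (Tm S)) : Prop :=
  ∀ n B a, Lk Γ n B → Der P Γ B (.srt a) →
    (a ∈ D.Dom P → skel P D Δ (σ n) = θ (D.flag a) n) ∧
      (a ∉ D.Dom P → ∃ k, σ n = .var k)

theorem SkelSubs.up (hP : PairSpec P) {σ : ℕ → MTm S S} {θ : Bool → ℕ → Sk}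
    (h : SkelSubs P D σ θ Γ Δ) (hσ : MSubs P id σ Γ Δ) (hΓ : Wf P Γ) (hΔ : Wf P Δ)
    (hA : Der P Γ A (.srt s)) (hA' : Der P Δ A' (.srt s)) :
    SkelSubs P D (MTm.up σ) (Sk.up θ) (A :: Γ) (A' :: Δ) := by
  intro n B a hl hB
  cases n with
  | zero =>
    obtain rfl := hl.sort_zero hP hA hB
    refine ⟨fun ha => ?_, fun _ => ⟨0, rfl⟩⟩
    rw [MTm.up_zero, (skel_var hP (hΔ.cons hA') ⟨_, .var .zero, hA'.weaken A'⟩).1 ha]
    rfl
  | succ n =>
    obtain ⟨B₀, hl₀, hB₀⟩ := hl.sort_succ hP hΓ hB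
    refine ⟨fun ha => ?_, fun ha => ?_⟩
    · rw [MTm.up_succ, skel_weaken hP (hσ n B₀ hl₀) hΔ hA', (h n B₀ a hl₀ hB₀).1 ha]
      rfl
    · obtain ⟨k, hk⟩ := (h n B₀ a hl₀ hB₀).2 ha
      exact ⟨k + 1, by simp [hk]⟩

theorem skel_sub (hP : PairSpec P) {t : MTm S S} {T : Tm S} (h : MDer P id Γ t T) :
    ∀ {Δ : List (Tm S)} {σ : ℕ → MTm S S} {θ : Bool → ℕ → Sk}, Wf P Γ → Wf P Δ →
      MSubs P id σ Γ Δ → SkelSubs P D σ θ Γ Δ →
      skel P D Δ (t.sub σ) = (skel P D Γ t).sub θ := by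
  induction h with
  | axiom_ => intros; simp [skel, Sk.sub]
  | @var Γ k B hl =>
    intro Δ σ θ hΓ hΔ hσ hθ
    obtain ⟨a, ha⟩ := hΓ.lookup hl
    have hv := skel_var (D := D) hP hΓ ⟨B, .var hl, ha⟩
    by_cases hD : a ∈ D.Dom P
    · simp [hv.1 hD, (hθ k B a hl ha).1 hD, Sk.sub]
    · obtain ⟨j, hj⟩ := (hθ k B a hl ha).2 hD
      have hd := hσ k B hl
      rw [hj] at hd
      have hw := skel_var (D := D) hP hΔ (n := j) ⟨_, hd.toDer, ha.subst hσ.erase⟩
      simp [hv.2 hD, hj, hw.2 hD, Sk.sub]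
  | @prod Γ X Y s₁ s₂ s₃ hX hY hr ihX ihY =>
    intro Δ σ θ hΓ hΔ hσ hθ
    have hX' := (hX.subst hσ).toDer
    rw [MTm.sub_pi, skel_pi hP hX', skel_pi hP hX.toDer,
      HData.binder_sub (fun hs fl ho => hs (skel_occ_zero hP hΓ hX.toDer hY ho).1),
      ihX hΓ hΔ hσ hθ]
    simp only [MTm.erase_sub] at hX' ⊢
    rw [ihY (hΓ.cons hX.toDer) (hΔ.cons hX') (hσ.up _) (hθ.up hP hσ hΓ hΔ hX.toDer hX')]
  | @abs Γ X y Z s₁ s hX hy hp ihX ihy =>
    intro Δ σ θ hΓ hΔ hσ hθ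
    have hX' := (hX.subst hσ).toDer
    have hcol : HasCol P Γ (Tm.lam X.erase y.erase) s :=
      ⟨_, .abs hX.toDer hy.toDer hp, hp⟩
    have hcol' : HasCol P Δ (Tm.lam (X.sub σ).erase (y.sub (MTm.up σ)).erase) s := by
      simp only [MTm.erase_sub, MTm.erase_up]
      exact ⟨_, (Der.abs hX.toDer hy.toDer hp).subst hσ.erase, hp.subst hσ.erase⟩
    have hy' := ihy (hΓ.cons hX.toDer) (hΔ.cons (A := (X.sub σ).erase) hX')
      (by simpa using hσ.up X.erase) (hθ.up hP hσ hΓ hΔ hX.toDer hX')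
    by_cases hc : s ∈ D.C
    · rw [MTm.sub_lam, (skel_lam hP hΔ hX' hcol').1 hc, (skel_lam hP hΓ hX.toDer hcol).1 hc,
        ihX hΓ hΔ hσ hθ, hy']
      rfl
    · rw [MTm.sub_lam, (skel_lam hP hΔ hX' hcol').2 hc, (skel_lam hP hΓ hX.toDer hcol).2 hc,
        HData.binder_sub (fun hs fl ho => hs (skel_occ_zero hP hΓ hX.toDer hy ho).1),
        ihX hΓ hΔ hσ hθ, hy']
  | @appl Γ f x X Z s c hf hx hp _ ihf ihx =>
    intro Δ σ θ hΓ hΔ hσ hθ
    obtain ⟨s₁, _, _, hX, _, _, _⟩ := hf.toDer.pi_type hΓ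
    have hv := skel_app (D := D) hP hΓ (c := c) (f := f) ⟨X, hx.toDer, hX⟩
    have hw := skel_app (D := D) hP hΔ (c := c) (f := f.sub σ) (x := x.sub σ) (s := s₁)
      ⟨_, (hx.subst hσ).toDer, hX.subst hσ.erase⟩
    by_cases hc : c ∈ D.C
    · simp [hv.1 hc, hw.1 hc, Sk.sub, ihf hΓ hΔ hσ hθ, ihx hΓ hΔ hσ hθ]
    · simp [hv.2 hc, hw.2 hc, Sk.sub, ihf hΓ hΔ hσ hθ, ihx hΓ hΔ hσ hθ]
  | mem _ _ ihp ihe =>
    intro Δ σ θ hΓ hΔ hσ hθ
    simp [skel, Sk.sub, ihp hΓ hΔ hσ hθ, ihe hΓ hΔ hσ hθ]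
  | conv _ _ _ ih => exact ih

/-- A convertible declaration does not change the skeleton. -/
theorem skel_convHead (hP : PairSpec P) {t : MTm S S} {T : Tm S}
    (h : MDer P id (A :: Γ) t T) (hΓ : Wf P Γ) (hA : Der P Γ A (.srt s))
    (hA' : Der P Γ A' (.srt s)) (hc : BConv A' A) :
    skel P D (A' :: Γ) t = skel P D (A :: Γ) t := by
  have e : (fun m => (MTm.var m : MTm S S).erase) = (Tm.var : ℕ → Tm S) := rfl
  have hσ : MSubs P id (MTm.var : ℕ → MTm S S) (A :: Γ) (A' :: Γ) := by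
    intro n B hB
    rw [e, Tm.sub_id]
    cases hB with
    | zero => exact .conv (.var .zero) (hA.weaken A') (hc.ren _)
    | succ h' => exact .var h'.succ
  have hθ : SkelSubs P D (MTm.var : ℕ → MTm S S) (fun fl n => Sk.var fl n)
      (A :: Γ) (A' :: Γ) := by
    intro n B a hl hB
    exact ⟨(skel_var hP (hΓ.cons hA') ⟨_, (hσ n B hl).toDer, hB.subst hσ.erase⟩).1,
      fun _ => ⟨n, rfl⟩⟩
  simpa using skel_sub hP h (hΓ.cons hA) (hΓ.cons hA') hσ hθ

/-! ### Steps -/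

theorem skel_ctr (hP : PairSpec P) {f x r : MTm S S} (hr : Ctr f x r) :
    ∀ {Γ : List (Tm S)} {A B : Tm S} {c s₁ : S}, Wf P Γ → MDer P id Γ f (.pi A B) →
      MDer P id Γ x A → Der P Γ A (.srt s₁) → Der P Γ (.pi A B) (.srt c) → c ∈ D.C →
      SkCtr (D.flag s₁) (skel P D Γ f) (skel P D Γ x) (skel P D Γ r) := by
  induction hr with
  | lam X y x =>
    intro Γ A B c s₁ hΓ hf hx hA hp hc
    obtain ⟨t₁, Z, t, hX, hy, _, hconv⟩ := hf.gen_lam
    obtain ⟨hXA, _⟩ := bconv_pi_inj hconv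
    obtain rfl : t₁ = s₁ := hP.sort_conv hΓ hX.toDer hA hXA
    have hx' : MDer P id Γ x X.erase := .conv hx hX.toDer hXA.symm
    have hdom : t₁ ∈ D.Dom P := by
      obtain ⟨u₁, u₂, u₃, hA', _, hrule, hu⟩ := hp.gen_pi
      obtain rfl := hP.sort_eq hA' hA
      obtain rfl := bconv_srt_inj hu
      obtain rfl := hP.rule_eq hrule
      exact ⟨u₃, hc, hrule⟩
    have hσ : MSubs P id (MTm.scons x MTm.var) (X.erase :: Γ) Γ :=
      (MSubs.id Γ).scons (by simpa [MTm.erase] using hx')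
    have hθ : SkelSubs P D (MTm.scons x MTm.var) (Sk.sub0 (skel P D Γ x))
        (X.erase :: Γ) Γ := by
      intro n B' a hl hB'
      cases n with
      | zero =>
        obtain rfl := hl.sort_zero hP hX.toDer hB'
        exact ⟨fun _ => rfl, fun ha => (ha hdom).elim⟩
      | succ n =>
        obtain ⟨B₀, hl₀, hB₀⟩ := hl.sort_succ hP hΓ hB'
        exact ⟨(skel_var hP hΓ ⟨B₀, .var hl₀, hB₀⟩).1, fun _ => ⟨n, rfl⟩⟩
    have hinst : skel P D Γ (y.inst x) = (skel P D (X.erase :: Γ) y).inst (skel P D Γ x) :=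
      skel_sub hP hy (hΓ.cons hX.toDer) hΓ hσ hθ
    rw [(skel_lam hP hΓ hX.toDer ⟨_, hf.toDer, hp⟩).1 hc]
    simp only [skel, hinst]
    refine .lam _ _ fun ho => ?_
    simpa using (skel_occ_zero hP hΓ hX.toDer hy ho).2
  | mem e _ ih =>
    intro Γ A B c s₁ hΓ hf hx hA hp hc
    simp only [skel]
    exact .mem _ (ih hΓ hf.gen_mem.1 hx hA hp hc)

theorem HData.binder_stepL {x x' : Sk} (h : SkStep x x') (y : Sk) :
    SkStep (D.binder P s x y) (D.binder P s x' y) := by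
  unfold HData.binder
  split
  · exact .bindL _ h
  · exact .nodeL _ h

theorem HData.binder_stepR {y y' : Sk} (x : Sk) (h : SkStep y y') :
    SkStep (D.binder P s x y) (D.binder P s x y') := by
  unfold HData.binder
  split
  · exact .bindR _ h
  · exact .nodeR _ (h.ren _)

/-- A step of the class is a step of the skeleton. -/
theorem skel_step (hP : PairSpec P) {t : MTm S S} {T : Tm S} (h : MDer P id Γ t T) :
    ∀ {u : MTm S S}, Wf P Γ → MStep D.C t u → SkStep (skel P D Γ t) (skel P D Γ u) := by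
  induction h with
  | axiom_ => intro u hΓ hs; cases hs
  | var => intro u hΓ hs; cases hs
  | @prod Γ X Y s₁ s₂ s₃ hX hY hr ihX ihY =>
    intro u hΓ hs
    cases hs with
    | piL _ hs =>
      have hX' := (hX.step hΓ hs).toDer
      rw [skel_pi hP hX.toDer, skel_pi hP hX',
        skel_convHead hP hY hΓ hX.toDer hX' hs.erase.bconv.symm]
      exact HData.binder_stepL (ihX hΓ hs) _
    | piR _ hs =>
      rw [skel_pi hP hX.toDer, skel_pi hP hX.toDer]
      exact HData.binder_stepR _ (ihY (hΓ.cons hX.toDer) hs)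
  | @abs Γ X y Z s₁ s hX hy hp ihX ihy =>
    intro u hΓ hs
    have hcol : HasCol P Γ (Tm.lam X.erase y.erase) s :=
      ⟨_, .abs hX.toDer hy.toDer hp, hp⟩
    cases hs with
    | @lamL _ X' _ hs =>
      have hX' := (hX.step hΓ hs).toDer
      have hcol' : HasCol P Γ (Tm.lam X'.erase y.erase) s :=
        hcol.red hΓ (Red.lam hs.erase .refl)
      have he := skel_convHead (D := D) hP hy hΓ hX.toDer hX' hs.erase.bconv.symm
      by_cases hc : s ∈ D.C
      · rw [(skel_lam hP hΓ hX.toDer hcol).1 hc, (skel_lam hP hΓ hX' hcol').1 hc, he]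
        exact .lamL _ (ihX hΓ hs)
      · rw [(skel_lam hP hΓ hX.toDer hcol).2 hc, (skel_lam hP hΓ hX' hcol').2 hc, he]
        exact HData.binder_stepL (ihX hΓ hs) _
    | @lamR _ _ y' hs =>
      have hcol' : HasCol P Γ (Tm.lam X.erase y'.erase) s :=
        hcol.red hΓ (Red.lam .refl hs.erase)
      by_cases hc : s ∈ D.C
      · rw [(skel_lam hP hΓ hX.toDer hcol).1 hc, (skel_lam hP hΓ hX.toDer hcol').1 hc]
        exact .lamR _ (ihy (hΓ.cons hX.toDer) hs)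
      · rw [(skel_lam hP hΓ hX.toDer hcol).2 hc, (skel_lam hP hΓ hX.toDer hcol').2 hc]
        exact HData.binder_stepR _ (ihy (hΓ.cons hX.toDer) hs)
  | @appl Γ f x X Z s c hf hx hp hcs ihf ihx =>
    intro u hΓ hs
    obtain ⟨s₁, _, _, hX, _, _, _⟩ := hf.toDer.pi_type hΓ
    have hcol : HasCol P Γ x.erase s₁ := ⟨X, hx.toDer, hX⟩
    cases hs with
    | beta hc hr =>
      rw [(skel_app hP hΓ hcol).1 hc]
      exact .beta (skel_ctr hP hr hΓ hf hx hX (hcs ▸ hp) hc)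
    | appL _ _ hs =>
      by_cases hc : c ∈ D.C
      · rw [(skel_app hP hΓ hcol).1 hc, (skel_app hP hΓ hcol).1 hc]
        exact .appL _ (ihf hΓ hs)
      · rw [(skel_app hP hΓ hcol).2 hc, (skel_app hP hΓ hcol).2 hc]
        exact .nodeL _ (ihf hΓ hs)
    | appR _ _ hs =>
      have hcol' := hcol.red hΓ hs.erase
      by_cases hc : c ∈ D.C
      · rw [(skel_app hP hΓ hcol).1 hc, (skel_app hP hΓ hcol').1 hc]
        exact .appR _ (ihx hΓ hs)
      · rw [(skel_app hP hΓ hcol).2 hc, (skel_app hP hΓ hcol').2 hc]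
        exact .nodeR _ (ihx hΓ hs)
  | mem _ _ ihp ihe =>
    intro u hΓ hs
    cases hs with
    | memL _ hs => simp only [skel]; exact .memL _ (ihp hΓ hs)
    | memR _ hs => simp only [skel]; exact .memR _ (ihe hΓ hs)
  | conv _ _ _ ih => exact ih

/-- An accessible skeleton bounds the steps of the class. -/
theorem msn_of_skel_acc (hP : PairSpec P) (hΓ : Wf P Γ) {t : MTm S S} {T : Tm S}
    (h : MDer P id Γ t T) (hacc : Acc (fun a b => SkStep b a) (skel P D Γ t)) :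
    MSN D.C t := by
  generalize hu : skel P D Γ t = u at hacc
  induction hacc generalizing t with
  | intro u _ ih =>
    refine Acc.intro _ fun t' ht' => ?_
    subst hu
    exact ih _ (skel_step hP h hΓ ht') (h.step hΓ ht') rfl

/-- A strongly normalising translation of the skeleton bounds the steps of the class. -/
theorem msn_of_rho (hP : PairSpec P) (hΓ : Wf P Γ) {t : MTm S S} {T : Tm S}
    (h : MDer P id Γ t T) {m : ℕ} {r : U} (hrho : Rho m (skel P D Γ t) r) (hr : r.SN) :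
    MSN D.C t :=
  msn_of_skel_acc hP hΓ h (sk_sn hr hrho)

end Vale.Agent.P340
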