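import Vale.Agent.P340.CpsGetter
import Vale.Agent.P340.CpsSkelStep

/-!
# Frames, real contexts and the supply of getters

A frame is the plain target context of a source context: a doubled pair for every binder that the
class can bind, a stub for every other one. A real context adds computational variables and
keepers. Every finite family of requests is supplied by finitely many free variables.
-/

namespace Vale.Agent.P340

variable {S : Type}

/-- The plain target of a source context. -/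
structure Fr (S : Type) where
  Φ : List (Tm S)
  G : ℕ → Cls
  e : HEnv S
  f : S → S → Tm S
  g : S → Tm S

/-- The constants of a frame. -/
def Fr.ops (F : Fr S) : Ops S := ⟨F.e.O, F.e.o, F.f, F.g⟩

/-- A doubled binder. -/
def Fr.pair (F : Fr S) (A₀ : Tm S) : Fr S where
  Φ := A₀.ren Nat.succ :: A₀ :: F.Φ
  G := Cls.cons .plain (Cls.cons .plain F.G)
  e := F.e.up
  f a b := (F.f a b).ren (· + 2)
  g s := (F.g s).ren (· + 2)

/-- A binder replaced by a stub. -/
def Fr.stub (F : Fr S) (v : Tm S) : Fr S where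
  Φ := F.Φ
  G := F.G
  e := F.e.cons fun _ => v
  f := F.f
  g := F.g

open Classical in
/-- The frame of one more source binder. -/
noncomputable def Fr.ext (P : Spec S) (D : HData S) (st : List (Tm S) → Fr S → Tm S → Tm S)
    (Γ : List (Tm S)) (F : Fr S) (A : Tm S) : Fr S :=
  if ∃ a ∈ D.Dom P, Der P Γ A (.srt a) then F.pair (homTy P D Γ F.e false A)
  else F.stub (st Γ F A)

/-- A frame is typed. -/
structure FrOK (P : Spec S) (D : HData S) (m : ℕ) (Γ : List (Tm S)) (F : Fr S) : Prop where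
  env : EnvOK P D Γ F.Φ F.e
  ops : OpsOK P D m F.Φ F.G F.ops

/-- Stubs for the binders that the class cannot bind, with an invariant of frames. -/
structure Stubber (P : Spec S) (D : HData S) (m : ℕ)
    (st : List (Tm S) → Fr S → Tm S → Tm S) (Inv : List (Tm S) → Fr S → Prop) : Prop where
  ext : ∀ {Γ F A s}, Wf P Γ → FrOK P D m Γ F → Inv Γ F → Der P Γ A (.srt s) →
    Inv (A :: Γ) (Fr.ext P D st Γ F A)
  typed : ∀ {Γ F A a}, Wf P Γ → FrOK P D m Γ F → Inv Γ F → Der P Γ A (.srt a) →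
    a ∉ D.Dom P → a ∉ D.K → Der P F.Φ (st Γ F A) (homTy P D Γ F.e false A)

/-- A real target context: the plain images, and the position of every hat. -/
structure Real (S : Type) where
  Δ : List (Tm S)
  G : ℕ → Cls
  ι : ℕ → ℕ
  η : ℕ → ℕ

/-- The constants in a real context. -/
def Real.ops (R : Real S) (F : Fr S) : Ops S := F.ops.ren R.ι

/-- Moving a real context along a renaming. -/
def Real.move (R : Real S) (Δ : List (Tm S)) (G : ℕ → Cls) (κ : ℕ → ℕ) : Real S :=
  ⟨Δ, G, κ ∘ R.ι, κ ∘ R.η⟩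

/-- One more variable. -/
def Real.push (R : Real S) (X : Tm S) (c : Cls) : Real S :=
  R.move (X :: R.Δ) (Cls.cons c R.G) Nat.succ

/-- A real context fits a frame. -/
structure RealOK (P : Spec S) (D : HData S) (m : ℕ) (Γ : List (Tm S)) (F : Fr S) (R : Real S) :
    Prop where
  wf : Wf P R.Δ
  rens : Rens R.ι F.Φ R.Δ
  cls : ∀ n, R.G (R.ι n) = F.G n
  hat : ∀ {n X a}, Lk Γ n X → Der P Γ X (.srt a) → a ∈ D.Dom P →
    R.G (R.η n) = Cls.comp (some (.neg (m + 1))) ∧
      (a ∈ D.C → Der P R.Δ (.var (R.η n))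
        ((negs F.e.O (D.walk a) (hom P D Γ F.e true X)).ren R.ι)) ∧
      (a ∉ D.C → ∃ q ∈ D.C, Der P R.Δ (.var (R.η n)) ((F.e.O q).ren R.ι))

variable {P : Spec S} {D : HData S} {m : ℕ} {st : List (Tm S) → Fr S → Tm S → Tm S}
  {Inv : List (Tm S) → Fr S → Prop} {Γ : List (Tm S)} {F : Fr S} {R : Real S} {A : Tm S}
  {a b c s : S}

theorem Fr.pair_ops (F : Fr S) (A₀ : Tm S) : (F.pair A₀).ops = F.ops.ren (· + 2) := rfl

theorem Fr.ext_pair (hP : PairSpec P) (hA : Der P Γ A (.srt a)) (h : a ∈ D.Dom P) :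
    Fr.ext P D st Γ F A = F.pair (homTy P D Γ F.e false A) := by
  rw [Fr.ext, if_pos ⟨a, h, hA⟩]

theorem Fr.ext_stub (hP : PairSpec P) (hA : Der P Γ A (.srt a)) (h : a ∉ D.Dom P) :
    Fr.ext P D st Γ F A = F.stub (st Γ F A) := by
  rw [Fr.ext, if_neg]
  rintro ⟨b, hb, h'⟩
  exact h (hP.sort_eq h' hA ▸ hb)

theorem Fr.ops_typed (hF : FrOK P D m Γ F) (hR : RealOK P D m Γ F R) :
    OpsOK P D m R.Δ R.G (R.ops F) :=
  hF.ops.ren hR.rens hR.cls

theorem homTy_false_typed (hP : PairSpec P) (hD : D.OK P) (hΓ : Wf P Γ) {Φ : List (Tm S)}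
    {e : HEnv S} (he : EnvOK P D Γ Φ e) (hA : Der P Γ A (.srt a)) :
    Der P Φ (homTy P D Γ e false A) (.srt a) := by
  by_cases ha : a ∈ D.K
  · rw [homTy, tySel_mem hP hA ha]; exact he.ans (.inr ha)
  · rw [homTy, tySel_not_mem hP hA ha]; exact hom_type hP hD hA hΓ he false

theorem FrOK.ext (hP : PairSpec P) (hD : D.OK P) (hS : Stubber P D m st Inv) (hΓ : Wf P Γ)
    (hF : FrOK P D m Γ F) (hI : Inv Γ F) (hA : Der P Γ A (.srt a)) :
    FrOK P D m (A :: Γ) (Fr.ext P D st Γ F A) := by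
  have hA0 := homTy_false_typed hP hD hΓ hF.env hA
  by_cases h : a ∈ D.Dom P
  · rw [Fr.ext_pair hP hA h]
    refine ⟨hF.env.up hP hΓ hA rfl hA0, ?_⟩
    rw [Fr.pair_ops]
    refine hF.ops.ren ?_ fun n => rfl
    intro n X hX
    have := (hX.succ (B := homTy P D Γ F.e false A)).succ
      (B := (homTy P D Γ F.e false A).ren Nat.succ)
    rwa [Tm.ren_ren] at this
  · rw [Fr.ext_stub hP hA h]
    refine ⟨⟨hF.env.wf, hF.env.ans, hF.env.pt, fun {n X} w hX => ?_⟩, hF.ops⟩
    have hy : ∀ {Y : Tm S} {s : S}, Der P Γ Y (.srt s) →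
        homTy P D (A :: Γ) (F.stub (st Γ F A)).e false (Y.ren Nat.succ) =
          homTy P D Γ F.e false Y := by
      intro Y s hY
      by_cases hs : s ∈ D.K
      · rw [homTy, homTy, tySel_mem hP (hY.weaken A) hs, tySel_mem hP hY hs]
        rfl
      · rw [homTy, homTy, tySel_not_mem hP (hY.weaken A) hs, tySel_not_mem hP hY hs,
          hom_ren hP hY hΓ (hΓ.cons hA) (Rens.succ _ _)]
        rfl
    cases hX with
    | zero =>
      rw [hy hA]
      have hc : HasCol P (A :: Γ) (.var 0) a := ⟨_, .var .zero, hA.weaken A⟩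
      by_cases ha : a ∈ D.K
      · rw [colSel_mem hP (hΓ.cons hA) hc ha, homTy, tySel_mem hP hA ha]
        exact hF.env.pt ha
      · rw [colSel_not_mem hP (hΓ.cons hA) hc ha]
        exact hS.typed hΓ hF hI hA h ha
    | @succ _ X' _ k hX' =>
      obtain ⟨s', hs'⟩ := hΓ.lookup hX'
      rw [hy hs']
      have h1 := colSel_ren (D := D) hP hΓ (hΓ.cons hA) ⟨_, .var hX', hs'⟩ (Rens.succ Γ A)
        F.e.o (F.e.v w k)
      exact (show colSel P D (A :: Γ) F.e.o (.var (k + 1)) (F.e.v w k) = _ from h1) ▸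
        hF.env.var w hX'

theorem RealOK.move (hR : RealOK P D m Γ F R) {Δ : List (Tm S)} {G : ℕ → Cls} {κ : ℕ → ℕ}
    (hΔ : Wf P Δ) (hκ : Rens κ R.Δ Δ) (hG : ∀ n, G (κ n) = R.G n) :
    RealOK P D m Γ F (R.move Δ G κ) := by
  refine ⟨hΔ, fun n X hX => ?_, fun n => (hG _).trans (hR.cls n), fun {n X a} hX ha hd => ?_⟩
  · have := hκ _ _ (hR.rens _ _ hX)
    rwa [Tm.ren_ren] at this
  · obtain ⟨h1, h2, h3⟩ := hR.hat hX ha hd
    refine ⟨(hG _).trans h1, fun hc => ?_, fun hc => ?_⟩
    · simpa [Real.move] using (h2 hc).rename hκ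
    · obtain ⟨q, hq, h⟩ := h3 hc
      exact ⟨q, hq, by simpa [Real.move] using h.rename hκ⟩

theorem RealOK.push (hR : RealOK P D m Γ F R) {X : Tm S} (hX : Der P R.Δ X (.srt s)) (c : Cls) :
    RealOK P D m Γ F (R.push X c) :=
  hR.move (hR.wf.cons hX) (Rens.succ _ _) fun _ => rfl

/-- The type of the hat of a doubled binder of codomain colour `c`, over the pair. -/
noncomputable def hatTy (P : Spec S) (D : HData S) (Γ : List (Tm S)) (F : Fr S) (A : Tm S)
    (c : S) : Tm S :=
  hatSel P D Γ F.e.up.O A ((hom P D Γ F.e true A).ren (· + 2)) c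

/-- The colour of a hat. -/
theorem hatTy_typed (hP : PairSpec P) (hD : D.OK P) (hΓ : Wf P Γ) {Φ : List (Tm S)}
    (hF : EnvOK P D Γ F.Φ F.e) (hA : Der P Γ A (.srt a)) (hc : c ∈ D.C)
    (hr : P.rule a c c) (hΦ : Φ = (F.pair (homTy P D Γ F.e false A)).Φ) :
    ∃ q, P.rule q c c ∧ Der P Φ (hatTy P D Γ F A c) (.srt q) := by
  subst hΦ
  have he := hF.up hP hΓ hA rfl (homTy_false_typed hP hD hΓ hF hA)
  by_cases ha : a ∈ D.C
  · refine ⟨a, hr, ?_⟩
    rw [hatTy, hatSel_mem hP hA ha]
    exact negs_typed (fun s hs => he.ans (.inl hs)) (hD.walk ha)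
      (hom_type hP hD hA hΓ hF true).weaken2
  · refine ⟨D.cp c, hD.cp_rule hc, ?_⟩
    rw [hatTy, hatSel_not_mem hP hA ha]
    exact he.ans (.inl (hD.cp_mem hc))

/-- Renaming of the plain images under a doubled binder with a hat. -/
def pairShift (ι : ℕ → ℕ) : ℕ → ℕ
  | 0 => 1
  | 1 => 2
  | n + 2 => ι n + 3

/-- Positions of hats under a doubled binder with a hat. -/
def hatShift (η : ℕ → ℕ) : ℕ → ℕ
  | 0 => 0
  | n + 1 => η n + 3

/-- The real context of a doubled binder. -/
noncomputable def Real.pair (P : Spec S) (D : HData S) (m : ℕ) (Γ : List (Tm S)) (F : Fr S)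
    (R : Real S) (A : Tm S) (c : S) : Real S where
  Δ := (hatTy P D Γ F A c).ren (upr (upr R.ι)) ::
    ((homTy P D Γ F.e false A).ren R.ι).ren Nat.succ :: (homTy P D Γ F.e false A).ren R.ι :: R.Δ
  G := Cls.cons (.comp (some (.neg (m + 1)))) (Cls.cons .plain (Cls.cons .plain R.G))
  ι := pairShift R.ι
  η := hatShift R.η

/-- The real context of a stub. -/
def Real.stub (R : Real S) : Real S := ⟨R.Δ, R.G, R.ι, fun n => R.η n.pred⟩

theorem Rens.pair {ι : ℕ → ℕ} {Φ Δ : List (Tm S)} (h : Rens ι Φ Δ) (A₀ : Tm S) :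
    Rens (upr (upr ι)) (A₀.ren Nat.succ :: A₀ :: Φ)
      ((A₀.ren ι).ren Nat.succ :: A₀.ren ι :: Δ) := by
  have := (h.up A₀).up (A₀.ren Nat.succ)
  simpa [Function.comp_def] using this

theorem RealOK.pair (hP : PairSpec P) (hD : D.OK P) (hΓ : Wf P Γ) (hF : FrOK P D m Γ F)
    (hR : RealOK P D m Γ F R) (hA : Der P Γ A (.srt a)) (hc : c ∈ D.C) (hr : P.rule a c c) :
    RealOK P D m (A :: Γ) (F.pair (homTy P D Γ F.e false A)) (Real.pair P D m Γ F R A c) := by
  have hA0 := homTy_false_typed hP hD hΓ hF.env hA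
  obtain ⟨q, -, hh⟩ := hatTy_typed (Φ := _) hP hD hΓ hF.env hA hc hr rfl
  have hr2 := hR.rens.pair (homTy P D Γ F.e false A)
  have hy : Der P R.Δ ((homTy P D Γ F.e false A).ren R.ι) (.srt a) := hA0.rename hR.rens
  have hw := (hR.wf.cons hy).cons (hy.weaken _)
  have hwf := hw.cons (hh.rename hr2)
  have hι : pairShift R.ι = Nat.succ ∘ upr (upr R.ι) := by
    funext n; rcases n with _ | _ | n <;> rfl
  refine ⟨hwf, fun n X hX => ?_, fun n => ?_, fun {n X s} hX hs hd => ?_⟩
  · have := (hr2 _ _ hX).succ (B := (hatTy P D Γ F A c).ren (upr (upr R.ι)))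
    rw [Tm.ren_ren] at this
    show Lk _ (pairShift R.ι n) (X.ren (pairShift R.ι))
    rw [hι]
    simpa [Real.pair, Function.comp_def] using this
  · rcases n with _ | _ | n
    · rfl
    · rfl
    · exact hR.cls n
  · cases hX with
    | zero =>
      obtain rfl := hP.sort_eq hs (hA.weaken A)
      refine ⟨rfl, fun ha => ?_, fun ha => ?_⟩
      · show Der P _ (.var 0) ((negs F.e.up.O (D.walk s)
          (hom P D (A :: Γ) F.e.up true (A.ren Nat.succ))).ren (pairShift R.ι))
        rw [hom_weaken hP hA hΓ hA, hι, ← Tm.ren_ren]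
        have := Der.var (P := P) (Lk.zero (Γ := (((homTy P D Γ F.e false A).ren R.ι).ren Nat.succ ::
          (homTy P D Γ F.e false A).ren R.ι :: R.Δ))
          (A := (hatTy P D Γ F A c).ren (upr (upr R.ι))))
        rw [hatTy, hatSel_mem hP hA ha] at this
        simpa [Real.pair, hatTy, hatSel_mem hP hA ha] using this
      · refine ⟨D.cp c, hD.cp_mem hc, ?_⟩
        show Der P _ (.var 0) ((F.e.up.O (D.cp c)).ren (pairShift R.ι))
        rw [hι, ← Tm.ren_ren]
        have := Der.var (P := P) (Lk.zero (Γ := (((homTy P D Γ F.e false A).ren R.ι).ren Nat.succ ::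
          (homTy P D Γ F.e false A).ren R.ι :: R.Δ))
          (A := (hatTy P D Γ F A c).ren (upr (upr R.ι))))
        rw [hatTy, hatSel_not_mem hP hA ha] at this
        simpa [Real.pair, hatTy, hatSel_not_mem hP hA ha] using this
    | @succ _ X' _ k hX' =>
      obtain ⟨s', hs'⟩ := hΓ.lookup hX'
      obtain rfl := hP.sort_eq hs (hs'.weaken A)
      obtain ⟨h1, h2, h3⟩ := hR.hat hX' hs' hd
      refine ⟨h1, fun ha => ?_, fun ha => ?_⟩
      · have := (((h2 ha).weaken ((homTy P D Γ F.e false A).ren R.ι)).weaken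
          (((homTy P D Γ F.e false A).ren R.ι).ren Nat.succ)).weaken
          ((hatTy P D Γ F A c).ren (upr (upr R.ι)))
        show Der P _ (.var (R.η k + 3)) ((negs F.e.up.O (D.walk s)
          (hom P D (A :: Γ) F.e.up true (X'.ren Nat.succ))).ren (pairShift R.ι))
        rw [hom_weaken hP hs' hΓ hA]
        simpa [Real.pair, negs_ren, HEnv.up, Function.comp_def, pairShift] using this
      · obtain ⟨q', hq', h⟩ := h3 ha
        refine ⟨q', hq', ?_⟩
        have := ((h.weaken ((homTy P D Γ F.e false A).ren R.ι)).weaken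
          (((homTy P D Γ F.e false A).ren R.ι).ren Nat.succ)).weaken
          ((hatTy P D Γ F A c).ren (upr (upr R.ι)))
        show Der P _ (.var (R.η k + 3)) ((F.e.up.O q').ren (pairShift R.ι))
        simpa [Real.pair, HEnv.up, Function.comp_def, pairShift] using this

theorem RealOK.stub (hP : PairSpec P) (hΓ : Wf P Γ) (hR : RealOK P D m Γ F R)
    (hA : Der P Γ A (.srt a)) (hd : a ∉ D.Dom P) (v : Tm S) :
    RealOK P D m (A :: Γ) (F.stub v) R.stub := by
  refine ⟨hR.wf, hR.rens, hR.cls, fun {n X s} hX hs hs' => ?_⟩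
  cases hX with
  | zero => exact absurd (hP.sort_eq hs (hA.weaken A) ▸ hs') hd
  | @succ _ X' _ k hX' =>
    obtain ⟨t, ht⟩ := hΓ.lookup hX'
    obtain rfl := hP.sort_eq hs (ht.weaken A)
    obtain ⟨h1, h2, h3⟩ := hR.hat hX' ht hs'
    refine ⟨h1, fun ha => ?_, h3⟩
    show Der P _ (.var (R.η k)) ((negs F.e.O (D.walk s)
      (hom P D (A :: Γ) (F.e.cons fun _ => v) true (X'.ren Nat.succ))).ren R.ι)
    rw [hom_ren hP ht hΓ (hΓ.cons hA) (Rens.succ _ _)]
    exact h2 ha

/-- How a real context may extend another one by a source binder. -/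
inductive RExt (P : Spec S) (D : HData S) (Γ : List (Tm S)) (F : Fr S) (R : Real S) (A : Tm S)
    (R' : Real S) : Prop
  | pair (κ : ℕ → ℕ) : (∃ a ∈ D.Dom P, Der P Γ A (.srt a)) →
      Rens κ (((homTy P D Γ F.e false A).ren R.ι).ren Nat.succ ::
        (homTy P D Γ F.e false A).ren R.ι :: R.Δ) R'.Δ →
      (∀ n, R'.G (κ n) = Cls.cons .plain (Cls.cons .plain R.G) n) →
      R'.ι = κ ∘ upr (upr R.ι) → RExt P D Γ F R A R'
  | stub (κ : ℕ → ℕ) : (¬ ∃ a ∈ D.Dom P, Der P Γ A (.srt a)) →
      Rens κ R.Δ R'.Δ → (∀ n, R'.G (κ n) = R.G n) → R'.ι = κ ∘ R.ι → RExt P D Γ F R A R'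

/-- The getters requested below the binders of a list, outermost first. -/
def Provides (P : Spec S) (D : HData S) (m : ℕ) (st : List (Tm S) → Fr S → Tm S → Tm S) :
    List (Tm S) → Fr S → Real S → List (Tm S) → Tm S → Prop
  | _, F, R, [], W => Getter P D m R.Δ R.G (R.ops F) (W.ren R.ι)
  | Γ, F, R, A :: l, W =>
    ∀ R', RExt P D Γ F R A R' → Provides P D m st (A :: Γ) (Fr.ext P D st Γ F A) R' l W

/-- A request is typed at its frame. -/
def ReqOK (P : Spec S) (D : HData S) (st : List (Tm S) → Fr S → Tm S → Tm S) :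
    List (Tm S) → Fr S → List (Tm S) → Tm S → Prop
  | _, F, [], W => ∃ d ∈ D.C, Der P F.Φ W (.srt d)
  | Γ, F, A :: l, W =>
    (∃ s, Der P Γ A (.srt s)) ∧ ReqOK P D st (A :: Γ) (Fr.ext P D st Γ F A) l W

theorem Provides.move : ∀ {l : List (Tm S)} {Γ : List (Tm S)} {F : Fr S} {R : Real S} {W : Tm S},
    Provides P D m st Γ F R l W → ∀ {Δ : List (Tm S)} {G : ℕ → Cls} {κ : ℕ → ℕ},
      Rens κ R.Δ Δ → (∀ n, G (κ n) = R.G n) → Provides P D m st Γ F (R.move Δ G κ) l W := by
  intro l
  induction l with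
  | nil =>
    intro Γ F R W h Δ G κ hκ hG
    have := Getter.mono h hκ hG
    simpa [Provides, Real.move, Real.ops, Ops.ren_ren] using this
  | cons A l _ =>
    intro Γ F R W h Δ G κ hκ hG R' hR'
    refine h R' ?_
    cases hR' with
    | pair μ hd hμ hμG hι =>
      refine .pair (μ ∘ upr (upr κ)) hd ?_ (fun n => (hμG _).trans ?_) ?_
      · intro n X hX
        have h1 := hκ.pair ((homTy P D Γ F.e false A).ren R.ι) _ _ hX
        rw [Tm.ren_ren _ R.ι] at h1
        have := hμ _ _ h1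
        rwa [Tm.ren_ren] at this
      · rcases n with _ | _ | n
        · rfl
        · rfl
        · exact hG n
      · rw [hι]
        funext n
        rcases n with _ | _ | n <;> rfl
    | stub μ hd hμ hμG hι =>
      refine .stub (μ ∘ κ) hd (fun n X hX => ?_) (fun n => (hμG _).trans (hG n)) hι
      have := hμ _ _ (hκ _ _ hX)
      rwa [Tm.ren_ren] at this

/-- Each request reduces to one getter at the frame itself. -/
theorem provides_of_getter (hP : PairSpec P) (hD : ClassOK P D m) (hS : Stubber P D m st Inv) :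
    ∀ (l : List (Tm S)) {Γ : List (Tm S)} {F : Fr S} {W : Tm S}, Wf P Γ → FrOK P D m Γ F →
      Inv Γ F → ReqOK P D st Γ F l W →
      ∃ Wc, (∃ d ∈ D.C, Der P F.Φ Wc (.srt d)) ∧ ∀ R : Real S, Rens R.ι F.Φ R.Δ →
        (∀ n, R.G (R.ι n) = F.G n) → Getter P D m R.Δ R.G (R.ops F) (Wc.ren R.ι) →
        Provides P D m st Γ F R l W := by
  intro l
  induction l with
  | nil => intro Γ F W _ _ _ h; exact ⟨W, h, fun R _ _ hg => hg⟩
  | cons A l ih =>
    rintro Γ F W hΓ hF hI ⟨⟨a, hA⟩, hl⟩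
    obtain ⟨Wc, ⟨d, hd, hWc⟩, hget⟩ := ih (hΓ.cons hA)
      (hF.ext hP hD.toOK hS hΓ hI hA) (hS.ext hΓ hF hI hA) hl
    by_cases h : a ∈ D.Dom P
    · have hex := Fr.ext_pair (st := st) (F := F) hP hA h
      rw [hex] at hWc
      obtain ⟨b, hb, hab⟩ := h
      obtain ⟨w, hw⟩ := hD.conn hd hb
      have hA0 := homTy_false_typed hP hD.toOK hΓ hF.env hA
      have he := hF.env.up hP hΓ hA rfl hA0
      refine ⟨.pi (homTy P D Γ F.e false A) (.pi ((homTy P D Γ F.e false A).ren Nat.succ)
          (negs F.e.up.O w Wc)),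
        ⟨b, hb, .prod hA0 (.prod (hA0.weaken _)
          (negs_typed (fun s hs => he.ans (.inl hs)) hw hWc) hab) hab⟩,
        fun R hR hG hg R' hR' => ?_⟩
      cases hR' with
      | stub _ hn => exact absurd ⟨a, ⟨b, hb, hab⟩, hA⟩ hn
      | pair κ _ hκ hκG hι =>
        refine hget R' ?_ ?_ ?_
        · rw [hι, hex]
          intro n X hX
          have := hκ _ _ (hR.pair _ _ _ hX)
          rwa [Tm.ren_ren] at this
        · rw [hι, hex]
          intro n
          rcases n with _ | _ | n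
          · exact hκG 0
          · exact hκG 1
          · exact (hκG _).trans (hG n)
        · have hr2 := hR.pair (homTy P D Γ F.e false A)
          have e1 : ((Tm.pi (homTy P D Γ F.e false A)
              (.pi ((homTy P D Γ F.e false A).ren Nat.succ) (negs F.e.up.O w Wc))).ren R.ι) =
              .pi ((homTy P D Γ F.e false A).ren R.ι)
                (.pi (((homTy P D Γ F.e false A).ren R.ι).ren Nat.succ)
                  (negs (fun s => ((R.ops F).O s).ren (· + 2)) w (Wc.ren (upr (upr R.ι))))) := by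
            simp [negs_ren, Real.ops, Ops.ren, Fr.ops, HEnv.up, Function.comp_def]
          rw [e1] at hg
          have := Getter.under hD (hF.ops.ren hR hG) hw (hWc.rename hr2) hg hκ fun n => hκG (n + 2)
          rw [Tm.ren_ren, ← hι] at this
          rw [hex]
          simpa [Real.ops, Fr.pair_ops, Ops.ren_ren, hι, Function.comp_def] using this
    · have hex := Fr.ext_stub (st := st) (F := F) hP hA h
      rw [hex] at hWc
      refine ⟨Wc, ⟨d, hd, hWc⟩, fun R hR hG hg R' hR' => ?_⟩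
      cases hR' with
      | pair _ hn =>
        obtain ⟨a', ha', h'⟩ := hn
        exact absurd (hP.sort_eq h' hA ▸ ha') h
      | stub κ _ hκ hκG hι =>
        refine hget R' ?_ ?_ ?_
        · rw [hι, hex]
          intro n X hX
          have := hκ _ _ (hR _ _ hX)
          rwa [Tm.ren_ren] at this
        · rw [hι, hex]
          exact fun n => (hκG _).trans (hG n)
        · have := Getter.mono hg hκ hκG
          rw [Tm.ren_ren, ← hι] at this
          rw [hex]
          simpa [Real.ops, Ops.ren_ren, hι, Fr.stub, Fr.ops, HEnv.cons] using this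

end Vale.Agent.P340
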