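import Vale.Agent.P340.CpsTgt

/-!
# Getters and keepers

A getter for `W` turns every consumer of `W` into an answer with the same computational
variables. It comes from a free variable, and passes under a doubled binder by one more round of
negations; it gives closed keeper continuations.
-/

namespace Vale.Agent.P340

variable {S : Type} {P : Spec S} {D : HData S} {m : ℕ} {Δ Δ' : List (Tm S)} {G G' : ℕ → Cls}
  {Θ : Ops S}

/-- Every consumer of `W` can be turned into an answer with the same variables. -/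
def Getter (P : Spec S) (D : HData S) (m : ℕ) (Δ : List (Tm S)) (G : ℕ → Cls) (Θ : Ops S)
    (W : Tm S) : Prop :=
  ∀ (Δ' : List (Tm S)) (κ : ℕ → ℕ) (G' : ℕ → Cls), Rens κ Δ Δ' → (∀ n, G' (κ n) = G n) →
    ∀ z body ub, z ∈ D.C →
      Ans P m (W.ren κ :: Δ') (Cls.cons (.comp none) G') ((Θ.ren κ).ren Nat.succ) z body ub →
      U.Occ 0 ub →
      ∃ z' R uR, z' ∈ D.C ∧ Ans P m Δ' G' (Θ.ren κ) z' R uR ∧
        ∀ n, U.Occ n uR ↔ U.Occ (n + 1) ub

theorem Ops.ren_ren (Θ : Ops S) (ξ ζ : ℕ → ℕ) : (Θ.ren ξ).ren ζ = Θ.ren (ζ ∘ ξ) := by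
  simp [Ops.ren]

theorem Ans.ren {z : S} {r : Tm S} {R : U} (h : Ans P m Δ G Θ z r R) {κ : ℕ → ℕ}
    (hκ : Rens κ Δ Δ') (hG : ∀ n, G' (κ n) = G n) :
    Ans P m Δ' G' (Θ.ren κ) z (r.ren κ) (R.ren κ) :=
  ⟨h.typed.rename hκ, h.sh.ren hG, U.keeping_ren h.keeping κ⟩

theorem Ops.ren_succ_upr (Θ : Ops S) :
    (Θ.ren Nat.succ).ren (upr Nat.succ) = (Θ.ren Nat.succ).ren Nat.succ := by
  rw [Ops.ren_ren, Ops.ren_ren]
  rfl

theorem Getter.mono {W : Tm S} (h : Getter P D m Δ G Θ W) {κ : ℕ → ℕ} (hκ : Rens κ Δ Δ')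
    (hG : ∀ n, G' (κ n) = G n) : Getter P D m Δ' G' (Θ.ren κ) (W.ren κ) := by
  intro Δ'' κ' G'' hκ' hG' z body ub hz hb h0
  rw [Ops.ren_ren Θ κ κ', Tm.ren_ren] at hb
  rw [Ops.ren_ren Θ κ κ']
  refine h Δ'' (κ' ∘ κ) G'' ?_ (fun n => (hG' _).trans (hG n)) z body ub hz hb h0
  intro n A hA
  have := hκ' _ _ (hκ _ _ hA)
  rwa [Tm.ren_ren] at this

/-- A free variable gets its type. -/
theorem Getter.of_var {W : Tm S} {n : ℕ} (hn : Lk Δ n W) (hf : G n = Cls.free) :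
    Getter P D m Δ G Θ W := by
  intro Δ' κ G' hκ hG z body ub hz hb h0
  have hv : Der P Δ' (.var (κ n)) (W.ren κ) := .var (hκ _ _ hn)
  refine ⟨z, body.inst (.var (κ n)), ub.inst .cst, hz, ⟨?_, hb.sh.inst (by simp) ?_, ?_⟩, ?_⟩
  · have := hb.typed.inst hv
    rwa [show ((Θ.ren κ).ren Nat.succ).O z = ((Θ.ren κ).O z).ren Nat.succ from rfl,
      Tm.inst_ren_succ] at this
  · rintro o ⟨⟩
    exact .free ((hG n).trans hf)
  · refine U.keeping_sub hb.keeping fun k => ?_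
    cases k <;> trivial
  · intro k
    rw [U.occ_inst]
    exact ⟨fun h => h.elim (fun h => h.2.elim) id, .inr⟩

/-- Elimination of negations along a walk. -/
theorem run_negs (hD : ClassOK P D m) {a b : S} {l : List (S × S)} (hl : Walk P D a l b) :
    ∀ {Δ : List (Tm S)} {G : ℕ → Cls} {Θ : Ops S} {W M : Tm S} {uM : U} {z : S} {body : Tm S}
      {ub : U}, OpsOK P D m Δ G Θ → Der P Δ W (.srt a) → Der P Δ M (negs Θ.O l W) →
      Sh m G M none uM → uM.Keeping → z ∈ D.C →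
      Ans P m (W :: Δ) (Cls.cons (.comp none) G) (Θ.ren Nat.succ) z body ub → U.Occ 0 ub →
      ∃ z' R uR, z' ∈ D.C ∧ Ans P m Δ G Θ z' R uR ∧
        ∀ n, U.Occ n uR ↔ U.Occ (n + 1) ub ∨ U.Occ n uM := by
  induction hl with
  | nil a =>
    intro Δ G Θ W M uM z body ub _ _ hM hMs hMk hz hb h0
    refine ⟨z, body.inst M, ub.inst uM, hz, ⟨?_, hb.sh.inst (by simp) ?_, ?_⟩, ?_⟩
    · simpa [Ops.ren] using hb.typed.inst hM
    · rintro o ⟨⟩
      exact hMs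
    · refine U.keeping_sub hb.keeping fun k => ?_
      cases k with
      | zero => exact hMk
      | succ k => trivial
    · intro k
      rw [U.occ_inst]
      simp [h0, or_comm]
  | @cons a d d' y l hd hd' hr hr' _ ih =>
    intro Δ G Θ W M uM z body ub hΘ hW hM hMs hMk hz hb h0
    have hW2 := (hW.arr (hΘ.ans hd) hr).arr (hΘ.ans hd') hr'
    let W2 := Tm.arr (Tm.arr W (Θ.O d)) (Θ.O d')
    let G1 := Cls.cons (.comp none) G
    let G2 := Cls.cons (.comp none) G1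
    have hΘ1 := hΘ.ren (G' := G1) (Rens.succ Δ W2) fun _ => rfl
    have hΘ2 := hΘ1.ren (G' := G2) (Rens.succ _ (W.ren Nat.succ)) fun _ => rfl
    have hb' := hb.ren (G' := G2) ((Rens.succ Δ W2).up W) fun n => by cases n <;> rfl
    have e : (Θ.ren Nat.succ).ren (upr Nat.succ) = (Θ.ren Nat.succ).ren Nat.succ := by
      rw [Ops.ren_ren, Ops.ren_ren]; rfl
    rw [e] at hb'
    obtain ⟨b₁, u₁, hw₁, hb₁⟩ := hD.move hΘ2 hz hd hb'
    have h01 : U.Occ 0 u₁ := (hw₁.occ 0).2 ((U.occ_ren _ _ _).2 ⟨0, h0, rfl⟩)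
    have hlam : Der P (W2 :: Δ) (.lam (W.ren Nat.succ) b₁)
        (Tm.arr (W.ren Nat.succ) ((Θ.O d).ren Nat.succ)) :=
      Der.lam_arr (hW.weaken W2) ((hΘ.ans hd).weaken W2) hr hb₁.typed
    have hy : Der P (W2 :: Δ) (.var 0)
        (Tm.arr ((Tm.arr W (Θ.O d)).ren Nat.succ) ((Θ.O d').ren Nat.succ)) := by
      rw [← Tm.arr_ren]; exact .var .zero
    rw [Tm.arr_ren] at hy
    have hb2 : Ans P m (W2 :: Δ) G1 (Θ.ren Nat.succ) d'
        (.app (.var 0) (.lam (W.ren Nat.succ) b₁)) (.app (.var 0) (.lam u₁)) :=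
      ⟨hy.app_arr hlam, .coe _ (.appFree (.var rfl) (.lamIdle hb₁.sh)),
        trivial, h01, hb₁.keeping⟩
    obtain ⟨z', R, uR, hz', hR, hocc⟩ := ih hΘ hW2 hM hMs hMk hd' hb2 (.inl rfl)
    refine ⟨z', R, uR, hz', hR, fun n => (hocc n).trans ?_⟩
    have hu : U.Occ (n + 2) u₁ ↔ U.Occ (n + 1) ub := by
      rw [hw₁.occ, U.occ_ren]
      constructor
      · rintro ⟨_ | k, hk, e⟩
        · simp [upr] at e
        · simp only [upr, Nat.succ_eq_add_one, Nat.add_right_cancel_iff] at e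
          exact e ▸ hk
      · intro h; exact ⟨n + 1, h, rfl⟩
    show (n + 1 = 0 ∨ U.Occ (n + 2) u₁) ∨ _ ↔ _
    simp [hu]

/-- The renaming of a doubled binder: the images of the pair are chosen. -/
def pairRen (i j : ℕ) (θ : ℕ → ℕ) : ℕ → ℕ
  | 0 => j
  | 1 => i
  | n + 2 => θ n

theorem Der.app2 {f A X : Tm S} {θ : ℕ → ℕ} {i j : ℕ}
    (hf : Der P Δ f ((Tm.pi A (.pi (A.ren Nat.succ) X)).ren θ))
    (hi : Der P Δ (.var i) (A.ren θ)) (hj : Der P Δ (.var j) (A.ren θ)) :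
    Der P Δ (.app (.app f (.var i)) (.var j)) (X.ren (pairRen i j θ)) := by
  have h1 := hf.appl hi
  simp only [Tm.ren_pi, Tm.inst, Tm.sub_pi] at h1
  have e1 : ((A.ren Nat.succ).ren (upr θ)).sub (sub0 (.var i)) = A.ren θ := by
    simp [Function.comp_def, Tm.ren_eq_sub, Tm.sub_sub]
  rw [e1] at h1
  have h2 := h1.appl hj
  have e2 : ((X.ren (upr (upr θ))).sub (ups (sub0 (.var i)))).inst (.var j) =
      X.ren (pairRen i j θ) := by
    rw [Tm.inst, Tm.sub_sub, Tm.sub_ren, Tm.ren_eq_sub X (pairRen i j θ)]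
    refine Tm.sub_congr _ fun n => ?_
    rcases n with _ | _ | n <;> simp [pairRen, Function.comp_def]
  rwa [e2] at h2

/-- A getter passes under a doubled binder. -/
theorem Getter.under (hD : ClassOK P D m) (hΘ : OpsOK P D m Δ G Θ) {A W : Tm S} {d b : S}
    {l : List (S × S)} (hl : Walk P D d l b)
    (hW : Der P (A.ren Nat.succ :: A :: Δ) W (.srt d))
    (h : Getter P D m Δ G Θ
      (.pi A (.pi (A.ren Nat.succ) (negs (fun s => (Θ.O s).ren (· + 2)) l W))))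
    {Δ₂ : List (Tm S)} {G₂ : ℕ → Cls} {κ : ℕ → ℕ}
    (hκ : Rens κ (A.ren Nat.succ :: A :: Δ) Δ₂) (hG : ∀ n, G₂ (κ (n + 2)) = G n) :
    Getter P D m Δ₂ G₂ (Θ.ren fun n => κ (n + 2)) (W.ren κ) := by
  intro Δ' κ' G' hκ' hG' z body ub hz hb h0
  let τ := κ' ∘ κ
  let θ : ℕ → ℕ := fun n => τ (n + 2)
  have hτ : Rens τ (A.ren Nat.succ :: A :: Δ) Δ' := fun n B hB => by
    have := hκ' _ _ (hκ _ _ hB)
    rwa [Tm.ren_ren] at this
  have hθ : Rens θ Δ Δ' := fun n B hB => by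
    have := hτ _ _ ((hB.succ (B := A)).succ (B := A.ren Nat.succ))
    simpa [θ, Function.comp_def] using this
  have hθG : ∀ n, G' (θ n) = G n := fun n => (hG' _).trans (hG n)
  rw [Ops.ren_ren Θ _ κ', Tm.ren_ren] at hb
  rw [Ops.ren_ren Θ _ κ']
  let X := negs (fun s => (Θ.O s).ren (· + 2)) l W
  let W' := (Tm.pi A (.pi (A.ren Nat.succ) X)).ren θ
  let G1 := Cls.cons (.comp none) G'
  have hΘ' := hΘ.ren hθ hθG
  have hΘ1 := hΘ'.ren (G' := G1) (Rens.succ Δ' W') fun _ => rfl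
  have hs : Rens (Nat.succ ∘ τ) (A.ren Nat.succ :: A :: Δ) (W' :: Δ') := fun n B hB => by
    have := (hτ _ _ hB).succ (B := W')
    rwa [Tm.ren_ren] at this
  have hv0 : Der P (W' :: Δ') (.var 0) ((Tm.pi A (.pi (A.ren Nat.succ) X)).ren (Nat.succ ∘ θ)) := by
    rw [← Tm.ren_ren]; exact .var .zero
  have hy : Der P (W' :: Δ') (.var (τ 1 + 1)) (A.ren (Nat.succ ∘ θ)) := by
    have := Der.var (P := P) (hs _ _ ((Lk.zero (Γ := Δ) (A := A)).succ))
    simpa [θ, Function.comp_def] using this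
  have hy' : Der P (W' :: Δ') (.var (τ 0 + 1)) (A.ren (Nat.succ ∘ θ)) := by
    have := Der.var (P := P) (hs _ _ (Lk.zero (Γ := A :: Δ) (A := A.ren Nat.succ)))
    simpa [θ, Function.comp_def] using this
  have hM := hv0.app2 hy hy'
  have eren : pairRen (τ 1 + 1) (τ 0 + 1) (Nat.succ ∘ θ) = Nat.succ ∘ τ := by
    funext n; rcases n with _ | _ | n <;> rfl
  rw [eren, negs_ren] at hM
  have eO : (fun s => ((Θ.O s).ren (· + 2)).ren (Nat.succ ∘ τ)) =
      ((Θ.ren θ).ren Nat.succ).O := by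
    funext s; simp [Ops.ren, θ, Function.comp_def]
  rw [eO] at hM
  have hMs : Sh m G1 (Tm.app (.app (.var 0) (.var (τ 1 + 1))) (.var (τ 0 + 1)) : Tm S) none
      (.tapp (.tapp (.var 0))) :=
    .tappFree (.tappFree (.var rfl))
  have hb' := hb.ren (G' := Cls.cons (.comp none) G1) ((Rens.succ Δ' W').up (W.ren τ))
    fun n => by cases n <;> rfl
  have eW : (W.ren τ).ren Nat.succ = W.ren (Nat.succ ∘ τ) := Tm.ren_ren _ _ _
  rw [Ops.ren_succ_upr, eW] at hb'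
  obtain ⟨z₁, R₁, u₁, hz₁, hR₁, hocc₁⟩ := run_negs hD hl hΘ1 (hW.rename hs) hM hMs trivial hz hb'
    ((U.occ_ren _ _ _).2 ⟨0, h0, rfl⟩)
  have h01 : U.Occ 0 u₁ := (hocc₁ 0).2 (.inr rfl)
  obtain ⟨z', R, uR, hz', hR, hocc⟩ := h Δ' θ G' hθ hθG z₁ R₁ u₁ hz₁ hR₁ h01
  refine ⟨z', R, uR, hz', hR, fun n => ((hocc n).trans (hocc₁ _)).trans ?_⟩
  have hu : U.Occ (n + 2) (ub.ren (upr Nat.succ)) ↔ U.Occ (n + 1) ub := by
    rw [U.occ_ren]
    constructor
    · rintro ⟨_ | k, hk, e⟩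
      · simp [upr] at e
      · simp only [upr, Nat.succ_eq_add_one, Nat.add_right_cancel_iff] at e
        exact e ▸ hk
    · intro h; exact ⟨n + 1, h, rfl⟩
  simp [hu, U.Occ]

/-- A closed keeper continuation for values of type `V`. -/
theorem Getter.keeper (hD : ClassOK P D m) (hΘ : OpsOK P D m Δ G Θ) {V : Tm S} {c d d₀ : S}
    (hV : Der P Δ V (.srt c)) (hd : d ∈ D.C) (hd₀ : d₀ ∈ D.C) (hr₀ : P.rule c d₀ d₀)
    (h : Getter P D m Δ G Θ (Tm.arr V (Θ.O d))) {σ α : Shp} (hσ : Shp.Arr m σ α .ans) :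
    ∃ K uK, Der P Δ K (Tm.arr V (Θ.O d₀)) ∧ Sh m G K (some σ) uK ∧ uK.Keeping ∧ uK.Closed := by
  let G1 := Cls.cons (.comp (some α)) G
  let G2 := Cls.cons (.comp none) G1
  let W1 := (Tm.arr V (Θ.O d)).ren Nat.succ
  have hv : Der P (W1 :: V :: Δ) (.var 0)
      (Tm.arr ((V.ren Nat.succ).ren Nat.succ) (((Θ.O d).ren Nat.succ).ren Nat.succ)) := by
    rw [← Tm.arr_ren, ← Tm.arr_ren]; exact .var .zero
  have hb : Ans P m (W1 :: V :: Δ) G2 ((Θ.ren Nat.succ).ren Nat.succ) d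
      (.app (.var 0) (.var 1)) (.app (.var 0) (.var 1)) :=
    ⟨hv.app_arr (.var (Lk.zero.succ)),
      .coe _ (.appFree (.var rfl) (.var (o := some α) rfl)), trivial, trivial⟩
  obtain ⟨z, R, uR, hz, hR, hocc⟩ :=
    h (V :: Δ) Nat.succ G1 (Rens.succ Δ V) (fun _ => rfl) d _ _ hd hb (.inl rfl)
  obtain ⟨R', uR', hw, hR'⟩ :=
    hD.move (hΘ.ren (G' := G1) (Rens.succ Δ V) fun _ => rfl) hz hd₀ hR
  refine ⟨.lam V R', .lam uR', Der.lam_arr hV (hΘ.ans hd₀) hr₀ hR'.typed, .lam hσ hR'.sh,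
    ⟨(hw.occ 0).2 ((hocc 0).2 (.inr rfl)), hR'.keeping⟩, fun n hn => ?_⟩
  have := (hocc _).1 ((hw.occ _).1 hn)
  simp [U.Occ] at this

end Vale.Agent.P340
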