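import Vale.Agent.P340.CpsParts

/-!
# The typed translation of memory terms at one class

For every typed term there are finitely many requests such that, in every real context supplying
them, the skeleton of the term has a typed translation.
-/

namespace Vale.Agent.P340

variable {S : Type}

/-- The requests of a list are supplied. -/
def Supplies (P : Spec S) (D : HData S) (m : ℕ) (st : List (Tm S) → Fr S → Tm S → Tm S)
    (Γ : List (Tm S)) (F : Fr S) (R : Real S) (reqs : List (List (Tm S) × Tm S)) : Prop :=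
  ∀ q ∈ reqs, Provides P D m st Γ F R q.1 q.2

/-- The requests of a list are typed. -/
def ReqsOK (P : Spec S) (D : HData S) (st : List (Tm S) → Fr S → Tm S → Tm S)
    (Γ : List (Tm S)) (F : Fr S) (reqs : List (List (Tm S) × Tm S)) : Prop :=
  ∀ q ∈ reqs, ReqOK P D st Γ F q.1 q.2

/-- A skeleton has a typed translation in every supplying context. -/
def Transl (P : Spec S) (D : HData S) (m : ℕ) (st : List (Tm S) → Fr S → Tm S → Tm S)
    (Inv : List (Tm S) → Fr S → Prop) (Γ : List (Tm S)) (sk : Sk) (T : Tm S) : Prop :=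
  ∀ F, FrOK P D m Γ F → Inv Γ F → ∃ reqs, ReqsOK P D st Γ F reqs ∧
    ∀ R, RealOK P D m Γ F R → Supplies P D m st Γ F R reqs →
      EvPart P D m Γ F R sk T ∧ RhoPart P D m F R sk

/-- Requests below one more binder. -/
def preReqs (A : Tm S) (reqs : List (List (Tm S) × Tm S)) : List (List (Tm S) × Tm S) :=
  reqs.map fun q => (A :: q.1, q.2)

variable {P : Spec S} {D : HData S} {m : ℕ} {st : List (Tm S) → Fr S → Tm S → Tm S}
  {Inv : List (Tm S) → Fr S → Prop} {Γ : List (Tm S)} {F : Fr S} {R R' : Real S}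
  {A B T : Tm S} {a c s : S} {sk skA skb : Sk}
  {r₁ r₂ : List (List (Tm S) × Tm S)}

theorem ReqsOK.append (h₁ : ReqsOK P D st Γ F r₁) (h₂ : ReqsOK P D st Γ F r₂) :
    ReqsOK P D st Γ F (r₁ ++ r₂) :=
  fun q hq => (List.mem_append.1 hq).elim (h₁ q) (h₂ q)

theorem Supplies.left (h : Supplies P D m st Γ F R (r₁ ++ r₂)) : Supplies P D m st Γ F R r₁ :=
  fun q hq => h q (List.mem_append.2 (.inl hq))

theorem Supplies.right (h : Supplies P D m st Γ F R (r₁ ++ r₂)) : Supplies P D m st Γ F R r₂ :=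
  fun q hq => h q (List.mem_append.2 (.inr hq))

theorem Supplies.move (h : Supplies P D m st Γ F R r₁) {Δ : List (Tm S)} {G : ℕ → Cls}
    {κ : ℕ → ℕ} (hκ : Rens κ R.Δ Δ) (hG : ∀ n, G (κ n) = R.G n) :
    Supplies P D m st Γ F (R.move Δ G κ) r₁ :=
  fun q hq => (h q hq).move hκ hG

theorem ReqsOK.pre (hA : Der P Γ A (.srt a))
    (h : ReqsOK P D st (A :: Γ) (Fr.ext P D st Γ F A) r₁) :
    ReqsOK P D st Γ F (preReqs A r₁) := by
  intro q hq
  obtain ⟨q', hq', rfl⟩ := List.mem_map.1 hq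
  exact ⟨⟨a, hA⟩, h q' hq'⟩

theorem Supplies.pre (h : Supplies P D m st Γ F R (preReqs A r₁))
    (hR' : RExt P D Γ F R A R') :
    Supplies P D m st (A :: Γ) (Fr.ext P D st Γ F A) R' r₁ :=
  fun q hq => h (A :: q.1, q.2) (List.mem_map.2 ⟨q, hq, rfl⟩) R' hR'

theorem ClassOK.split_unique {l l' : List (S × S)} {d d' : S} (h : D.walk c = l ++ [(d, c)])
    (h' : D.walk c = l' ++ [(d', c)]) : l = l' ∧ d = d' := by
  obtain ⟨h1, h2⟩ := List.append_inj' (h.symm.trans h') rfl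
  exact ⟨h1, by simpa using h2⟩

/-- Terms of a colour of the class: a keeper suffices. -/
theorem transl_of_ev (hP : PairSpec P) (hD : ClassOK P D m) (hΓ : Wf P Γ)
    (hT : Der P Γ T (.srt c)) (hc : c ∈ D.C)
    (h : ∀ F, FrOK P D m Γ F → Inv Γ F → ∃ reqs, ReqsOK P D st Γ F reqs ∧
      ∀ R, RealOK P D m Γ F R → Supplies P D m st Γ F R reqs → EvPart P D m Γ F R sk T) :
    Transl P D m st Inv Γ sk T := by
  intro F hF hI
  obtain ⟨reqs, hok, hev⟩ := h F hF hI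
  obtain ⟨l, d, -, hw, -⟩ := hD.split hc
  obtain ⟨-, -, -, hf, hfr, -⟩ := hD.parts hc hw
  let q : List (Tm S) × Tm S := ([], Tm.arr (hom P D Γ F.e true T) (F.e.O (firstCol l d)))
  refine ⟨reqs ++ [q], hok.append ?_, fun R hR hsup => ?_⟩
  · intro q' hq'
    obtain rfl := List.mem_singleton.1 hq'
    exact ⟨_, hf, (hom_type hP hD.toOK hT hΓ hF.env true).arr (hF.env.ans (.inl hf)) hfr⟩
  · have he := hev R hR hsup.left
    exact ⟨he, rho_of_ev hP hD hΓ hF hR hT hc hw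
      (hsup.right q (List.mem_singleton.2 rfl)) he⟩

/-- Terms of other colours. -/
theorem transl_of_rho (hP : PairSpec P) (hT : ∀ c ∈ D.C, ¬ Der P Γ T (.srt c))
    (h : ∀ F, FrOK P D m Γ F → Inv Γ F → ∃ reqs, ReqsOK P D st Γ F reqs ∧
      ∀ R, RealOK P D m Γ F R → Supplies P D m st Γ F R reqs → RhoPart P D m F R sk) :
    Transl P D m st Inv Γ sk T := by
  intro F hF hI
  obtain ⟨reqs, hok, hrho⟩ := h F hF hI
  exact ⟨reqs, hok, fun R hR hsup =>
    ⟨fun c l d hc hTc => absurd hTc (hT c hc), hrho R hR hsup⟩⟩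

/-- Skeletons without computation. -/
theorem transl_of_stub {t : S} (hP : PairSpec P) (hD : ClassOK P D m) (hΓ : Wf P Γ)
    (hs : ∀ η : ℕ → ℕ, (sk.ren η).Stub)
    (h : ∀ F, FrOK P D m Γ F → Inv Γ F → ∃ reqs, ReqsOK P D st Γ F reqs ∧
      ∀ R, RealOK P D m Γ F R → Supplies P D m st Γ F R reqs → RhoPart P D m F R sk) :
    Transl P D m st Inv Γ sk (.srt t) := by
  intro F hF hI
  obtain ⟨reqs, hok, hrho⟩ := h F hF hI
  exact ⟨reqs, hok, fun R hR hsup =>
    ⟨ev_stub hP hD hΓ hF hR (hs _) (hrho R hR hsup), hrho R hR hsup⟩⟩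

/-- The request of a variable. -/
theorem var_reqs (hP : PairSpec P) (hD : ClassOK P D m) (hΓ : Wf P Γ) {n : ℕ} {X : Tm S}
    (hX : Lk Γ n X) (hXs : Der P Γ X (.srt a)) (hd : a ∈ D.Dom P) (hF : FrOK P D m Γ F) :
    ∃ reqs, ReqsOK P D st Γ F reqs ∧ ∀ R, RealOK P D m Γ F R →
      Supplies P D m st Γ F R reqs → ∃ z r u, z ∈ D.C ∧ Ans P m R.Δ R.G (R.ops F) z r u ∧
        Rho m (Sk.var (D.flag a) (R.η n)) u ∧ U.Occ (R.η n) u := by
  by_cases ha : a ∈ D.C
  · obtain ⟨l, d, -, hw, -⟩ := hD.split ha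
    obtain ⟨-, -, -, hf, hfr, -⟩ := hD.parts ha hw
    refine ⟨[([], Tm.arr (hom P D Γ F.e true X) (F.e.O (firstCol l d)))], ?_,
      fun R hR hsup => rho_var hP hD hΓ hF hR hX hXs hd fun l' d' _ hw' => ?_⟩
    · intro q hq
      obtain rfl := List.mem_singleton.1 hq
      exact ⟨_, hf, (hom_type hP hD.toOK hXs hΓ hF.env true).arr (hF.env.ans (.inl hf)) hfr⟩
    · obtain ⟨rfl, rfl⟩ := ClassOK.split_unique hw hw'
      exact hsup _ (List.mem_singleton.2 rfl)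
  · exact ⟨[], fun q hq => (List.not_mem_nil hq).elim, fun R hR _ =>
      rho_var hP hD hΓ hF hR hX hXs hd fun l' d' h' => absurd h' ha⟩

/-- A binder outside the class, kept at an answer type. -/
theorem rho_binder (hP : PairSpec P) (hD : ClassOK P D m) (hS : Stubber P D m st Inv)
    (hΓ : Wf P Γ) {X : Tm S} {T₁ T₂ : Tm S} (hX : Der P Γ X (.srt a))
    (hA : Transl P D m st Inv Γ skA T₁) (hb : Transl P D m st Inv (X :: Γ) skb T₂)
    (hF : FrOK P D m Γ F) (hI : Inv Γ F) :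
    ∃ reqs, ReqsOK P D st Γ F reqs ∧ ∀ R, RealOK P D m Γ F R →
      Supplies P D m st Γ F R reqs → RhoPart P D m F R (D.binder P a skA skb) := by
  have hΓ' := hΓ.cons hX
  have hF' := hF.ext hP hD.toOK hS hΓ hI hX
  obtain ⟨rA, hokA, hA'⟩ := hA F hF hI
  obtain ⟨rb, hokb, hb'⟩ := hb _ hF' (hS.ext hΓ hF hI hX)
  by_cases hdom : a ∈ D.Dom P
  · have hex := Fr.ext_pair (st := st) (F := F) hP hX hdom
    have hdom' := hdom
    obtain ⟨b, hbC, hab⟩ := hdom'
    obtain ⟨l, d, -, hw, -⟩ := hD.split hbC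
    obtain ⟨-, -, -, hf, hfr, -⟩ := hD.parts hbC hw
    let A₀ := homTy P D Γ F.e false X
    have hA0 : Der P F.Φ A₀ (.srt a) := homTy_false_typed hP hD.toOK hΓ hF.env hX
    obtain ⟨q, hq, hH⟩ := hatTy_typed (Φ := _) hP hD.toOK hΓ hF.env hX hbC hab rfl
    have hFp : FrOK P D m (X :: Γ) (F.pair A₀) := hex ▸ hF'
    have hY := hH.arr (hFp.env.ans (.inl hbC)) hq
    let Vf := Tm.pi A₀ (.pi (A₀.ren Nat.succ) (Tm.arr (hatTy P D Γ F X b) (F.e.up.O b)))
    have hVf : Der P F.Φ Vf (.srt b) := .prod hA0 (.prod (hA0.weaken _) hY hab) hab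
    obtain ⟨rv, hokv, hv⟩ := var_reqs (st := st) hP hD hΓ' (Lk.zero (Γ := Γ) (A := X))
      (hX.weaken X) hdom hF'
    refine ⟨rA ++ (preReqs X rb ++ (preReqs X rv ++
      [([], Tm.arr Vf (F.e.O (firstCol l d)))])),
      hokA.append ((hokb.pre hX).append ((hokv.pre hX).append fun q' hq' => ?_)),
      fun R hR hsup => ?_⟩
    · obtain rfl := List.mem_singleton.1 hq'
      exact ⟨_, hf, hVf.arr (hF.env.ans (.inl hf)) hfr⟩
    let A₁ := A₀.ren R.ι
    let H := (hatTy P D Γ F X b).ren (upr (upr R.ι))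
    let R₂ := Real.pair P D m Γ F R X b
    have hR₂ : RealOK P D m (X :: Γ) (Fr.ext P D st Γ F X) R₂ :=
      hex ▸ hR.pair hP hD.toOK hΓ hF hX hbC hab
    have hext : RExt P D Γ F R X R₂ := by
      refine .pair Nat.succ ⟨a, hdom, hX⟩ (Rens.succ _ _) (fun n => rfl) ?_
      funext n
      rcases n with _ | _ | n <;> rfl
    obtain ⟨-, zb, rb', ub, hzb, hrb, hRb⟩ := hb' R₂ hR₂ (hsup.right.left.pre hext)
    obtain ⟨zv, rv', uv, hzv, hrv, hRv, hocc⟩ := hv R₂ hR₂ (hsup.right.right.left.pre hext)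
    have hΘ₂ := Fr.ops_typed hF' hR₂
    obtain ⟨t, Q, Q', hwQ, hwQ', ht⟩ := hD.merge hΘ₂ hzb hzv hbC hrb hrv
    have hη : R₂.η = frozenShift ∘ upr R.η := by
      funext n; cases n <;> rfl
    have hbody : Rho m (.mem ((skb.ren (upr R.η)).ren frozenShift) (.var (D.flag a) 0))
        (U.merge Q Q') := by
      refine .mem (Rho.wraps ?_ hwQ) (Rho.wraps hRv hwQ')
      rw [Sk.ren_ren, ← hη]
      exact hRb
    -- the frozen value
    have hΘ := Fr.ops_typed hF hR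
    have hA1 : Der P R.Δ A₁ (.srt a) := hA0.rename hR.rens
    have hr2 := hR.rens.pair A₀
    have hH1 : Der P (A₁.ren Nat.succ :: A₁ :: R.Δ) H (.srt q) := hH.rename hr2
    have hOb : Der P (A₁.ren Nat.succ :: A₁ :: R.Δ) ((F.e.up.O b).ren (upr (upr R.ι))) (.srt b) :=
      (hFp.env.ans (.inl hbC)).rename hr2
    have hlam : Der P (A₁.ren Nat.succ :: A₁ :: R.Δ) (.lam H t)
        (Tm.arr H ((F.e.up.O b).ren (upr (upr R.ι)))) := by
      refine Der.lam_arr hH1 hOb hq ?_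
      have := ht.typed
      rw [hex] at this
      have e : (R₂.ops (F.pair A₀)).O b = ((F.e.up.O b).ren (upr (upr R.ι))).ren Nat.succ := by
        show (F.e.up.O b).ren (pairShift R.ι) = _
        rw [Tm.ren_ren]
        congr 1
        funext n
        rcases n with _ | _ | n <;> rfl
      rw [← e]
      exact this
    have hY1 := hH1.arr hOb hq
    have hval : Der P R.Δ (.lam A₁ (.lam (A₁.ren Nat.succ) (.lam H t))) (Vf.ren R.ι) := by
      have hp := Der.prod (hA1.weaken A₁) hY1 hab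
      have h := Der.abs hA1 (Der.abs (hA1.weaken A₁) hlam hp) (Der.prod hA1 hp hab)
      simpa [Vf, A₁, H, Tm.arr_ren, Function.comp_def] using h
    have hvs : Sh m R.G (Tm.lam A₁ (.lam (A₁.ren Nat.succ) (.lam H t))) (some .frz2)
        (U.frozen (U.merge Q Q')) :=
      .tlam Shp.All.frz2 (.tlam Shp.All.frz1 (.lam Shp.Arr.frz0 ht.sh))
    have h0 : U.Occ 0 (U.merge Q Q') := (U.occ_merge _ _ _).2 (.inr ((hwQ'.occ 0).2 hocc))
    have hg := hsup.right.right.right _ (List.mem_singleton.2 rfl)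
    simp only [Provides, Tm.arr_ren] at hg
    obtain ⟨K, uK, hK, hKs, hKk, hKc⟩ :=
      hg.keeper hD hΘ (hVf.rename hR.rens) hf hf hfr Shp.Arr.frzKont
    have happ : Ans P m R.Δ R.G (R.ops F) (firstCol l d) (.app K _)
        (.app uK (U.frozen (U.merge Q Q'))) :=
      ⟨hK.app_arr hval, .app Shp.Arr.frzKont hKs hvs, hKk, h0, ht.keeping⟩
    obtain ⟨-, zA, rA', uA, hzA, hrA, hRA⟩ := hA' R hR hsup.left
    obtain ⟨x, P₁, P₂, hw1, hw2, hx⟩ := hD.merge hΘ hzA hf hbC hrA happ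
    refine ⟨b, x, _, hbC, hx, ?_⟩
    rw [HData.binder, if_pos hdom]
    exact .bind (hRA.wraps hw1) hKc hbody hw2
  · have hex := Fr.ext_stub (st := st) (F := F) hP hX hdom
    refine ⟨rA ++ preReqs X rb, hokA.append (hokb.pre hX), fun R hR hsup => ?_⟩
    have hR' : RealOK P D m (X :: Γ) (Fr.ext P D st Γ F X) R.stub :=
      hex ▸ hR.stub hP hΓ hX hdom _
    have hext : RExt P D Γ F R X R.stub :=
      .stub id (fun ⟨s, hs, h'⟩ => hdom (hP.sort_eq h' hX ▸ hs))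
        (fun n Y hY => by simpa [Real.stub] using hY) (fun _ => rfl) rfl
    obtain ⟨-, zb, rb', ub, hzb, hrb, hRb⟩ := hb' R.stub hR' (hsup.right.pre hext)
    obtain ⟨-, zA, rA', uA, hzA, hrA, hRA⟩ := hA' R hR hsup.left
    have hrb' : Ans P m R.Δ R.G (R.ops F) zb rb' ub := by rw [hex] at hrb; exact hrb
    obtain ⟨x, P₁, P₂, hw1, hw2, hx⟩ :=
      hD.merge (Fr.ops_typed hF hR) hzA hzb hzA hrA hrb'
    refine ⟨zA, x, _, hzA, hx, ?_⟩
    rw [HData.binder, if_neg hdom]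
    refine .node (hRA.wraps hw1) (Rho.wraps ?_ hw2)
    rw [Sk.ren_ren]
    exact hRb

theorem hom_pi_mem (hP : PairSpec P) (hD : D.OK P) {e : HEnv S}
    (hB : Der P (A :: Γ) B (.srt c)) (hc : c ∈ D.C) :
    hom P D Γ e true (.pi A B) =
      .pi (homTy P D Γ e false A) (.pi ((homTy P D Γ e false A).ren Nat.succ)
        (Tm.arr (hatSel P D Γ e.up.O A ((hom P D Γ e true A).ren (· + 2)) c)
          (negs e.up.O (D.walk c) (hom P D (A :: Γ) e.up true B)))) := by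
  simp only [hom, if_true]
  rw [tySel_not_mem hP hB (hD.not_K hc), codSel_mem hP hB hc]
  rfl

/-- An abstraction of the class. -/
theorem ev_lam (hP : PairSpec P) (hD : ClassOK P D m) (hS : Stubber P D m st Inv)
    (hΓ : Wf P Γ) (hA : Der P Γ A (.srt a)) (hp : Der P Γ (.pi A B) (.srt c)) (hc : c ∈ D.C)
    {T₁ : Tm S} (hAt : Transl P D m st Inv Γ skA T₁)
    (hbt : Transl P D m st Inv (A :: Γ) skb B) (hF : FrOK P D m Γ F) (hI : Inv Γ F) :
    ∃ reqs, ReqsOK P D st Γ F reqs ∧ ∀ R, RealOK P D m Γ F R →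
      Supplies P D m st Γ F R reqs →
      EvPart P D m Γ F R (.lam (D.flag a) skA skb) (.pi A B) := by
  have hΓ' := hΓ.cons hA
  have hF' := hF.ext hP hD.toOK hS hΓ hI hA
  have hB := hP.pi_sort hp
  have hac : P.rule a c c := by
    obtain ⟨s₁, s₂, s₃, hA', _, hr, hs⟩ := hp.gen_pi
    obtain rfl := hP.sort_eq hA' hA
    obtain rfl := bconv_srt_inj hs
    obtain rfl := hP.rule_eq hr
    exact hr
  have hdom : a ∈ D.Dom P := ⟨c, hc, hac⟩
  have hex := Fr.ext_pair (st := st) (F := F) hP hA hdom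
  obtain ⟨rA, hokA, hA'⟩ := hAt F hF hI
  obtain ⟨rb, hokb, hb'⟩ := hbt _ hF' (hS.ext hΓ hF hI hA)
  obtain ⟨rv, hokv, hv⟩ := var_reqs (st := st) hP hD hΓ' (Lk.zero (Γ := Γ) (A := A))
    (hA.weaken A) hdom hF'
  refine ⟨rA ++ (preReqs A rb ++ preReqs A rv), hokA.append ((hokb.pre hA).append (hokv.pre hA)),
    fun R hR hsup c' l d hc' hT hw k uk hk hks hkk => ?_⟩
  obtain rfl := hP.sort_eq hT hp
  obtain ⟨hlen, hd, hdc, -, -, y, hy, hyd⟩ := hD.parts hc hw
  let A₀ := homTy P D Γ F.e false A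
  let A₁ := A₀.ren R.ι
  let H := (hatTy P D Γ F A c').ren (upr (upr R.ι))
  let R₁ := Real.pair P D m Γ F R A c'
  have hFp : FrOK P D m (A :: Γ) (F.pair A₀) := hex ▸ hF'
  have hA0 : Der P F.Φ A₀ (.srt a) := homTy_false_typed hP hD.toOK hΓ hF.env hA
  obtain ⟨q, hq, hH⟩ := hatTy_typed (Φ := _) hP hD.toOK hΓ hF.env hA hc hac rfl
  have hR₁ : RealOK P D m (A :: Γ) (F.pair A₀) R₁ := hR.pair hP hD.toOK hΓ hF hA hc hac
  let KB := (KTy P D (A :: Γ) (F.pair A₀) B l d).ren R₁.ι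
  have hKB : Der P R₁.Δ KB (.srt d) := (KTy_typed hP hD hΓ' hFp hB hc hw).rename hR₁.rens
  let R₃ := R₁.push KB (.comp (some (.kont m)))
  have hR₃ : RealOK P D m (A :: Γ) (F.pair A₀) R₃ := hR₁.push hKB _
  have hext : RExt P D Γ F R A R₃ := by
    refine .pair (Nat.succ ∘ Nat.succ) ⟨a, hdom, hA⟩ ?_ (fun n => rfl) ?_
    · intro n X hX
      have := (hX.succ (B := H)).succ (B := KB)
      simpa [R₃, R₁, Real.push, Real.move, Real.pair, H, KB, Function.comp_def] using this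
    · funext n
      rcases n with _ | _ | n <;> rfl
  have hb'' := hb' R₃ (hex ▸ hR₃) (hsup.right.left.pre hext)
  have hv'' := hv R₃ (hex ▸ hR₃) (hsup.right.right.pre hext)
  rw [hex] at hb'' hv''
  obtain ⟨hbe, -⟩ := hb''
  obtain ⟨zv, rv', uv, hzv, hrv, hRv, hocc⟩ := hv''
  have hk0 : Der P R₃.Δ (.var 0) ((KTy P D (A :: Γ) (F.pair A₀) B l d).ren R₃.ι) := by
    have := Der.var (P := P) (Lk.zero (Γ := R₁.Δ) (A := KB))
    rwa [Tm.ren_ren] at this
  obtain ⟨rb', ub, hrb, hEb, hob⟩ := hbe c' l d hc hB hw _ _ hk0 (.var rfl) trivial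
  have hκ4 : Rens (· + 4) R.Δ R₃.Δ := by
    intro n X hX
    have := (((hX.succ (B := A₁)).succ (B := A₁.ren Nat.succ)).succ (B := H)).succ (B := KB)
    simpa [Function.comp_def, R₃, R₁, Real.push, Real.move, Real.pair, A₁, A₀, H, KB] using this
  obtain ⟨-, zA, rA', uA, hzA, hrA, hRA⟩ := hA' (R.move R₃.Δ R₃.G (· + 4))
    (hR.move hR₃.wf hκ4 fun _ => rfl) (hsup.left.move hκ4 fun _ => rfl)
  have hops : (R.move R₃.Δ R₃.G (· + 4)).ops F = R₃.ops (F.pair A₀) := by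
    simp only [Real.ops, Fr.pair_ops, Ops.ren_ren]
    rfl
  rw [hops] at hrA
  have hΘ₃ := Fr.ops_typed hFp hR₃
  obtain ⟨t₁, Q₁, Q₂, hw₁, hw₂, ht₁⟩ := hD.merge hΘ₃ hc hzv hc hrb hrv
  obtain ⟨t, Q₃, Q₄, hw₃, hw₄, ht⟩ := hD.merge hΘ₃ hc hzA hc ht₁ hrA
  have hη : R₃.η = valShift ∘ upr R.η := by
    funext n; cases n <;> rfl
  have hbody : SkEv m (.mem (.mem ((skb.ren (upr R.η)).ren valShift) (.var (D.flag a) 1))
      ((skA.ren R.η).ren (· + 4))) (.var 0) (U.merge Q₃ Q₄) := by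
    refine .mem (SkEv.wraps (.mem (SkEv.wraps ?_ hw₁) (Rho.wraps ?_ hw₂)) hw₃) (Rho.wraps ?_ hw₄)
    · rw [Sk.ren_ren, ← hη]; exact hEb
    · exact hRv
    · rw [Sk.ren_ren]; exact hRA
  have h0 : U.Occ 0 (U.merge Q₃ Q₄) := (U.occ_merge _ _ _).2 (.inl ((hw₃.occ 0).2
    ((U.occ_merge _ _ _).2 (.inl ((hw₁.occ 0).2 (hob 0 rfl))))))
  have h1 : U.Occ 1 (U.merge Q₃ Q₄) := (U.occ_merge _ _ _).2 (.inl ((hw₃.occ 1).2
    ((U.occ_merge _ _ _).2 (.inr ((hw₂.occ 1).2 hocc)))))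
  -- the value
  have hΘ := Fr.ops_typed hF hR
  have hA1 : Der P R.Δ A₁ (.srt a) := hA0.rename hR.rens
  have hr2 := hR.rens.pair A₀
  have hH1 : Der P (A₁.ren Nat.succ :: A₁ :: R.Δ) H (.srt q) := hH.rename hr2
  let N := (negs F.e.up.O (D.walk c') (hom P D (A :: Γ) F.e.up true B)).ren (upr (upr R.ι))
  have hN : Der P (A₁.ren Nat.succ :: A₁ :: R.Δ) N (.srt c') :=
    (negs_typed (fun s hs => hFp.env.ans (.inl hs)) (hD.walk hc)
      (hom_type hP hD.toOK hB hΓ' hFp.env true)).rename hr2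
  have hι : pairShift R.ι = Nat.succ ∘ upr (upr R.ι) := by
    funext n; rcases n with _ | _ | n <;> rfl
  have hlamk : Der P R₁.Δ (.lam KB t) (N.ren Nat.succ) := by
    have e : N.ren Nat.succ =
        Tm.arr KB ((F.e.up.O c').ren R₁.ι) := by
      rw [show R₁.ι = pairShift R.ι from rfl, Tm.ren_ren, ← hι]
      rw [show negs F.e.up.O (D.walk c') (hom P D (A :: Γ) F.e.up true B) =
        Tm.arr (KTy P D (A :: Γ) (F.pair A₀) B l d) (F.e.up.O c') from
        walk_negs (F := F.pair A₀) hw, Tm.arr_ren]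
      rfl
    rw [e]
    refine Der.lam_arr hKB ((hFp.env.ans (.inl hc)).rename hR₁.rens) hdc ?_
    have := ht.typed
    have e' : (R₃.ops (F.pair A₀)).O c' = ((F.e.up.O c').ren R₁.ι).ren Nat.succ := by
      show (F.e.up.O c').ren (Nat.succ ∘ R₁.ι) = _
      rw [Tm.ren_ren]
    rw [← e']
    exact this
  have hlamh : Der P (A₁.ren Nat.succ :: A₁ :: R.Δ) (.lam H (.lam KB t)) (Tm.arr H N) :=
    Der.lam_arr hH1 hN hq hlamk
  have hY := hH1.arr hN hq
  have hval : Der P R.Δ (.lam A₁ (.lam (A₁.ren Nat.succ) (.lam H (.lam KB t))))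
      ((hom P D Γ F.e true (.pi A B)).ren R.ι) := by
    rw [hom_pi_mem hP hD.toOK hB hc]
    have hp' := Der.prod (hA1.weaken A₁) hY hac
    have h := Der.abs hA1 (Der.abs (hA1.weaken A₁) hlamh hp') (Der.prod hA1 hp' hac)
    simpa [A₁, A₀, H, N, hatTy, Tm.arr_ren, Function.comp_def] using h
  have hvs : Sh m R.G (Tm.lam A₁ (.lam (A₁.ren Nat.succ) (.lam H (.lam KB t))))
      (some (.neg 0)) (U.value (U.merge Q₃ Q₄)) :=
    .tlam Shp.All.val2 (.tlam Shp.All.val1 (.lam Shp.Arr.val0 (.lam (Shp.Arr.neg m) ht.sh)))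
  have hV : Der P R.Δ ((hom P D Γ F.e true (.pi A B)).ren R.ι) (.srt c') :=
    (hom_type hP hD.toOK hp hΓ hF.env true).rename hR.rens
  obtain ⟨v, hvt, hvsh⟩ := unit_exists hΘ hy hV hval hvs
  rw [hlen, Nat.zero_add] at hvsh
  rw [KTy_ren] at hk
  have hkv : Ans P m R.Δ R.G (R.ops F) d (.app k v)
      (.app uk (U.lift m (U.value (U.merge Q₃ Q₄)))) :=
    ⟨hk.app_arr hvt, .app (Shp.Arr.kont m) hks hvsh, hkk,
      U.keeping_lift m ⟨h1, h0, ht.keeping⟩⟩
  exact ⟨_, _, hkv.step hΘ hd hc hdc, (SkEv.lam uk hbody).wrap, fun n hn => .inr (.inl hn)⟩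

/-- An application of the class. -/
theorem ev_app (hP : PairSpec P) (hD : ClassOK P D m)
    (hΓ : Wf P Γ) {skf ska : Sk} {x : Tm S} (hx : Der P Γ x A) (hA : Der P Γ A (.srt a))
    (hp : Der P Γ (.pi A B) (.srt c)) (hc : c ∈ D.C)
    (hft : Transl P D m st Inv Γ skf (.pi A B)) (hxt : Transl P D m st Inv Γ ska A)
    (hF : FrOK P D m Γ F) (hI : Inv Γ F) :
    ∃ reqs, ReqsOK P D st Γ F reqs ∧ ∀ R, RealOK P D m Γ F R →
      Supplies P D m st Γ F R reqs →
      EvPart P D m Γ F R (.app (D.flag a) skf ska) (B.inst x) := by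
  obtain ⟨rf, hokf, hf'⟩ := hft F hF hI
  obtain ⟨rx, hokx, hx'⟩ := hxt F hF hI
  refine ⟨rf ++ rx, hokf.append hokx, fun R hR hsup c' l d hc' hT hw k uk hk hks hkk => ?_⟩
  have hB := hP.pi_sort hp
  obtain rfl := hP.sort_eq hT (hB.inst hx)
  obtain ⟨hlen, hd, -, he, her, y, hy, hyd⟩ := hD.parts hc hw
  have hΘ := Fr.ops_typed hF hR
  -- the hat
  have hhat : ∃ h uh, Der P R.Δ h ((hatSel P D Γ F.e.O A (hom P D Γ F.e true A) c').ren R.ι) ∧
      Sh m R.G h (some (.neg (m + 1))) uh ∧ uh.Keeping ∧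
      Hat m (D.flag a) (ska.ren R.η) uh := by
    by_cases ha : a ∈ D.C
    · obtain ⟨l', d', -, hw', -⟩ := hD.split ha
      obtain ⟨-, hd', hr', -⟩ := hD.parts ha hw'
      let K := (KTy P D Γ F A l' d').ren R.ι
      have hK : Der P R.Δ K (.srt d') := (KTy_typed hP hD hΓ hF hA ha hw').rename hR.rens
      let R₂ := R.push K (.comp (some (.kont m)))
      have hR₂ := hR.push hK (.comp (some (.kont m)))
      have hk0 : Der P R₂.Δ (.var 0) ((KTy P D Γ F A l' d').ren R₂.ι) := by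
        have := Der.var (P := P) (Lk.zero (Γ := R.Δ) (A := K))
        rwa [Tm.ren_ren] at this
      obtain ⟨r, u, hr, hEv, ho⟩ := (hx' R₂ hR₂ (hsup.right.move (Rens.succ _ _) fun _ => rfl)).1
        a l' d' ha hA hw' _ _ hk0 (.var rfl) trivial
      refine ⟨.lam K r, .lam u, ?_, .lam (Shp.Arr.neg m) hr.sh, ⟨ho 0 rfl, hr.keeping⟩, ?_⟩
      · rw [hatSel_mem hP hA ha, walk_negs hw', Tm.arr_ren]
        refine Der.lam_arr hK ((hF.env.ans (.inl ha)).rename hR.rens) hr' ?_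
        rw [Tm.ren_ren]
        exact hr.typed
      · rw [show D.flag a = true by simp [HData.flag, ha]]
        refine .thunk ?_
        rw [Sk.ren_ren]
        exact hEv
    · obtain ⟨-, z, r, u, hz, hr, hRho⟩ := hx' R hR hsup.right
      obtain ⟨t, u', hwu, ht, hts⟩ := hD.mergeLeaf hΘ (hD.cp_mem hc) hz hr
      refine ⟨t, U.merge .cst u', ?_, .coe _ hts, ht.keeping, ?_⟩
      · rw [hatSel_not_mem hP hA ha]; exact ht.typed
      · rw [show D.flag a = false by simp [HData.flag, ha]]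
        exact .keep (hRho.wraps hwu)
  obtain ⟨h, uh, hh, hhs, hhk, hHat⟩ := hhat
  -- the continuation of the function part
  let A₀ := homTy P D Γ F.e false A
  let τ := hom P D Γ F.e false x
  let M := hom P D Γ F.e true x
  let V := (hom P D Γ F.e true (.pi A B)).ren R.ι
  have hV : Der P R.Δ V (.srt c') := (hom_type hP hD.toOK hp hΓ hF.env true).rename hR.rens
  let R₁ := R.push V (.comp (some (.neg 0)))
  have hR₁ := hR.push hV (.comp (some (.neg 0)))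
  have hτ : Der P R₁.Δ (τ.ren R₁.ι) (A₀.ren R₁.ι) :=
    (hom_typing hP hD.toOK hx hΓ hF.env false).rename hR₁.rens
  have hM : Der P R₁.Δ (M.ren R₁.ι) (A₀.ren R₁.ι) :=
    (hom_typing hP hD.toOK hx hΓ hF.env true).rename hR₁.rens
  let X := Tm.arr (hatSel P D Γ F.e.up.O A ((hom P D Γ F.e true A).ren (· + 2)) c')
    (negs F.e.up.O (D.walk c') (hom P D (A :: Γ) F.e.up true B))
  have hv : Der P R₁.Δ (.var 0) (.pi (A₀.ren R₁.ι)
      (.pi ((A₀.ren R₁.ι).ren Nat.succ) (X.ren (upr (upr R₁.ι))))) := by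
    have h0 := Der.var (P := P) (Lk.zero (Γ := R.Δ) (A := V))
    have e : V.ren Nat.succ = (Tm.pi A₀ (.pi (A₀.ren Nat.succ) X)).ren R₁.ι := by
      show ((hom P D Γ F.e true (.pi A B)).ren R.ι).ren Nat.succ = _
      rw [hom_pi_mem hP hD.toOK hB hc, Tm.ren_ren]
      rfl
    rw [e] at h0
    simp [Function.comp_def] at h0 ⊢
    exact h0
  have hv2 : Der P R₁.Δ (.app (.app (.var 0) (τ.ren R₁.ι)) (M.ren R₁.ι))
      ((Tm.arr (hatSel P D Γ F.e.O A (hom P D Γ F.e true A) c')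
        (negs F.e.O (D.walk c') (hom P D Γ F.e true (B.inst x)))).ren R₁.ι) := by
    have e1 : ((A₀.ren R₁.ι).ren Nat.succ).sub (sub0 (τ.ren R₁.ι)) = A₀.ren R₁.ι :=
      Tm.inst_ren_succ _ _
    have h1 := hv.appl hτ
    rw [Tm.inst, Tm.sub_pi, e1] at h1
    have h2 := h1.appl hM
    have eX : ((X.ren (upr (upr R₁.ι))).sub (ups (sub0 (τ.ren R₁.ι)))).inst (M.ren R₁.ι) =
        (X.sub (sub2 τ M)).ren R₁.ι := by
      rw [Tm.inst_sub2, Tm.sub_ren, Tm.ren_sub]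
      refine Tm.sub_congr _ fun n => ?_
      rcases n with _ | _ | n <;> rfl
    rw [eX] at h2
    have eO : (fun s => (F.e.up.O s).sub (sub2 τ M)) = F.e.O := by
      funext s; exact Tm.ren2_sub2 _ _ _
    rw [show X.sub (sub2 τ M) = Tm.arr (hatSel P D Γ F.e.O A (hom P D Γ F.e true A) c')
        (negs F.e.O (D.walk c') (hom P D Γ F.e true (B.inst x))) by
      simp only [X, Tm.arr_sub, hatSel_sub, negs_sub, eO, Tm.ren2_sub2]
      rw [hom_inst hP hD.not_ax hΓ hA hB hx]] at h2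
    exact h2
  rw [Tm.arr_ren] at hv2
  have hh₁ : Der P R₁.Δ (h.ren Nat.succ)
      ((hatSel P D Γ F.e.O A (hom P D Γ F.e true A) c').ren R₁.ι) := by
    have := hh.weaken V
    rwa [Tm.ren_ren] at this
  have hv3 := hv2.app_arr hh₁
  rw [walk_negs hw, Tm.arr_ren] at hv3
  have hk₁ : Der P R₁.Δ (k.ren Nat.succ) ((KTy P D Γ F (B.inst x) l d).ren R₁.ι) := by
    have := hk.weaken V
    rwa [Tm.ren_ren] at this
  have hv4 := hv3.app_arr hk₁
  obtain ⟨hft1, hfts⟩ := (Fr.ops_typed hF hR₁).tr hc he her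
  have hK : Der P R.Δ (.lam V (.app ((R₁.ops F).f c' (firstCol l d))
      (.app (.app (.app (.app (.var 0) (τ.ren R₁.ι)) (M.ren R₁.ι)) (h.ren Nat.succ))
        (k.ren Nat.succ))))
      (Tm.arr V ((R.ops F).O (firstCol l d))) := by
    refine Der.lam_arr hV ((hF.env.ans (.inl he)).rename hR.rens) her ?_
    have := hft1.app_arr hv4
    show Der P R₁.Δ _ (((F.e.O (firstCol l d)).ren R.ι).ren Nat.succ)
    rw [Tm.ren_ren]
    exact this
  have hKs : Sh m R.G (Tm.lam V (.app ((R₁.ops F).f c' (firstCol l d))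
      (.app (.app (.app (.app (.var 0) (τ.ren R₁.ι)) (M.ren R₁.ι)) (h.ren Nat.succ))
        (k.ren Nat.succ)))) (some (.kont 0)) (U.appCont uh uk) :=
    .lam (Shp.Arr.kont 0) (.coe _ (.appFree hfts (.app (Shp.Arr.neg m)
      (.app Shp.Arr.val0 (.tapp Shp.All.val1 (.tapp Shp.All.val2 (.var rfl)))
        (hhs.ren fun _ => rfl)) (hks.ren fun _ => rfl))))
  have hKk : (U.appCont uh uk).Keeping := by
    refine ⟨?_, trivial, ⟨trivial, U.keeping_ren hhk _⟩, U.keeping_ren hkk _⟩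
    simp [U.wrap, U.Occ]
  obtain ⟨kf, hkf, hkfs⟩ := cont_exists hΘ hd hy hyd hV hK hKs
  rw [hlen, Nat.zero_add] at hkfs
  obtain ⟨r, u, hr, hEv, ho⟩ := (hf' R hR hsup.left).1 c' l d hc hp hw kf _
    (by rw [KTy_ren]; exact hkf) hkfs (U.keeping_lift m hKk)
  refine ⟨r, u, hr, .app hHat hEv, fun n hn => ho n ?_⟩
  rw [U.occ_lift]
  exact .inr (.inr ((U.occ_succ _ _).2 hn))

/-- Every typed memory term has a translation. -/
theorem transl_exists (hP : PairSpec P) (hD : ClassOK P D m) (hS : Stubber P D m st Inv)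
    (hne : D.C.Nonempty) {t : MTm S S} {T : Tm S} (h : MDer P id Γ t T) :
    Wf P Γ → Transl P D m st Inv Γ (skel P D Γ t) T := by
  have leaf : ∀ {Γ : List (Tm S)} {F : Fr S}, FrOK P D m Γ F →
      ∃ reqs, ReqsOK P D st Γ F reqs ∧ ∀ R, RealOK P D m Γ F R →
        Supplies P D m st Γ F R reqs → RhoPart P D m F R .cst := by
    intro Γ F hF
    obtain ⟨s, hs⟩ := hne
    exact ⟨[], fun q hq => (List.not_mem_nil hq).elim, fun R hR _ =>
      ⟨s, _, _, hs, (Fr.ops_typed hF hR).ans_leaf hs, .cst⟩⟩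
  induction h with
  | @axiom_ Γ s t ha =>
    intro hΓ
    rw [skel]
    exact transl_of_stub hP hD hΓ (fun _ => trivial) fun F hF _ => leaf hF
  | @var Γ n X hl =>
    intro hΓ
    obtain ⟨a, ha⟩ := hΓ.lookup hl
    have hv := skel_var (D := D) hP hΓ ⟨X, .var hl, ha⟩
    by_cases hc : a ∈ D.C
    · rw [hv.1 (hD.mem_dom hc), show D.flag a = true by simp [HData.flag, hc]]
      exact transl_of_ev hP hD hΓ ha hc fun F hF hI => ⟨[], fun q hq => (List.not_mem_nil hq).elim,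
        fun R hR _ => ev_var hP hD hΓ hR hl⟩
    · refine transl_of_rho hP (fun c hc' h' => hc (hP.sort_eq h' ha ▸ hc')) fun F hF hI => ?_
      by_cases hd : a ∈ D.Dom P
      · rw [hv.1 hd]
        obtain ⟨reqs, hok, h⟩ := var_reqs (st := st) hP hD hΓ hl ha hd hF
        refine ⟨reqs, hok, fun R hR hsup => ?_⟩
        obtain ⟨z, r, u, hz, hr, hrho, -⟩ := h R hR hsup
        exact ⟨z, r, u, hz, hr, hrho⟩
      · rw [hv.2 hd]
        exact leaf hF
  | @prod Γ X Y s₁ s₂ s₃ hX hY hr ihX ihY =>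
    intro hΓ
    rw [skel_pi hP hX.toDer]
    refine transl_of_stub hP hD hΓ (fun η => ?_) fun F hF hI =>
      rho_binder hP hD hS hΓ hX.toDer (ihX hΓ) (ihY (hΓ.cons hX.toDer)) hF hI
    unfold HData.binder
    split <;> trivial
  | @abs Γ X y Z s₁ s hX hy hp ihX ihy =>
    intro hΓ
    have hcol : HasCol P Γ (Tm.lam X.erase y.erase) s :=
      ⟨_, .abs hX.toDer hy.toDer hp, hp⟩
    by_cases hc : s ∈ D.C
    · rw [(skel_lam hP hΓ hX.toDer hcol).1 hc]
      exact transl_of_ev hP hD hΓ hp hc fun F hF hI =>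
        ev_lam hP hD hS hΓ hX.toDer hp hc (ihX hΓ) (ihy (hΓ.cons hX.toDer)) hF hI
    · rw [(skel_lam hP hΓ hX.toDer hcol).2 hc]
      exact transl_of_rho hP (fun c hc' h' => hc (hP.sort_eq h' hp ▸ hc')) fun F hF hI =>
        rho_binder hP hD hS hΓ hX.toDer (ihX hΓ) (ihy (hΓ.cons hX.toDer)) hF hI
  | @appl Γ f x X Z s c hf hx hp hcs ihf ihx =>
    intro hΓ
    obtain ⟨s₁, _, _, hX, _, _, _⟩ := hf.toDer.pi_type hΓ
    have hv := skel_app (D := D) hP hΓ (c := c) (f := f) ⟨X, hx.toDer, hX⟩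
    obtain rfl : c = s := hcs
    have hT : Der P Γ (Z.inst x.erase) (.srt c) := (hP.pi_sort hp).inst hx.toDer
    by_cases hc : c ∈ D.C
    · rw [hv.1 hc]
      exact transl_of_ev hP hD hΓ hT hc fun F hF hI =>
        ev_app hP hD hΓ hx.toDer hX hp hc (ihf hΓ) (ihx hΓ) hF hI
    · rw [hv.2 hc]
      refine transl_of_rho hP (fun c' hc' h' => hc (hP.sort_eq h' hT ▸ hc')) fun F hF hI => ?_
      obtain ⟨r₁, ho₁, h₁⟩ := ihf hΓ F hF hI
      obtain ⟨r₂, ho₂, h₂⟩ := ihx hΓ F hF hI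
      refine ⟨r₁ ++ r₂, ho₁.append ho₂, fun R hR hsup => ?_⟩
      obtain ⟨-, z, a', u, hz, ha, hu⟩ := h₁ R hR hsup.left
      obtain ⟨-, z', b', v, hz', hb, hv'⟩ := h₂ R hR hsup.right
      obtain ⟨w, Q, Q', hw, hw', hwt⟩ := hD.merge (Fr.ops_typed hF hR) hz hz' hz ha hb
      exact ⟨z, w, _, hz, hwt, .node (hu.wraps hw) (hv'.wraps hw')⟩
  | @mem Γ p e B E hp he ihp ihe =>
    intro hΓ
    rw [skel]
    intro F hF hI
    obtain ⟨r₁, ho₁, h₁⟩ := ihp hΓ F hF hI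
    obtain ⟨r₂, ho₂, h₂⟩ := ihe hΓ F hF hI
    refine ⟨r₁ ++ r₂, ho₁.append ho₂, fun R hR hsup => ?_⟩
    obtain ⟨hev, z, a', u, hz, ha, hu⟩ := h₁ R hR hsup.left
    obtain ⟨-, z', b', v, hz', hb, hv'⟩ := h₂ R hR hsup.right
    have hΘ := Fr.ops_typed hF hR
    refine ⟨fun c l d hc hT hw k uk hk hks hkk => ?_, ?_⟩
    · obtain ⟨r, x, hr, hE, ho⟩ := hev c l d hc hT hw k uk hk hks hkk
      obtain ⟨w, Q, Q', hw, hw', hwt⟩ := hD.merge hΘ hc hz' hc hr hb
      exact ⟨w, _, hwt, .mem (hE.wraps hw) (hv'.wraps hw'),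
        fun n hn => (U.occ_merge _ _ _).2 (.inl ((hw.occ n).2 (ho n hn)))⟩
    · obtain ⟨w, Q, Q', hw, hw', hwt⟩ := hD.merge hΘ hz hz' hz ha hb
      exact ⟨z, w, _, hz, hwt, .mem (hu.wraps hw) (hv'.wraps hw')⟩
  | @conv Γ t A B s ht hB hc ih =>
    intro hΓ F hF hI
    obtain ⟨reqs, hok, h⟩ := ih hΓ F hF hI
    refine ⟨reqs, hok, fun R hR hsup => ?_⟩
    obtain ⟨hev, hrho⟩ := h R hR hsup
    refine ⟨fun c l d hcC hT hw k uk hk hks hkk => ?_, hrho⟩
    have hA : Der P Γ A (.srt c) := by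
      rcases ht.correct hΓ with ⟨u, rfl⟩ | ⟨u, hu⟩
      · exact hT.red hΓ (red_of_bconv_srt hc.symm)
      · rwa [hP.sort_conv hΓ hu hT hc] at hu
    exact hev c l d hcC hA hw k uk
      (.conv hk ((KTy_typed hP hD hΓ hF hA hcC hw).rename hR.rens)
        ((KTy_bconv hP hD hΓ hA hT hc).symm.ren R.ι)) hks hkk

end Vale.Agent.P340
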