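import Vale.Agent.P340.CpsMsn
import Vale.Agent.P340.CpsCond
import Vale.Agent.P340.CpsBase
import Vale.Agent.P340.CpsFrag

/-!
# Stubs

A sort that the class cannot bind and does not collapse either has a uniform point (a variable of
type `Π X : a. X`), or all its normal types in a frame end in sorts and are pointed by recursion.
-/

namespace Vale.Agent.P340

variable {S : Type} {P : Spec S} {D : HData S} {m : ℕ} {a s z : S} {Φ : List (Tm S)}

theorem not_bconv_var_pi {n : ℕ} {A B : Tm S} : ¬ BConv (Tm.var n) (.pi A B) := fun h => by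
  obtain ⟨C, h₁, h₂⟩ := bconv_join h
  obtain rfl := red_var h₁
  obtain ⟨A', B', e, -, -⟩ := red_pi h₂
  cases e

theorem Lk.lt_length {Γ : List (Tm S)} {n : ℕ} {X : Tm S} (h : Lk Γ n X) : n < Γ.length := by
  induction h with
  | zero => simp
  | succ _ ih => simpa using ih

/-- What a context must provide so that all types of sort `a` have terms. -/
structure GoodCtx (P : Spec S) (a : S) (Φ : List (Tm S)) : Prop where
  atom : ∀ {s}, P.ax s a → ∃ v, Der P Φ v (.srt s)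
  head : ∀ {n X t}, Lk Φ n X → Der P Φ X (.srt t) → P.ax a t →
    (∃ i, X = .var i) ∨ ∃ s, X = .srt s ∧ (s = a → ∃ p, Der P Φ p (.var n))

theorem GoodCtx.cons (hP : PairSpec P) (h : GoodCtx P a Φ) (hΦ : Wf P Φ) {X : Tm S}
    (hX : Der P Φ X (.srt s)) (hs : ∀ t, P.ax a t → s ≠ t) : GoodCtx P a (X :: Φ) := by
  refine ⟨fun h' => ?_, fun {n Y t} hY hYt ha => ?_⟩
  · obtain ⟨v, hv⟩ := h.atom h'
    exact ⟨_, hv.weaken X⟩
  · cases hY with
    | zero => exact absurd (hP.sort_eq (hX.weaken X) hYt) (hs t ha)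
    | @succ _ Y' _ k hk =>
      obtain ⟨t', ht'⟩ := hΦ.lookup hk
      obtain rfl := hP.sort_eq (ht'.weaken X) hYt
      rcases h.head hk ht' ha with ⟨i, rfl⟩ | ⟨s', rfl, hp⟩
      · exact .inl ⟨i + 1, rfl⟩
      · refine .inr ⟨s', rfl, fun e => ?_⟩
        obtain ⟨p, hp⟩ := hp e
        exact ⟨_, hp.weaken X⟩

/-- The head of a normal application is a variable of a product type of the same sort. -/
theorem normal_head (hP : PairSpec P) (hΦ : Wf P Φ) : ∀ (f x T : Tm S) {z : S},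
    IsNormal (Tm.app f x) → Der P Φ (.app f x) T → Der P Φ T (.srt z) →
      ∃ n X A B, Lk Φ n X ∧ Der P Φ X (.srt z) ∧ BConv X (.pi A B) := by
  intro f
  induction f with
  | var n =>
    intro x T z _ h hT
    obtain ⟨A, B, hf, hx, hc⟩ := h.gen_app
    obtain ⟨s₁, s₂, s₃, -, -, -, hp⟩ := hf.pi_type hΦ
    obtain rfl := hP.sort_conv hΦ ((hP.pi_sort hp).inst hx) hT hc
    obtain ⟨X, hl, hX⟩ := hf.gen_var
    obtain ⟨u, hu⟩ := hΦ.lookup hl
    obtain rfl := hP.sort_conv hΦ hu hp hX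
    exact ⟨n, X, A, B, hl, hu, hX⟩
  | srt s =>
    intro x T z _ h _
    obtain ⟨A, B, hf, -, -⟩ := h.gen_app
    obtain ⟨t, -, ht⟩ := hf.gen_srt
    exact (not_bconv_srt_pi ht).elim
  | pi A₀ B₀ _ _ =>
    intro x T z _ h _
    obtain ⟨A, B, hf, -, -⟩ := h.gen_app
    obtain ⟨s₁, s₂, s₃, -, -, -, ht⟩ := hf.gen_pi
    exact (not_bconv_srt_pi ht).elim
  | lam A₀ b₀ _ _ =>
    intro x T z hn _ _
    exact (hn _ (.beta _ _ _)).elim
  | app f' x' ih _ =>
    intro x T z hn h hT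
    obtain ⟨A, B, hf, hx, hc⟩ := h.gen_app
    obtain ⟨s₁, s₂, s₃, -, -, -, hp⟩ := hf.pi_type hΦ
    obtain rfl := hP.sort_conv hΦ ((hP.pi_sort hp).inst hx) hT hc
    exact ih x' _ (fun N hN => hn _ (.appL _ hN)) hf hp

/-- In a good context every normal type of sort `a` has a term. -/
theorem GoodCtx.inhabit (hP : PairSpec P) (hr : ∀ t, P.ax a t → ¬ P.rule t a a) :
    ∀ (N : Tm S), IsNormal N → ∀ {Φ : List (Tm S)}, Wf P Φ → GoodCtx P a Φ →
      Der P Φ N (.srt a) → ∃ v, Der P Φ v N := by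
  intro N
  induction N with
  | var n =>
    intro _ Φ hΦ hG h
    obtain ⟨X, hl, hc⟩ := h.gen_var
    obtain ⟨t, ht⟩ := hΦ.lookup hl
    have ha : P.ax a t := (ht.red hΦ (red_of_bconv_srt hc)).srt_type
    rcases hG.head hl ht ha with ⟨i, rfl⟩ | ⟨s, rfl, hp⟩
    · exact (not_bconv_srt_var hc.symm).elim
    · exact hp (bconv_srt_inj hc)
  | srt s =>
    intro _ Φ hΦ hG h
    exact hG.atom h.srt_type
  | lam A b _ _ =>
    intro _ Φ hΦ hG h
    obtain ⟨s₁, B, s, -, -, -, hc⟩ := h.gen_lam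
    exact (not_bconv_pi_srt hc).elim
  | app f x _ _ =>
    intro hn Φ hΦ hG h
    obtain ⟨A, B, hf, hx, hc⟩ := h.gen_app
    obtain ⟨s₁, s₂, t, -, -, -, hp⟩ := hf.pi_type hΦ
    have ha : P.ax a t := (((hP.pi_sort hp).inst hx).red hΦ (red_of_bconv_srt hc)).srt_type
    obtain ⟨n, X, A', B', hl, hX, hXc⟩ := normal_head hP hΦ f x _ hn h (.axiom_ ha)
    rcases hG.head hl hX ha with ⟨i, rfl⟩ | ⟨s, rfl, -⟩
    · exact (not_bconv_var_pi hXc).elim
    · exact (not_bconv_srt_pi hXc).elim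
  | pi A B _ ihB =>
    intro hn Φ hΦ hG h
    obtain ⟨s₁, s₂, s₃, hA, hB, hrule, hc⟩ := h.gen_pi
    obtain rfl := bconv_srt_inj hc
    obtain rfl := hP.rule_eq hrule
    have hs : ∀ t, P.ax s₃ t → s₁ ≠ t := fun t ht e => hr t ht (e ▸ hrule)
    obtain ⟨v, hv⟩ := ihB (fun N hN => hn _ (.piR _ hN)) (hΦ.cons hA)
      (hG.cons hP hΦ hA hs) hB
    exact ⟨_, .abs hA hv h⟩

/-- The sorts with a uniform point. -/
def PolyStub (P : Spec S) (D : HData S) (a : S) : Prop :=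
  a ∉ D.Dom P ∧ (∃ z, P.ax z a) ∧ ∃ t, P.ax a t ∧ P.rule t a a

/-- The sorts pointed by recursion. -/
def RecStub (P : Spec S) (D : HData S) (a : S) : Prop :=
  a ∉ D.Dom P ∧ (∃ z, P.ax z a) ∧ ∀ t, P.ax a t → ¬ P.rule t a a

/-- The invariant of frames. -/
def StubInv (P : Spec S) (D : HData S) (_ : List (Tm S)) (F : Fr S) : Prop :=
  (∀ a, PolyStub P D a → ∃ E, Der P F.Φ E (.pi (.srt a) (.var 0))) ∧
    ∀ a, RecStub P D a → GoodCtx P a F.Φ

open Classical in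
/-- Some term of the type. -/
noncomputable def stubTerm (P : Spec S) (D : HData S) (Γ : List (Tm S)) (F : Fr S) (A : Tm S) :
    Tm S :=
  if h : ∃ v, Der P F.Φ v (homTy P D Γ F.e false A) then h.choose else .var 0

theorem ClassOK.oddLoop (hD : ClassOK P D m) (hs : s ∈ D.C) : OddLoop P s := by
  obtain ⟨l, hl⟩ := hD.conn hs (hD.cp_mem hs)
  refine ⟨D.cp s, ?_, hD.cp_rule hs⟩
  clear hs
  generalize D.cp s = y at hl ⊢
  induction hl with
  | nil => exact .refl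
  | cons _ _ h1 h2 _ ih => exact .head ⟨_, h1, h2⟩ ih

/-- The sort above a recursively pointed sort can be bound neither by the class nor by a point. -/
theorem RecStub.above (hP : PairSpec P) (hD : ClassOK P D m) (hcond : KindCond P)
    (h : RecStub P D a) {t : S} (ht : P.ax a t) : t ∉ D.Dom P ∧ ¬ PolyStub P D t := by
  obtain ⟨hdom, ⟨w, hw⟩, hr⟩ := h
  obtain ⟨hS, hu⟩ := (hcond w a t hw ht).resolve_left (hr t ht)
  refine ⟨fun ⟨b, hb, hb'⟩ => hdom ⟨b, hb, hS b (hD.oddLoop hb) hb'⟩, ?_⟩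
  rintro ⟨-, -, u, hau, hut⟩
  exact hu u hau hut

/-- The stubs fit every frame. -/
theorem stubber (hP : PairSpec P) (hW : WeaklyNormalizing P) (hD : ClassOK P D m)
    (hK : D.K = collapseSet P D.C) (hcond : KindCond P) :
    Stubber P D m (stubTerm P D) (StubInv P D) := by
  refine ⟨fun {Γ F A s} hΓ hF hI hA => ?_, fun {Γ F A a} hΓ hF hI hA hd hk => ?_⟩
  · by_cases hd : s ∈ D.Dom P
    · rw [Fr.ext_pair hP hA hd]
      have hA0 := homTy_false_typed hP hD.toOK hΓ hF.env hA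
      refine ⟨fun b hb => ?_, fun b hb => ?_⟩
      · obtain ⟨E, hE⟩ := hI.1 b hb
        exact ⟨_, hE.weaken2⟩
      · have hs : ∀ t, P.ax b t → s ≠ t := fun t ht e => (hb.above hP hD hcond ht).1 (e ▸ hd)
        exact ((hI.2 b hb).cons hP hF.env.wf hA0 hs).cons hP (hF.env.wf.cons hA0)
          (hA0.weaken _) hs
    · rw [Fr.ext_stub hP hA hd]
      exact hI
  · have htarget : ∃ z, P.ax z a := by
      rcases hA.live hP hΓ (.refl _) with ⟨t, ht⟩ | h
      · by_contra hn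
        rw [hK] at hk
        exact hk ⟨⟨t, ht⟩, hd, hn⟩
      · exact h
    have hA0 := homTy_false_typed hP hD.toOK hΓ hF.env hA
    have hex : ∃ v, Der P F.Φ v (homTy P D Γ F.e false A) := by
      by_cases hr : ∃ t, P.ax a t ∧ P.rule t a a
      · obtain ⟨E, hE⟩ := hI.1 a ⟨hd, htarget, hr⟩
        exact ⟨_, by simpa [Tm.inst] using hE.appl hA0⟩
      · have hrec : RecStub P D a := ⟨hd, htarget, fun t ht h => hr ⟨t, ht, h⟩⟩
        obtain ⟨N, hN, hn⟩ := hW _ ⟨F.Φ, _, .inl (hA0.toTy hF.env.wf)⟩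
        obtain ⟨v, hv⟩ := GoodCtx.inhabit hP hrec.2.2 N hn hF.env.wf (hI.2 a hrec)
          (hA0.red hF.env.wf hN)
        exact ⟨v, .conv hv hA0 hN.bconv.symm⟩
    rw [stubTerm, dif_pos hex]
    exact hex.choose_spec

/-- Finitely many live sorts: a frame over the empty context, with stubs. -/
theorem exists_frame (hP : PairSpec P) (hW : WeaklyNormalizing P) (hD : ClassOK P D m)
    (hK : D.K = collapseSet P D.C) (hfin : {s | Live P s}.Finite)
    (hClive : ∀ s ∈ D.C, Live P s) (hcond : KindCond P) :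
    ∃ st Inv F₀, Stubber P D m st Inv ∧ FrOK P D m [] F₀ ∧ Inv [] F₀ := by
  classical
  have hCfin : D.C.Finite := hfin.subset hClive
  have hKax : ∀ s ∈ D.K, ∃ t, P.ax s t := fun s hs => by rw [hK] at hs; exact hs.1
  have hKfin : D.K.Finite := hfin.subset fun s hs => .inl (hKax s hs)
  have hA : {a | PolyStub P D a}.Finite :=
    hfin.subset fun a ha => .inr ha.2.1
  obtain ⟨Δ, Θ, E, G, hwf, hΘ, hG, hKs, hE, honly⟩ :=
    exists_base hD hCfin hKfin (hfin.subset fun t ht => .inl ⟨_, ht.choose_spec.2⟩) hClive hKax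
      hA.toFinset fun a ha => (hA.mem_toFinset.1 ha).2.2
  -- a variable of every sort that has an axiom
  obtain ⟨Δ₃, κ₃, hw₃, hκ₃, hv₃, honly₃⟩ := exists_decl hwf
    ((hfin.subset (fun s hs => Or.inl hs : {s | ∃ t, P.ax s t} ⊆ {s | Live P s})).image
      (Tm.srt (S := S))) (by
        rintro _ ⟨s, ⟨t, ht⟩, rfl⟩
        exact ⟨t, .axiom_ ht⟩)
  -- points of the variables declared as types
  let pts : Set (Tm S) := {Y | ∃ n b, Y = Tm.var n ∧ Lk Δ₃ n (.srt b)}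
  have hpts : pts.Finite := by
    refine ((Set.finite_Iio Δ₃.length).image (Tm.var (S := S))).subset ?_
    rintro _ ⟨n, b, rfl, h⟩
    exact ⟨n, h.lt_length, rfl⟩
  obtain ⟨Δ₄, κ₄, hw₄, hκ₄, hv₄, honly₄⟩ := exists_decl hw₃ hpts (by
    rintro _ ⟨n, b, rfl, h⟩
    exact ⟨b, .var h⟩)
  let κ := κ₄ ∘ κ₃
  have hκ : Rens κ Δ Δ₄ := Rens.trans hκ₃ hκ₄
  have hΘ' := hΘ.ren (G' := fun _ => Cls.free) hκ fun n => (hG n).symm
  let F₀ : Fr S :=
    ⟨Δ₄, fun _ => Cls.free, ⟨fun _ _ => .var 0, fun s => (Θ.O s).ren κ, fun s => (Θ.o s).ren κ⟩,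
      fun a b => (Θ.f a b).ren κ, fun s => (Θ.g s).ren κ⟩
  refine ⟨stubTerm P D, StubInv P D, F₀, stubber hP hW hD hK hcond,
    ⟨⟨hw₄, fun {s} hs => ?_, fun {s} hs => (hKs s hs).2.1.rename hκ,
      fun w h => nomatch h⟩, hΘ'⟩, fun a ha => ?_, fun a ha => ⟨fun {s} hs => ?_, ?_⟩⟩
  · rcases hs with hs | hs
    · exact hΘ'.ans hs
    · exact (hKs s hs).1.1.rename hκ
  · have := ((hE a (hA.mem_toFinset.2 ha)).1).rename hκ
    exact ⟨_, this⟩
  · obtain ⟨n, hn⟩ := hv₃ _ ⟨s, ⟨a, hs⟩, rfl⟩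
    exact ⟨_, (Der.var hn).rename hκ₄⟩
  · intro n X t hX hXt hat
    obtain ⟨hdom, hpoly⟩ := ha.above hP hD hcond hat
    rcases honly₄ n X hX with ⟨k, Z, hZ, rfl, rfl⟩ | ⟨Y, ⟨j, b, rfl, -⟩, rfl⟩
    swap
    · exact .inl ⟨_, rfl⟩
    have hsrt : (∃ s, Z = .srt s) ∨ ∃ z, (z ∈ D.C ∨ z ∈ D.K ∨ PolyStub P D z) ∧
        Der P Δ₃ Z (.srt z) := by
      rcases honly₃ k Z hZ with ⟨i, W, hW', -, rfl⟩ | ⟨Y, ⟨s, -, rfl⟩, rfl⟩
      · rcases honly i W hW' with ⟨s, rfl⟩ | ⟨z, hz, hd⟩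
        · exact .inl ⟨s, rfl⟩
        · exact .inr ⟨z, hz.imp id (Or.imp id hA.mem_toFinset.1), hd.rename hκ₃⟩
      · exact .inl ⟨s, rfl⟩
    rcases hsrt with ⟨s, rfl⟩ | ⟨z, hz, hd⟩
    · refine .inr ⟨s, rfl, fun e => ?_⟩
      obtain ⟨p, hp⟩ := hv₄ _ ⟨k, s, rfl, hZ⟩
      exact ⟨_, .var hp⟩
    · obtain rfl := hP.sort_eq (hd.rename hκ₄) hXt
      rcases hz with hz | hz | hz
      · exact absurd (hD.mem_dom hz) hdom
      · rw [hK] at hz; exact absurd ⟨a, hat⟩ hz.2.2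
      · exact absurd hz hpoly

end Vale.Agent.P340
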