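import Vale.Agent.P340.CpsMsn
import Vale.Agent.P340.CpsStub
import Vale.Agent.P340.CpsCond
import Vale.Agent.P340.CpsFrag
import Vale.Agent.P340.MemPolar

/-!
# The assembly

In every finite live fragment each class of colours with a domain edge is either signed, or has
walks of even length and gets a frame; both give strong normalisation with memory of the class.
-/

namespace Vale.Agent.P340

variable {S : Type} {P : Spec S}

theorem OddLoop.mono {Q : Spec S} (h : ∀ {a b c}, Q.rule a b c → P.rule a b c) {b : S}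
    (hb : OddLoop Q b) : OddLoop P b := by
  obtain ⟨y, hy, hyb⟩ := hb
  refine ⟨y, ?_, h hyb⟩
  clear hyb
  induction hy with
  | refl => exact .refl
  | tail _ hstep ih =>
    obtain ⟨w, h₁, h₂⟩ := hstep
    exact ih.tail ⟨w, h h₁, h h₂⟩

theorem KindCond.cut (h : KindCond P) (F : Finset S) : KindCond (P.cut F) := by
  intro z a t hz ha
  rcases h z a t hz.2 ha.2 with hr | ⟨hb, hu⟩
  · exact .inl ⟨hr, .inr ⟨a, ha⟩, .inl ⟨t, ha⟩⟩
  · exact .inr ⟨fun b hl hr =>
        ⟨hb b (OddLoop.mono (Q := P.cut F) (fun h => h.1) hl) hr.1, .inl ⟨t, ha⟩, hr.2.2⟩,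
      fun u hu' hr => hu u hu'.2 hr.1⟩

/-- Weak normalisation gives strong normalisation for functional pair specifications with the
condition on kinds. -/
theorem stronglyNormalizing_of_kindCond (hP : PairSpec P)
    (hK : KindCond P) (hW : WeaklyNormalizing P) : StronglyNormalizing P := by
  refine stronglyNormalizing_of_cut hP fun F => ?_
  have hQ := hP.cut F
  let col := idColouring (P.cut F) fun _ _ _ _ _ h h' => hQ.sort_eq h h'
  refine stronglyNormalizing_of_classes col fun c hE Γ t T hΓ ht => ?_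
  change MSN (colClass (P.cut F) id c) t
  obtain ⟨hlive, hfinC⟩ := class_live hP hE
  by_cases hpol : ∃ sg, Polar (P.cut F) id (colClass (P.cut F) id c) sg
  · obtain ⟨sg, hsg⟩ := hpol
    exact msn_of_polar (K := col) hsg hΓ ht
  · obtain ⟨hconn, hpred, hsucc⟩ := class_edges hQ hE
    obtain ⟨walk, cp, m, hD⟩ := exists_classOK hQ
      (K := collapseSet (P.cut F) (colClass (P.cut F) id c)) hfinC hpred hconn hpol
      (fun s hs hsK => hsK.2.1 (hsucc s hs)) (fun s t ha ht => ht.2.2 ⟨s, ha⟩)
    obtain ⟨st, Inv, F₀, hS, hF, hI⟩ :=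
      exists_frame hQ (hW.cut F) hD rfl (live_cut_finite hP F) hlive (hK.cut F)
    exact msn_of_classOK hQ (hW.cut F) hD ⟨c, .refl, .refl⟩ hS hF hI hΓ ht

end Vale.Agent.P340
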