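import Vale.Agent.P340.CpsImage
import Vale.Agent.P340.Conservation

/-!
# Weak normalisation gives strong normalisation at one class

Every context has a frame and, for any finite family of requests, a real context supplying it.
The translation of a term is typed in the specification, so it has a normal form; its skeleton is
keeping, hence strongly normal, and bounds the steps of the class.
-/

namespace Vale.Agent.P340

variable {S : Type} {P : Spec S} {D : HData S} {m : ℕ}
  {st : List (Tm S) → Fr S → Tm S → Tm S} {Inv : List (Tm S) → Fr S → Prop}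

/-- The empty source context: finitely many requests are supplied by free variables. -/
theorem supply_nil (hP : PairSpec P) (hD : ClassOK P D m) (hS : Stubber P D m st Inv)
    {F₀ : Fr S} (hF : FrOK P D m [] F₀) (hI : Inv [] F₀) :
    ∀ reqs : List (List (Tm S) × Tm S), ReqsOK P D st [] F₀ reqs →
      ∃ R, RealOK P D m [] F₀ R ∧ Supplies P D m st [] F₀ R reqs := by
  intro reqs
  induction reqs with
  | nil =>
    intro _
    exact ⟨⟨F₀.Φ, F₀.G, id, id⟩,
      ⟨hF.env.wf, fun n X hX => by simpa using hX, fun _ => rfl, fun hX => nomatch hX⟩,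
      fun q hq => (List.not_mem_nil hq).elim⟩
  | cons q reqs ih =>
    intro hok
    obtain ⟨R, hR, hsup⟩ := ih fun q' hq' => hok q' (List.mem_cons_of_mem _ hq')
    obtain ⟨Wc, ⟨d, -, hWc⟩, hget⟩ :=
      provides_of_getter hP hD hS q.1 Wf.nil hF hI (hok q List.mem_cons_self)
    have hX := hWc.rename hR.rens
    have hR' := hR.push hX Cls.free
    refine ⟨R.push (Wc.ren R.ι) Cls.free, hR', fun q' hq' => ?_⟩
    rcases List.mem_cons.1 hq' with rfl | hq'
    · refine hget _ hR'.rens hR'.cls (Getter.of_var (n := 0) ?_ rfl)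
      have := Lk.zero (Γ := R.Δ) (A := Wc.ren R.ι)
      rw [Tm.ren_ren] at this
      exact this
    · exact (hsup q' hq').move (Rens.succ _ _) fun _ => rfl

/-- Every context has a frame with supplying real contexts. -/
theorem supply_exists (hP : PairSpec P) (hD : ClassOK P D m) (hS : Stubber P D m st Inv)
    {F₀ : Fr S} (hF₀ : FrOK P D m [] F₀) (hI₀ : Inv [] F₀) {Γ : List (Tm S)} (hΓ : Wf P Γ) :
    ∃ F, FrOK P D m Γ F ∧ Inv Γ F ∧ ∀ reqs, ReqsOK P D st Γ F reqs →
      ∃ R, RealOK P D m Γ F R ∧ Supplies P D m st Γ F R reqs := by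
  induction hΓ with
  | nil => exact ⟨F₀, hF₀, hI₀, supply_nil hP hD hS hF₀ hI₀⟩
  | @cons Γ A a hΓ hA ih =>
    obtain ⟨F, hF, hI, hsup⟩ := ih
    refine ⟨_, hF.ext hP hD.toOK hS hΓ hI hA, hS.ext hΓ hF hI hA, fun reqs hok => ?_⟩
    obtain ⟨R, hR, hRs⟩ := hsup (preReqs A reqs) (hok.pre hA)
    by_cases hd : a ∈ D.Dom P
    · have hex := Fr.ext_pair (st := st) (F := F) hP hA hd
      have hd' := hd
      obtain ⟨b, hb, hab⟩ := hd'
      refine ⟨Real.pair P D m Γ F R A b, hex ▸ hR.pair hP hD.toOK hΓ hF hA hb hab, hRs.pre ?_⟩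
      refine .pair Nat.succ ⟨a, hd, hA⟩ (Rens.succ _ _) (fun n => rfl) ?_
      funext n
      rcases n with _ | _ | n <;> rfl
    · have hex := Fr.ext_stub (st := st) (F := F) hP hA hd
      exact ⟨R.stub, hex ▸ hR.stub hP hΓ hA hd _, hRs.pre (.stub id
        (fun ⟨s, hs, h'⟩ => hd (hP.sort_eq h' hA ▸ hs))
        (fun n Y hY => by simpa [Real.stub] using hY) (fun _ => rfl) rfl)⟩

/-- Weak normalisation gives strong normalisation at the class. -/
theorem msn_of_classOK (hP : PairSpec P) (hW : WeaklyNormalizing P) (hD : ClassOK P D m)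
    (hne : D.C.Nonempty) (hS : Stubber P D m st Inv) {F₀ : Fr S} (hF₀ : FrOK P D m [] F₀)
    (hI₀ : Inv [] F₀) {Γ : List (Tm S)} (hΓ : Wf P Γ) {t : MTm S S} {T : Tm S}
    (ht : MDer P id Γ t T) : MSN D.C t := by
  obtain ⟨F, hF, hI, hsup⟩ := supply_exists hP hD hS hF₀ hI₀ hΓ
  obtain ⟨reqs, hok, htr⟩ := transl_exists hP hD hS hne ht hΓ F hF hI
  obtain ⟨R, hR, hRs⟩ := hsup reqs hok
  obtain ⟨-, z, r, u, -, hr, hrho⟩ := htr R hR hRs
  obtain ⟨N, hN, hnorm⟩ := hW r ⟨R.Δ, _, .inl (hr.typed.toTy hR.wf)⟩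
  obtain ⟨v, hv, hvn⟩ := hr.sh.normalizes hN hnorm
  have hu : u.SN := conservation u v hr.keeping hv hvn
  refine msn_of_skel_acc hP hΓ ht ?_
  have hacc := sk_sn hu hrho
  generalize hs : (skel P D Γ t).ren R.η = s at hacc
  clear hrho
  generalize skel P D Γ t = w at hs
  induction hacc generalizing w with
  | intro s _ ih => exact Acc.intro _ fun w' hw' => ih _ (hs ▸ hw'.ren R.η) w' rfl

end Vale.Agent.P340
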