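import Vale.Agent.P340.CpsFrame

/-!
# The parts of the translation

Keepers at a colour of the class, variables, stubs and hats.
-/

namespace Vale.Agent.P340

variable {S : Type}

/-- The type of continuations, for the splitting `l ++ [(d, c)]` of the walk. -/
noncomputable def KTy (P : Spec S) (D : HData S) (Γ : List (Tm S)) (F : Fr S) (T : Tm S)
    (l : List (S × S)) (d : S) : Tm S :=
  Tm.arr (negs F.e.O l (hom P D Γ F.e true T)) (F.e.O d)

/-- Every typed continuation has a typed translation. -/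
def EvPart (P : Spec S) (D : HData S) (m : ℕ) (Γ : List (Tm S)) (F : Fr S) (R : Real S)
    (sk : Sk) (T : Tm S) : Prop :=
  ∀ c l d, c ∈ D.C → Der P Γ T (.srt c) → D.walk c = l ++ [(d, c)] → ∀ k uk,
    Der P R.Δ k ((KTy P D Γ F T l d).ren R.ι) → Sh m R.G k (some (.kont m)) uk → uk.Keeping →
    ∃ r u, Ans P m R.Δ R.G (R.ops F) c r u ∧ SkEv m (sk.ren R.η) uk u ∧
      ∀ n, U.Occ n uk → U.Occ n u

/-- There is a typed translation at an answer type. -/
def RhoPart (P : Spec S) (D : HData S) (m : ℕ) (F : Fr S) (R : Real S) (sk : Sk) : Prop :=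
  ∃ z r u, z ∈ D.C ∧ Ans P m R.Δ R.G (R.ops F) z r u ∧ Rho m (sk.ren R.η) u

variable {P : Spec S} {D : HData S} {m : ℕ} {Γ : List (Tm S)} {F : Fr S} {R : Real S}
  {T : Tm S} {l : List (S × S)} {a c d s z : S} {sk : Sk}

theorem KTy_ren (ι : ℕ → ℕ) :
    (KTy P D Γ F T l d).ren ι =
      Tm.arr (negs (F.ops.ren ι).O l ((hom P D Γ F.e true T).ren ι)) ((F.ops.ren ι).O d) := by
  simp [KTy, Tm.arr_ren, negs_ren, Ops.ren, Fr.ops]

theorem walk_negs (h : D.walk c = l ++ [(d, c)]) :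
    negs F.e.O (D.walk c) (hom P D Γ F.e true T) = Tm.arr (KTy P D Γ F T l d) (F.e.O c) := by
  rw [h, negs_snoc]; rfl

/-- The parts of a splitting. -/
theorem ClassOK.parts (hD : ClassOK P D m) (hc : c ∈ D.C) (h : D.walk c = l ++ [(d, c)]) :
    l.length = m ∧ d ∈ D.C ∧ P.rule d c c ∧ firstCol l d ∈ D.C ∧
      P.rule c (firstCol l d) (firstCol l d) ∧ ∃ y, Walk P D c l y ∧ P.rule y d d := by
  have hl := hD.len hc
  obtain ⟨y, hy, hd, -, -, h1, h2⟩ := Walk.snoc_inv (h ▸ hD.walk hc)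
  exact ⟨by simpa [h] using hl, hd, h2, firstCol_mem hy hd, firstCol_rule hy h1, y, hy, h1⟩

/-- Colours of the class can be bound by the class. -/
theorem ClassOK.mem_dom (hD : ClassOK P D m) (hc : c ∈ D.C) : c ∈ D.Dom P := by
  obtain ⟨l, d, -, h, -⟩ := hD.split hc
  obtain ⟨-, -, -, h1, h2, -⟩ := hD.parts hc h
  exact ⟨_, h1, h2⟩

theorem KTy_typed (hP : PairSpec P) (hD : ClassOK P D m) (hΓ : Wf P Γ)
    (hF : FrOK P D m Γ F) (hT : Der P Γ T (.srt c)) (hc : c ∈ D.C)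
    (h : D.walk c = l ++ [(d, c)]) : Der P F.Φ (KTy P D Γ F T l d) (.srt d) := by
  obtain ⟨-, hd, -, -, -, y, hy, hr⟩ := hD.parts hc h
  exact (negs_typed (fun s hs => hF.env.ans (.inl hs)) hy
    (hom_type hP hD.toOK hT hΓ hF.env true)).arr (hF.env.ans (.inl hd)) hr

theorem KTy_bconv (hP : PairSpec P) (hD : ClassOK P D m) (hΓ : Wf P Γ) {T' : Tm S}
    (hT : Der P Γ T (.srt c)) (hT' : Der P Γ T' (.srt c)) (hc : BConv T T') :
    BConv (KTy P D Γ F T l d) (KTy P D Γ F T' l d) :=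
  BConv.arr (BConv.negs _ l (hom_bconv hP hD.not_ax hΓ hT hT' hc true)) (.refl _)

/-- A merge with a leaf on the left. -/
theorem ClassOK.mergeLeaf {Δ : List (Tm S)} {G : ℕ → Cls} {Θ : Ops S} {r : Tm S} {u : U}
    (hD : ClassOK P D m) (hΘ : OpsOK P D m Δ G Θ) (hz : z ∈ D.C) (hs : s ∈ D.C)
    (h : Ans P m Δ G Θ s r u) :
    ∃ t u', Wraps u u' ∧ Ans P m Δ G Θ z t (U.merge .cst u') ∧
      Sh m G t none (U.merge .cst u') := by
  obtain ⟨x, u', hw, hx⟩ := hD.move hΘ hs (hD.cp_mem hz) h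
  obtain ⟨hg, hgs⟩ := hΘ.mrg hz
  have hl := hΘ.ans_leaf (hD.cp_mem hz)
  exact ⟨_, u', hw, ⟨(hg.app_arr hl.typed).app_arr hx.typed,
    .coe _ (.appFree (.appFree hgs hl.sh) hx.sh), ⟨trivial, trivial⟩, hx.keeping⟩,
    .appFree (.appFree hgs hl.sh) hx.sh⟩

/-- A translation with continuation gives one at an answer type, through a keeper. -/
theorem rho_of_ev (hP : PairSpec P) (hD : ClassOK P D m) (hΓ : Wf P Γ) (hF : FrOK P D m Γ F)
    (hR : RealOK P D m Γ F R) (hT : Der P Γ T (.srt c)) (hc : c ∈ D.C)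
    (h : D.walk c = l ++ [(d, c)])
    (hget : Getter P D m R.Δ R.G (R.ops F)
      ((Tm.arr (hom P D Γ F.e true T) (F.e.O (firstCol l d))).ren R.ι))
    (hev : EvPart P D m Γ F R sk T) : RhoPart P D m F R sk := by
  obtain ⟨hlen, hd, -, hf, hfr, y, hy, hr⟩ := hD.parts hc h
  have hΘ := Fr.ops_typed hF hR
  have hV : Der P R.Δ ((hom P D Γ F.e true T).ren R.ι) (.srt c) :=
    (hom_type hP hD.toOK hT hΓ hF.env true).rename hR.rens
  rw [Tm.arr_ren] at hget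
  obtain ⟨K, uK, hK, hKs, hKk, hKc⟩ := hget.keeper hD hΘ hV hf hf hfr (Shp.Arr.kont 0)
  obtain ⟨k, hk, hks⟩ := cont_exists hΘ hd hy hr hV hK hKs
  rw [hlen, Nat.zero_add] at hks
  obtain ⟨r, u, hru, hEv, -⟩ := hev c l d hc hT h k (U.lift m uK) (by rw [KTy_ren]; exact hk) hks
    (U.keeping_lift m hKk)
  exact ⟨c, r, u, hc, hru, .comp (fun n hn => hKc n ((U.occ_lift m uK n).1 hn)) hEv⟩

/-- The translation of a variable of the class with a continuation. -/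
theorem ev_var {n : ℕ} {X : Tm S} (hP : PairSpec P) (hD : ClassOK P D m) (hΓ : Wf P Γ)
    (hR : RealOK P D m Γ F R) (hX : Lk Γ n X) :
    EvPart P D m Γ F R (.var true n) X := by
  intro c l d hc hT h k uk hk hks hkk
  obtain ⟨hG, hh, -⟩ := hR.hat hX hT (hD.mem_dom hc)
  have hh' := hh hc
  rw [walk_negs h, Tm.arr_ren] at hh'
  exact ⟨_, .app (.var (R.η n)) uk,
    ⟨hh'.app_arr hk, .app (Shp.Arr.neg m) (.var hG) hks, trivial, hkk⟩, .var _ _,
    fun n hn => .inr hn⟩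

/-- The translation of a variable that the class can bind keeps it. -/
theorem rho_var {n : ℕ} {X : Tm S} (hP : PairSpec P) (hD : ClassOK P D m) (hΓ : Wf P Γ)
    (hF : FrOK P D m Γ F) (hR : RealOK P D m Γ F R) (hX : Lk Γ n X)
    (hXs : Der P Γ X (.srt a)) (hd : a ∈ D.Dom P)
    (hget : ∀ l d, a ∈ D.C → D.walk a = l ++ [(d, a)] → Getter P D m R.Δ R.G (R.ops F)
      ((Tm.arr (hom P D Γ F.e true X) (F.e.O (firstCol l d))).ren R.ι)) :
    ∃ z r u, z ∈ D.C ∧ Ans P m R.Δ R.G (R.ops F) z r u ∧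
      Rho m (Sk.var (D.flag a) (R.η n)) u ∧ U.Occ (R.η n) u := by
  have hΘ := Fr.ops_typed hF hR
  obtain ⟨hG, hh, hh'⟩ := hR.hat hX hXs hd
  by_cases ha : a ∈ D.C
  · obtain ⟨l, d₁, -, h, -⟩ := hD.split ha
    obtain ⟨hlen, hd₁, -, hf, hfr, y, hy, hr⟩ := hD.parts ha h
    have hV : Der P R.Δ ((hom P D Γ F.e true X).ren R.ι) (.srt a) :=
      (hom_type hP hD.toOK hXs hΓ hF.env true).rename hR.rens
    have hg := hget l d₁ ha h
    rw [Tm.arr_ren] at hg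
    obtain ⟨K, uK, hK, hKs, hKk, hKc⟩ := hg.keeper hD hΘ hV hf hf hfr (Shp.Arr.kont 0)
    obtain ⟨k, hk, hks⟩ := cont_exists hΘ hd₁ hy hr hV hK hKs
    rw [hlen, Nat.zero_add] at hks
    have hh1 := hh ha
    rw [walk_negs h, Tm.arr_ren, KTy_ren] at hh1
    refine ⟨a, _, .app (.var (R.η n)) (U.lift m uK), ha,
      ⟨hh1.app_arr hk, .app (Shp.Arr.neg m) (.var hG) hks, trivial, U.keeping_lift m hKk⟩, ?_,
      .inl rfl⟩
    rw [show D.flag a = true by simp [HData.flag, ha]]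
    exact .comp (fun k hk => hKc k ((U.occ_lift m uK k).1 hk)) (.var _ _)
  · obtain ⟨q, hq, hqd⟩ := hh' ha
    obtain ⟨l, d₁, -, h, -⟩ := hD.split hq
    obtain ⟨-, -, -, hf, hfr, -⟩ := hD.parts hq h
    obtain ⟨hft, hfs⟩ := hΘ.tr hq hf hfr
    refine ⟨_, _, U.wrap (.var (R.η n)), hf,
      ⟨hft.app_arr hqd, .coe _ (.appFree hfs (.var hG)), trivial, trivial⟩, ?_, .inr rfl⟩
    rw [show D.flag a = false by simp [HData.flag, ha]]
    exact (Rho.var _).wrap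

/-- A skeleton without computation, at the type of a sort. -/
theorem ev_stub {t : S} (hP : PairSpec P) (hD : ClassOK P D m) (hΓ : Wf P Γ)
    (hF : FrOK P D m Γ F) (hR : RealOK P D m Γ F R) (hs : (sk.ren R.η).Stub)
    (hrho : RhoPart P D m F R sk) : EvPart P D m Γ F R sk (.srt t) := by
  intro c l d hc hT h k uk hk hks hkk
  obtain ⟨hlen, hd, -, -, -, y, hy, hr⟩ := hD.parts hc h
  have hΘ := Fr.ops_typed hF hR
  obtain ⟨hO, hOs⟩ := hΘ.atom hT.srt_type hc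
  have hV : Der P R.Δ (Tm.srt t) (.srt c) := .axiom_ hT.srt_type
  obtain ⟨v, hv, hvs⟩ := unit_exists hΘ hy hV hO (.coe (.neg 0) hOs)
  rw [hlen, Nat.zero_add] at hvs
  rw [KTy_ren] at hk
  have hy' : Ans P m R.Δ R.G (R.ops F) d (.app k v) (.app uk (U.lift m .cst)) :=
    ⟨hk.app_arr hv, .app (Shp.Arr.kont m) hks hvs, hkk, U.keeping_lift m trivial⟩
  obtain ⟨z, r, u, hz, hru, hRho⟩ := hrho
  obtain ⟨x, Q, Q', hw, hw', hx⟩ := hD.merge hΘ hz hd hc hru hy'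
  exact ⟨x, _, hx, .stub hs (hRho.wraps hw) hw',
    fun n hn => (U.occ_merge _ _ _).2 (.inr ((hw'.occ n).2 (.inl hn)))⟩

end Vale.Agent.P340
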