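import Vale.Agent.P340.Reduction
import Vale.Agent.P340.UStepBasic

/-!
# From typed images to skeletons

Variables are plain, free or computational. Annotations and arguments of erased binders are
dropped; everything headed by a free variable is inert. If an image has a normal form, so has
its skeleton.
-/

namespace Vale.Agent.P340

open Relation

variable {S : Type}

/-- Shapes of computational expressions. -/
inductive Shp : Type
  | neg (j : ℕ)
  | kont (j : ℕ)
  | val1
  | val0
  | frz2
  | frz1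
  | frz0
  | frzKont
  | ans
  | idle

/-- Functions with a computational argument; `m + 1` is the depth of negations. -/
inductive Shp.Arr (m : ℕ) : Shp → Shp → Shp → Prop
  | neg (j : ℕ) : Arr m (.neg (j + 1)) (.kont j) .ans
  | kont (j : ℕ) : Arr m (.kont j) (.neg j) .ans
  | val0 : Arr m .val0 (.neg (m + 1)) (.neg (m + 1))
  | frz0 : Arr m .frz0 (.neg (m + 1)) .ans
  | frzKont : Arr m .frzKont .frz2 .ans

/-- Functions with an erased argument. -/
inductive Shp.All : Shp → Shp → Prop
  | val2 : All (.neg 0) .val1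
  | val1 : All .val1 .val0
  | frz2 : All .frz2 .frz1
  | frz1 : All .frz1 .frz0

/-- Classes of variables. -/
inductive Cls : Type
  | plain
  | free
  | comp (o : Option Shp)

/-- A class of variables extended by one binder. -/
def Cls.cons (c : Cls) (G : ℕ → Cls) : ℕ → Cls
  | 0 => c
  | n + 1 => G n

/-- `u` is the skeleton of `t` at a shape; no shape means inert. -/
inductive Sh (m : ℕ) : (ℕ → Cls) → Tm S → Option Shp → U → Prop
  | var {G n o} : G n = Cls.comp o → Sh m G (.var n) o (.var n)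
  | free {G n} : G n = Cls.free → Sh m G (.var n) none .cst
  | coe {G t u} (σ : Shp) : Sh m G t none u → Sh m G t (some σ) u
  | lam {G A t u σ a b} : Shp.Arr m σ a b →
      Sh m (Cls.cons (.comp (some a)) G) t (some b) u → Sh m G (.lam A t) (some σ) (.lam u)
  | lamIdle {G A t u o} : Sh m (Cls.cons (.comp none) G) t o u →
      Sh m G (.lam A t) (some .idle) (.lam u)
  | tlam {G A t u σ b} : Shp.All σ b → Sh m (Cls.cons .plain G) t (some b) u →
      Sh m G (.lam A t) (some σ) (.tlam u)
  | app {G f x u v σ a b} : Shp.Arr m σ a b → Sh m G f (some σ) u → Sh m G x (some a) v →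
      Sh m G (.app f x) (some b) (.app u v)
  | tapp {G f x u σ b} : Shp.All σ b → Sh m G f (some σ) u →
      Sh m G (.app f x) (some b) (.tapp u)
  | appFree {G f x u v o} : Sh m G f none u → Sh m G x o v →
      Sh m G (.app f x) none (.app u v)
  | tappFree {G f x u} : Sh m G f none u → Sh m G (.app f x) none (.tapp u)

variable {m : ℕ} {G G' : ℕ → Cls} {t t' : Tm S} {o : Option Shp} {u : U}

theorem Shp.Arr.unique {σ a b a' b' : Shp} (h : Shp.Arr m σ a b) (h' : Shp.Arr m σ a' b') :
    a = a' ∧ b = b' := by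
  cases h <;> cases h' <;> exact ⟨rfl, rfl⟩

theorem Shp.All.unique {σ b b' : Shp} (h : Shp.All σ b) (h' : Shp.All σ b') : b = b' := by
  cases h <;> cases h' <;> rfl

theorem Shp.Arr.not_all {σ a b b' : Shp} (h : Shp.Arr m σ a b) (h' : Shp.All σ b') : False := by
  cases h <;> cases h'

theorem Shp.Arr.not_idle {a b : Shp} (h : Shp.Arr m .idle a b) : False := by cases h

theorem Shp.All.not_idle {b : Shp} (h : Shp.All .idle b) : False := by cases h

theorem Cls.cons_upr {c : Cls} {ξ : ℕ → ℕ} (h : ∀ n, G' (ξ n) = G n) (n : ℕ) :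
    Cls.cons c G' (upr ξ n) = Cls.cons c G n := by
  cases n with
  | zero => rfl
  | succ n => exact h n

theorem Sh.ren (h : Sh m G t o u) : ∀ {G' : ℕ → Cls} {ξ : ℕ → ℕ}, (∀ n, G' (ξ n) = G n) →
    Sh m G' (t.ren ξ) o (u.ren ξ) := by
  induction h with
  | var h => intro G' ξ hξ; exact .var ((hξ _).trans h)
  | free h => intro G' ξ hξ; exact .free ((hξ _).trans h)
  | coe σ _ ih => intro G' ξ hξ; exact .coe σ (ih hξ)
  | lam ha _ ih => intro G' ξ hξ; exact .lam ha (ih (Cls.cons_upr hξ))
  | lamIdle _ ih => intro G' ξ hξ; exact .lamIdle (ih (Cls.cons_upr hξ))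
  | tlam ha _ ih => intro G' ξ hξ; exact .tlam ha (ih (Cls.cons_upr hξ))
  | app ha _ _ ihf ihx => intro G' ξ hξ; exact .app ha (ihf hξ) (ihx hξ)
  | tapp ha _ ihf => intro G' ξ hξ; exact .tapp ha (ihf hξ)
  | appFree _ _ ihf ihx => intro G' ξ hξ; exact .appFree (ihf hξ) (ihx hξ)
  | tappFree _ ihf => intro G' ξ hξ; exact .tappFree (ihf hξ)

/-- What a substitution must provide at each class of variables. -/
def ShSubs (m : ℕ) (G G' : ℕ → Cls) (σ : ℕ → Tm S) (τ : ℕ → U) : Prop :=
  ∀ n, (G n = Cls.free → Sh m G' (σ n) none .cst) ∧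
    ∀ o, G n = Cls.comp o → Sh m G' (σ n) o (τ n)

theorem ShSubs.up {σ : ℕ → Tm S} {τ : ℕ → U} (h : ShSubs m G G' σ τ) (c : Cls) :
    ShSubs m (Cls.cons c G) (Cls.cons c G') (ups σ) (U.up τ) := by
  intro n
  cases n with
  | zero => exact ⟨fun e => .free e, fun o e => .var e⟩
  | succ n =>
    refine ⟨fun e => ?_, fun o e => ?_⟩
    · exact ((h n).1 e).ren (ξ := Nat.succ) fun _ => rfl
    · exact ((h n).2 o e).ren (ξ := Nat.succ) fun _ => rfl

theorem Sh.sub (h : Sh m G t o u) : ∀ {G' : ℕ → Cls} {σ : ℕ → Tm S} {τ : ℕ → U},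
    ShSubs m G G' σ τ → Sh m G' (t.sub σ) o (u.sub τ) := by
  induction h with
  | var h => intro G' σ τ hs; exact (hs _).2 _ h
  | free h => intro G' σ τ hs; exact (hs _).1 h
  | coe s _ ih => intro G' σ τ hs; exact .coe s (ih hs)
  | lam ha _ ih => intro G' σ τ hs; exact .lam ha (ih (hs.up _))
  | lamIdle _ ih => intro G' σ τ hs; exact .lamIdle (ih (hs.up _))
  | tlam ha _ ih => intro G' σ τ hs; exact .tlam ha (ih (hs.up _))
  | app ha _ _ ihf ihx => intro G' σ τ hs; exact .app ha (ihf hs) (ihx hs)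
  | tapp ha _ ihf => intro G' σ τ hs; exact .tapp ha (ihf hs)
  | appFree _ _ ihf ihx => intro G' σ τ hs; exact .appFree (ihf hs) (ihx hs)
  | tappFree _ ihf => intro G' σ τ hs; exact .tappFree (ihf hs)

theorem Sh.inst {c : Cls} (h : Sh m (Cls.cons c G) t o u) {x : Tm S} {v : U}
    (hf : c ≠ Cls.free) (hx : ∀ o', c = Cls.comp o' → Sh m G x o' v) :
    Sh m G (t.inst x) o (u.inst v) := by
  refine h.sub fun n => ?_
  cases n with
  | zero => exact ⟨fun e => (hf e).elim, hx⟩
  | succ n => exact ⟨fun e => .free e, fun o e => .var e⟩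

/-- An abstraction is never inert. -/
theorem Sh.lam_some {A : Tm S} (h : Sh m G (.lam A t) o u) : ∃ σ, o = some σ := by
  cases h <;> exact ⟨_, rfl⟩

/-- A step of the image is at most one step of the skeleton. -/
theorem Sh.step (h : Sh m G t o u) : ∀ {t' : Tm S}, Step t t' →
    ∃ u', (u' = u ∨ UStep u u') ∧ Sh m G t' o u' := by
  induction h with
  | var _ => intro t' hs; cases hs
  | free _ => intro t' hs; cases hs
  | coe σ _ ih =>
    intro t' hs
    obtain ⟨u', h1, h2⟩ := ih hs
    exact ⟨u', h1, .coe σ h2⟩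
  | lam ha h ih =>
    intro t' hs
    cases hs with
    | lamL _ _ => exact ⟨_, .inl rfl, .lam ha h⟩
    | lamR _ hs =>
      obtain ⟨u', h1, h2⟩ := ih hs
      exact ⟨_, h1.imp (congrArg U.lam) UStep.lam, .lam ha h2⟩
  | lamIdle h ih =>
    intro t' hs
    cases hs with
    | lamL _ _ => exact ⟨_, .inl rfl, .lamIdle h⟩
    | lamR _ hs =>
      obtain ⟨u', h1, h2⟩ := ih hs
      exact ⟨_, h1.imp (congrArg U.lam) UStep.lam, .lamIdle h2⟩
  | tlam ha h ih =>
    intro t' hs
    cases hs with
    | lamL _ _ => exact ⟨_, .inl rfl, .tlam ha h⟩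
    | lamR _ hs =>
      obtain ⟨u', h1, h2⟩ := ih hs
      exact ⟨_, h1.imp (congrArg U.tlam) UStep.tlam, .tlam ha h2⟩
  | @app G f x u v σ a b ha hf hx ihf ihx =>
    intro t' hs
    cases hs with
    | beta A body _ =>
      cases hf with
      | coe _ h => obtain ⟨_, h'⟩ := h.lam_some; cases h'
      | lam ha' hb =>
        obtain ⟨rfl, rfl⟩ := ha.unique ha'
        refine ⟨_, .inr (.beta _ _), hb.inst (by simp) ?_⟩
        rintro o' ⟨⟩
        exact hx
      | lamIdle _ => exact ha.not_idle.elim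
      | tlam ha' _ => exact (ha.not_all ha').elim
    | appL _ hs =>
      obtain ⟨u', h1, h2⟩ := ihf hs
      exact ⟨_, h1.imp (congrArg (U.app · v)) (UStep.appL v), .app ha h2 hx⟩
    | appR _ hs =>
      obtain ⟨v', h1, h2⟩ := ihx hs
      exact ⟨_, h1.imp (congrArg (U.app u)) (UStep.appR u), .app ha hf h2⟩
  | @tapp G f x u σ b ha hf ihf =>
    intro t' hs
    cases hs with
    | beta A body _ =>
      cases hf with
      | coe _ h => obtain ⟨_, h'⟩ := h.lam_some; cases h'
      | lam ha' _ => exact (ha'.not_all ha).elim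
      | lamIdle _ => exact ha.not_idle.elim
      | tlam ha' hb =>
        obtain rfl := ha.unique ha'
        refine ⟨_, .inr (.tbeta _), hb.inst (by simp) ?_⟩
        rintro o' ⟨⟩
    | appL _ hs =>
      obtain ⟨u', h1, h2⟩ := ihf hs
      exact ⟨_, h1.imp (congrArg U.tapp) UStep.tapp, .tapp ha h2⟩
    | appR _ _ => exact ⟨_, .inl rfl, .tapp ha hf⟩
  | @appFree G f x u v o hf hx ihf ihx =>
    intro t' hs
    cases hs with
    | beta A body _ => obtain ⟨_, h'⟩ := hf.lam_some; cases h'
    | appL _ hs =>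
      obtain ⟨u', h1, h2⟩ := ihf hs
      exact ⟨_, h1.imp (congrArg (U.app · v)) (UStep.appL v), .appFree h2 hx⟩
    | appR _ hs =>
      obtain ⟨v', h1, h2⟩ := ihx hs
      exact ⟨_, h1.imp (congrArg (U.app u)) (UStep.appR u), .appFree hf h2⟩
  | @tappFree G f x u hf ihf =>
    intro t' hs
    cases hs with
    | beta A body _ => obtain ⟨_, h'⟩ := hf.lam_some; cases h'
    | appL _ hs =>
      obtain ⟨u', h1, h2⟩ := ihf hs
      exact ⟨_, h1.imp (congrArg U.tapp) UStep.tapp, .tappFree h2⟩
    | appR _ _ => exact ⟨_, .inl rfl, .tappFree hf⟩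

theorem Sh.red (h : Sh m G t o u) (hr : Red t t') :
    ∃ u', ReflTransGen UStep u u' ∧ Sh m G t' o u' := by
  induction hr with
  | refl => exact ⟨u, .refl, h⟩
  | tail _ hs ih =>
    obtain ⟨u', h1, h2⟩ := ih
    obtain ⟨u'', h3, h4⟩ := h2.step hs
    rcases h3 with rfl | h3
    · exact ⟨_, h1, h4⟩
    · exact ⟨_, h1.tail h3, h4⟩

/-- A skeleton that is an abstraction comes from an abstraction. -/
theorem Sh.of_binder (h : Sh m G t o u) (hu : (∃ w, u = .lam w) ∨ ∃ w, u = .tlam w) :
    ∃ A b, t = .lam A b := by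
  induction h with
  | coe σ _ ih => exact ih hu
  | lam => exact ⟨_, _, rfl⟩
  | lamIdle => exact ⟨_, _, rfl⟩
  | tlam => exact ⟨_, _, rfl⟩
  | _ => simp at hu

/-- The skeleton of a normal image is normal. -/
theorem Sh.normal (h : Sh m G t o u) (hn : IsNormal t) : u.Normal := by
  induction h with
  | var _ => intro v hv; cases hv
  | free _ => intro v hv; cases hv
  | coe σ _ ih => exact ih hn
  | lam _ _ ih =>
    intro v hv; cases hv with | lam hs => exact ih (fun N hN => hn _ (.lamR _ hN)) _ hs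
  | lamIdle _ ih =>
    intro v hv; cases hv with | lam hs => exact ih (fun N hN => hn _ (.lamR _ hN)) _ hs
  | tlam _ _ ih =>
    intro v hv; cases hv with | tlam hs => exact ih (fun N hN => hn _ (.lamR _ hN)) _ hs
  | app _ hf _ ihf ihx =>
    intro v hv
    cases hv with
    | beta w _ =>
      obtain ⟨A, b, rfl⟩ := hf.of_binder (.inl ⟨w, rfl⟩)
      exact hn _ (.beta _ _ _)
    | appL _ hs => exact ihf (fun N hN => hn _ (.appL _ hN)) _ hs
    | appR _ hs => exact ihx (fun N hN => hn _ (.appR _ hN)) _ hs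
  | tapp _ hf ihf =>
    intro v hv
    cases hv with
    | tbeta w =>
      obtain ⟨A, b, rfl⟩ := hf.of_binder (.inr ⟨w, rfl⟩)
      exact hn _ (.beta _ _ _)
    | tapp hs => exact ihf (fun N hN => hn _ (.appL _ hN)) _ hs
  | appFree hf _ ihf ihx =>
    intro v hv
    cases hv with
    | beta w _ =>
      obtain ⟨A, b, rfl⟩ := hf.of_binder (.inl ⟨w, rfl⟩)
      exact hn _ (.beta _ _ _)
    | appL _ hs => exact ihf (fun N hN => hn _ (.appL _ hN)) _ hs
    | appR _ hs => exact ihx (fun N hN => hn _ (.appR _ hN)) _ hs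
  | tappFree hf ihf =>
    intro v hv
    cases hv with
    | tbeta w =>
      obtain ⟨A, b, rfl⟩ := hf.of_binder (.inr ⟨w, rfl⟩)
      exact hn _ (.beta _ _ _)
    | tapp hs => exact ihf (fun N hN => hn _ (.appL _ hN)) _ hs

/-- If the image has a normal form, so has the skeleton. -/
theorem Sh.normalizes (h : Sh m G t o u) {N : Tm S} (hr : Red t N) (hN : IsNormal N) :
    ∃ v, ReflTransGen UStep u v ∧ v.Normal := by
  obtain ⟨v, h1, h2⟩ := h.red hr
  exact ⟨v, h1, h2.normal hN⟩

end Vale.Agent.P340
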