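import Vale.Agent.P340.UAlgebra

/-!
# Skeletons of one class and their translations

A skeleton keeps the abstractions and applications of the class, the variables whose colour is
the domain of a rule into it (the flag says whether that colour is in the class itself) and
binary nodes for everything else. `SkEv m t k u`: `u` is the translation of `t` with continuation
`k`, all negations having depth `m + 1`. `Rho m t r`: `r` keeps `t` at an answer type.
`Hat m fl t h`: `h` is the computational argument made from `t`. Unary wrappers and closed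
keepers are not constrained.
-/

namespace Vale.Agent.P340

/-- Skeletons of one class. -/
inductive Sk : Type
  | var (fl : Bool) (n : ℕ)
  | cst
  | lam (fl : Bool) (A b : Sk)
  | app (fl : Bool) (f a : Sk)
  | mem (p e : Sk)
  | node (a b : Sk)
  | bind (fl : Bool) (a b : Sk)

namespace Sk

/-- Renaming. -/
def ren (ξ : ℕ → ℕ) : Sk → Sk
  | .var fl n => .var fl (ξ n)
  | .cst => .cst
  | .lam fl A b => .lam fl (A.ren ξ) (b.ren (upr ξ))
  | .app fl f a => .app fl (f.ren ξ) (a.ren ξ)
  | .mem p e => .mem (p.ren ξ) (e.ren ξ)
  | .node a b => .node (a.ren ξ) (b.ren ξ)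
  | .bind fl a b => .bind fl (a.ren ξ) (b.ren (upr ξ))

/-- A substitution pushed under one binder. -/
def up (σ : Bool → ℕ → Sk) : Bool → ℕ → Sk
  | fl, 0 => .var fl 0
  | fl, n + 1 => (σ fl n).ren Nat.succ

/-- Substitution, which may depend on the flag of the variable. -/
def sub (σ : Bool → ℕ → Sk) : Sk → Sk
  | .var fl n => σ fl n
  | .cst => .cst
  | .lam fl A b => .lam fl (A.sub σ) (b.sub (up σ))
  | .app fl f a => .app fl (f.sub σ) (a.sub σ)
  | .mem p e => .mem (p.sub σ) (e.sub σ)
  | .node a b => .node (a.sub σ) (b.sub σ)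
  | .bind fl a b => .bind fl (a.sub σ) (b.sub (up σ))

/-- The substitution of one term for the variable bound last. -/
def sub0 (a : Sk) : Bool → ℕ → Sk
  | _, 0 => a
  | fl, n + 1 => .var fl n

/-- `b` with its last bound variable replaced by `a`. -/
def inst (b a : Sk) : Sk := b.sub (sub0 a)

/-- The variable occurs free with this flag. -/
def Occ (fl : Bool) : ℕ → Sk → Prop
  | n, .var fl' m => fl = fl' ∧ n = m
  | _, .cst => False
  | n, .lam _ A b => Occ fl n A ∨ Occ fl (n + 1) b
  | n, .app _ f a => Occ fl n f ∨ Occ fl n a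
  | n, .mem p e => Occ fl n p ∨ Occ fl n e
  | n, .node a b => Occ fl n a ∨ Occ fl n b
  | n, .bind _ a b => Occ fl n a ∨ Occ fl (n + 1) b

/-- A skeleton without a computation of its own. -/
def Stub : Sk → Prop
  | .cst => True
  | .node _ _ => True
  | .bind _ _ _ => True
  | _ => False

end Sk

/-- Contraction of `f` applied to `a`: argument and annotation are kept, pairs are transparent.
The bound variable occurs with the flag of its abstraction only. -/
inductive SkCtr (fl : Bool) : Sk → Sk → Sk → Prop
  | lam (A : Sk) {b : Sk} (a : Sk) : ¬ Sk.Occ (!fl) 0 b →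
      SkCtr fl (.lam fl A b) a (.mem (.mem (b.inst a) a) A)
  | mem {p a r : Sk} (e : Sk) : SkCtr fl p a r → SkCtr fl (.mem p e) a (.mem r e)

/-- One step of a skeleton. -/
inductive SkStep : Sk → Sk → Prop
  | beta {fl f a r} : SkCtr fl f a r → SkStep (.app fl f a) r
  | lamL {fl A A'} (b) : SkStep A A' → SkStep (.lam fl A b) (.lam fl A' b)
  | lamR {fl} (A) {b b'} : SkStep b b' → SkStep (.lam fl A b) (.lam fl A b')
  | appL {fl f f'} (a) : SkStep f f' → SkStep (.app fl f a) (.app fl f' a)
  | appR {fl} (f) {a a'} : SkStep a a' → SkStep (.app fl f a) (.app fl f a')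
  | memL {p p'} (e) : SkStep p p' → SkStep (.mem p e) (.mem p' e)
  | memR (p) {e e'} : SkStep e e' → SkStep (.mem p e) (.mem p e')
  | nodeL {a a'} (b) : SkStep a a' → SkStep (.node a b) (.node a' b)
  | nodeR (a) {b b'} : SkStep b b' → SkStep (.node a b) (.node a b')
  | bindL {fl a a'} (b) : SkStep a a' → SkStep (.bind fl a b) (.bind fl a' b)
  | bindR {fl} (a) {b b'} : SkStep b b' → SkStep (.bind fl a b) (.bind fl a b')

namespace U

/-- A unary wrapper (a free transport). -/
def wrap (x : U) : U := .app .cst x

/-- A binary merge (free, with both arguments retained). -/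
def merge (x y : U) : U := .app (.app .cst x) y

/-- Lifting along `j` double negations, used both for values and for continuations. -/
def lift : ℕ → U → U
  | 0, x => x
  | j + 1, x => .lam (wrap (.app (.var 0) ((lift j x).ren Nat.succ)))

/-- The continuation of the function part of an application. -/
def appCont (h k : U) : U :=
  .lam (wrap (.app (.app (.tapp (.tapp (.var 0))) (h.ren Nat.succ)) (k.ren Nat.succ)))

/-- No free variable. -/
def Closed (k : U) : Prop := ∀ n, ¬ Occ n k

/-- A value of an abstraction: two erased binders, the computational argument, the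
continuation. -/
def value (body : U) : U := .tlam (.tlam (.lam (.lam body)))

/-- A frozen binder. -/
def frozen (body : U) : U := .tlam (.tlam (.lam body))

end U

/-- Some number of wrappers. -/
inductive Wraps (x : U) : U → Prop
  | refl : Wraps x x
  | wrap {y : U} : Wraps x y → Wraps x (U.wrap y)

/-- Indices inside a value. -/
def valShift : ℕ → ℕ
  | 0 => 1
  | n + 1 => n + 4

/-- Indices inside a frozen binder. -/
def frozenShift : ℕ → ℕ
  | 0 => 0
  | n + 1 => n + 3

mutual

/-- `u` translates `t` with continuation `k`. -/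
inductive SkEv (m : ℕ) : Sk → U → U → Prop
  | var (n : ℕ) (k : U) : SkEv m (.var true n) k (.app (.var n) k)
  | lam {fl : Bool} {A b : Sk} {body : U} (k : U) :
      SkEv m (.mem (.mem (b.ren valShift) (.var fl 1)) (A.ren (· + 4))) (.var 0) body →
      SkEv m (.lam fl A b) k (.app k (U.lift m (U.value body)))
  | app {fl : Bool} {f a : Sk} {h k u : U} : Hat m fl a h →
      SkEv m f (U.lift m (U.appCont h k)) u → SkEv m (.app fl f a) k u
  | mem {p e : Sk} {k u r : U} : SkEv m p k u → Rho m e r → SkEv m (.mem p e) k (U.merge u r)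
  | stub {t : Sk} {k r y : U} : t.Stub → Rho m t r → Wraps (.app k (U.lift m .cst)) y →
      SkEv m t k (U.merge r y)
  | wrap {t : Sk} {k u : U} : SkEv m t k u → SkEv m t k (U.wrap u)

/-- `r` keeps `t` at an answer type. -/
inductive Rho (m : ℕ) : Sk → U → Prop
  | cst : Rho m .cst .cst
  | var (n : ℕ) : Rho m (.var false n) (.var n)
  | comp {t : Sk} {k u : U} : k.Closed → SkEv m t k u → Rho m t u
  | mem {p e : Sk} {x y : U} : Rho m p x → Rho m e y → Rho m (.mem p e) (U.merge x y)
  | node {a b : Sk} {x y : U} : Rho m a x → Rho m b y → Rho m (.node a b) (U.merge x y)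
  | bind {fl : Bool} {a b : Sk} {x K body y : U} : Rho m a x → K.Closed →
      Rho m (.mem (b.ren frozenShift) (.var fl 0)) body →
      Wraps (.app K (U.frozen body)) y → Rho m (.bind fl a b) (U.merge x y)
  | wrap {t : Sk} {r : U} : Rho m t r → Rho m t (U.wrap r)
  | mergeCst {t : Sk} {r : U} : Rho m t r → Rho m t (U.merge .cst r)

/-- `h` is the computational argument made from `t`. -/
inductive Hat (m : ℕ) : Bool → Sk → U → Prop
  | var (fl : Bool) (n : ℕ) : Hat m fl (.var fl n) (.var n)
  | thunk {t : Sk} {u : U} : SkEv m (t.ren Nat.succ) (.var 0) u → Hat m true t (.lam u)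
  | keep {t : Sk} {r : U} : Rho m t r → Hat m false t (U.merge .cst r)

end

end Vale.Agent.P340
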