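import Vale.Agent.P340.CpsSkAlg

/-!
# Substitution in the translations of skeletons of one class
-/

namespace Vale.Agent.P340

open Relation

variable {m : ℕ}

/-- Joint induction on the three relations. -/
theorem sk_induction {P : Sk → U → U → Prop} {Q : Sk → U → Prop}
    {R : Bool → Sk → U → Prop}
    (var : ∀ n k, P (.var true n) k (.app (.var n) k))
    (lam : ∀ {fl A b body} k,
      SkEv m (.mem (.mem (Sk.ren valShift b) (.var fl 1)) (Sk.ren (· + 4) A)) (.var 0) body →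
      P (.mem (.mem (Sk.ren valShift b) (.var fl 1)) (Sk.ren (· + 4) A)) (.var 0) body →
      P (.lam fl A b) k (.app k (U.lift m (U.value body))))
    (app : ∀ {fl f a h k u}, Hat m fl a h → SkEv m f (U.lift m (U.appCont h k)) u →
      R fl a h → P f (U.lift m (U.appCont h k)) u → P (.app fl f a) k u)
    (mem : ∀ {p e k u r}, SkEv m p k u → Rho m e r → P p k u → Q e r →
      P (.mem p e) k (U.merge u r))
    (stub : ∀ {t : Sk} {k r y}, t.Stub → Rho m t r → Wraps (.app k (U.lift m .cst)) y →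
      Q t r → P t k (U.merge r y))
    (wrap : ∀ {t k u}, SkEv m t k u → P t k u → P t k (U.wrap u))
    (rcst : Q .cst .cst)
    (rvar : ∀ n, Q (.var false n) (.var n))
    (rcomp : ∀ {t : Sk} {k u : U}, k.Closed → SkEv m t k u → P t k u → Q t u)
    (rmem : ∀ {p e x y}, Rho m p x → Rho m e y → Q p x → Q e y →
      Q (.mem p e) (U.merge x y))
    (rnode : ∀ {a b x y}, Rho m a x → Rho m b y → Q a x → Q b y →
      Q (.node a b) (U.merge x y))
    (rbind : ∀ {fl a b x} {K body y : U}, Rho m a x → K.Closed →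
      Rho m (.mem (Sk.ren frozenShift b) (.var fl 0)) body → Wraps (.app K (U.frozen body)) y →
      Q a x → Q (.mem (Sk.ren frozenShift b) (.var fl 0)) body →
      Q (.bind fl a b) (U.merge x y))
    (rwrap : ∀ {t r}, Rho m t r → Q t r → Q t (U.wrap r))
    (rmergeCst : ∀ {t r}, Rho m t r → Q t r → Q t (U.merge .cst r))
    (hvar : ∀ fl n, R fl (.var fl n) (.var n))
    (hthunk : ∀ {t u}, SkEv m (Sk.ren Nat.succ t) (.var 0) u →
      P (Sk.ren Nat.succ t) (.var 0) u → R true t (.lam u))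
    (hkeep : ∀ {t r}, Rho m t r → Q t r → R false t (U.merge .cst r)) :
    (∀ {t k u}, SkEv m t k u → P t k u) ∧ (∀ {t r}, Rho m t r → Q t r) ∧
      ∀ {fl t h}, Hat m fl t h → R fl t h :=
  ⟨fun h => SkEv.rec (motive_1 := fun t k u _ => P t k u) (motive_2 := fun t r _ => Q t r)
      (motive_3 := fun fl t u _ => R fl t u) var lam app mem stub wrap rcst rvar rcomp rmem rnode
      rbind rwrap rmergeCst hvar hthunk hkeep h,
    fun h => Rho.rec (motive_1 := fun t k u _ => P t k u) (motive_2 := fun t r _ => Q t r)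
      (motive_3 := fun fl t u _ => R fl t u) var lam app mem stub wrap rcst rvar rcomp rmem rnode
      rbind rwrap rmergeCst hvar hthunk hkeep h,
    fun h => Hat.rec (motive_1 := fun t k u _ => P t k u) (motive_2 := fun t r _ => Q t r)
      (motive_3 := fun fl t u _ => R fl t u) var lam app mem stub wrap rcst rvar rcomp rmem rnode
      rbind rwrap rmergeCst hvar hthunk hkeep h⟩

theorem SkEv.wraps {t : Sk} {k x y : U} (h : SkEv m t k x) (hy : Wraps x y) : SkEv m t k y := by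
  induction hy with
  | refl => exact h
  | wrap _ ih => exact .wrap ih

/-- The substitutions agree, as variables, on the variables of `t`. -/
def SkVarOn (t : Sk) (σ : Bool → ℕ → Sk) (τ : ℕ → U) : Prop :=
  ∀ fl n, Sk.Occ fl n t → ∃ j, σ fl n = .var fl j ∧ τ n = .var j

/-- The substitution inside a value. -/
def valSub (σ : Bool → ℕ → Sk) : Bool → ℕ → Sk :=
  Sk.up (Sk.up (Sk.up (Sk.up σ)))

/-- The substitution inside a frozen binder. -/
def frozenSub (σ : Bool → ℕ → Sk) : Bool → ℕ → Sk :=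
  Sk.up (Sk.up (Sk.up σ))

theorem valSub_body (σ : Bool → ℕ → Sk) (fl : Bool) (A b : Sk) :
    (Sk.mem (.mem (b.ren valShift) (.var fl 1)) (A.ren (· + 4))).sub (valSub σ) =
      .mem (.mem ((b.sub (Sk.up σ)).ren valShift) (.var fl 1)) ((A.sub σ).ren (· + 4)) := by
  simp only [Sk.sub, Sk.sub_ren, Sk.ren_sub]
  congr 2
  · congr 1
    funext fl n
    cases n <;> simp [valShift, valSub, Sk.ren, Function.comp_def]
  · funext fl n
    simp [valSub, Function.comp_def]

theorem frozenSub_body (σ : Bool → ℕ → Sk) (fl : Bool) (b : Sk) :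
    (Sk.mem (b.ren frozenShift) (.var fl 0)).sub (frozenSub σ) =
      .mem ((b.sub (Sk.up σ)).ren frozenShift) (.var fl 0) := by
  simp only [Sk.sub, Sk.sub_ren, Sk.ren_sub]
  congr 2
  funext fl n
  cases n <;> simp [frozenShift, frozenSub, Sk.ren, Function.comp_def]

theorem occ_val_body {fl fl' : Bool} {A b : Sk} {n : ℕ}
    (h : Sk.Occ fl' (n + 4) (.mem (.mem (b.ren valShift) (.var fl 1)) (A.ren (· + 4)))) :
    Sk.Occ fl' n (.lam fl A b) := by
  simp only [Sk.Occ, Sk.occ_ren] at h ⊢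
  rcases h with (⟨j, hj, e⟩ | ⟨_, e⟩) | ⟨j, hj, e⟩
  · cases j with
    | zero => simp [valShift] at e
    | succ j =>
      obtain rfl : j = n := by simpa [valShift] using e
      exact .inr hj
  · omega
  · obtain rfl : j = n := by simpa using e
    exact .inl hj

theorem occ_frozen_body {fl fl' : Bool} {a b : Sk} {n : ℕ}
    (h : Sk.Occ fl' (n + 3) (.mem (b.ren frozenShift) (.var fl 0))) :
    Sk.Occ fl' n (.bind fl a b) := by
  simp only [Sk.Occ, Sk.occ_ren] at h ⊢
  rcases h with ⟨j, hj, e⟩ | ⟨_, e⟩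
  · cases j with
    | zero => simp [frozenShift] at e
    | succ j =>
      obtain rfl : j = n := by simpa [frozenShift] using e
      exact .inr hj
  · omega

theorem SkVarOn.up {t : Sk} {σ : Bool → ℕ → Sk} {τ : ℕ → U}
    (h : ∀ fl n, Sk.Occ fl (n + 1) t → ∃ j, σ fl n = .var fl j ∧ τ n = .var j) :
    SkVarOn t (Sk.up σ) (U.up τ) := by
  intro fl n hn
  cases n with
  | zero => exact ⟨0, rfl, rfl⟩
  | succ n =>
    obtain ⟨j, h1, h2⟩ := h fl n hn
    exact ⟨j + 1, by simp [h1, Sk.ren], by simp [h2]⟩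

theorem SkVarOn.succ {t : Sk} {σ : Bool → ℕ → Sk} {τ : ℕ → U} (h : SkVarOn t σ τ) :
    SkVarOn (t.ren Nat.succ) (Sk.up σ) (U.up τ) :=
  SkVarOn.up fun fl n hn => h fl n ((Sk.occ_succ fl t n).1 hn)

theorem SkVarOn.val {fl : Bool} {A b : Sk} {σ : Bool → ℕ → Sk} {τ : ℕ → U}
    (h : SkVarOn (.lam fl A b) σ τ) :
    SkVarOn (.mem (.mem (b.ren valShift) (.var fl 1)) (A.ren (· + 4))) (valSub σ)
      (U.up (U.up (U.up (U.up τ)))) := by
  intro f n hn
  rcases n with _ | _ | _ | _ | n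
  iterate 4 exact ⟨_, rfl, rfl⟩
  obtain ⟨j, h1, h2⟩ := h f n (occ_val_body hn)
  exact ⟨j + 4, by simp [valSub, h1, Sk.ren], by simp [h2]⟩

theorem SkVarOn.frozen {fl : Bool} {a b : Sk} {σ : Bool → ℕ → Sk} {τ : ℕ → U}
    (h : SkVarOn (.bind fl a b) σ τ) :
    SkVarOn (.mem (b.ren frozenShift) (.var fl 0)) (frozenSub σ) (U.up (U.up (U.up τ))) := by
  intro f n hn
  rcases n with _ | _ | _ | n
  iterate 3 exact ⟨_, rfl, rfl⟩
  obtain ⟨j, h1, h2⟩ := h f n (occ_frozen_body hn)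
  exact ⟨j + 3, by simp [frozenSub, h1, Sk.ren], by simp [h2]⟩

theorem sk_vsub :
    (∀ {t k u}, SkEv m t k u → ∀ σ τ, SkVarOn t σ τ → SkEv m (t.sub σ) (k.sub τ) (u.sub τ)) ∧
      (∀ {t r}, Rho m t r → ∀ σ τ, SkVarOn t σ τ → Rho m (t.sub σ) (r.sub τ)) ∧
      ∀ {fl t h}, Hat m fl t h → ∀ σ τ, SkVarOn t σ τ → Hat m fl (t.sub σ) (h.sub τ) := by
  apply sk_induction
  · intro n k σ τ h
    obtain ⟨j, h1, h2⟩ := h true n ⟨rfl, rfl⟩
    simp only [Sk.sub, U.sub_app, U.sub_var, h1, h2]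
    exact .var j _
  · intro fl A b body k _ ih σ τ h
    simp only [Sk.sub, U.sub_app, U.lift_sub, U.value_sub]
    refine SkEv.lam _ ?_
    rw [← valSub_body]
    exact ih _ _ (SkVarOn.val h)
  · intro fl f a hh k u _ _ iha ihf σ τ h
    refine SkEv.app (iha σ τ fun f n hn => h f n (.inr hn)) ?_
    simpa using ihf σ τ fun f n hn => h f n (.inl hn)
  · intro p e k u r _ _ ihp ihe σ τ h
    exact SkEv.mem (ihp σ τ fun f n hn => h f n (.inl hn)) (ihe σ τ fun f n hn => h f n (.inr hn))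
  · intro t k r y ht _ hy ih σ τ h
    exact SkEv.stub (ht.sub σ) (ih σ τ h) (by simpa using hy.sub τ)
  · intro t k u _ ih σ τ h
    exact SkEv.wrap (ih σ τ h)
  · intro σ τ _; exact Rho.cst
  · intro n σ τ h
    obtain ⟨j, h1, h2⟩ := h false n ⟨rfl, rfl⟩
    simp only [Sk.sub, U.sub_var, h1, h2]
    exact .var j
  · intro t k u hk _ ih σ τ h
    have := ih σ τ h
    rw [hk.sub_eq] at this
    exact .comp hk this
  · intro p e x y _ _ ihp ihe σ τ h
    exact Rho.mem (ihp σ τ fun f n hn => h f n (.inl hn)) (ihe σ τ fun f n hn => h f n (.inr hn))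
  · intro a b x y _ _ iha ihb σ τ h
    exact Rho.node (iha σ τ fun f n hn => h f n (.inl hn)) (ihb σ τ fun f n hn => h f n (.inr hn))
  · intro fl a b x K body y _ hK _ hy iha ihb σ τ h
    simp only [Sk.sub, U.merge_sub]
    refine Rho.bind (body := body.sub (U.up (U.up (U.up τ))))
      (iha σ τ fun f n hn => h f n (.inl hn)) hK ?_
      (by simpa [U.frozen_sub, hK.sub_eq] using hy.sub τ)
    rw [← frozenSub_body]
    exact ihb _ _ (SkVarOn.frozen h)
  · intro t r _ ih σ τ h; exact Rho.wrap (ih σ τ h)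
  · intro t r _ ih σ τ h; exact Rho.mergeCst (ih σ τ h)
  · intro fl n σ τ h
    obtain ⟨j, h1, h2⟩ := h fl n ⟨rfl, rfl⟩
    simp only [Sk.sub, U.sub_var, h1, h2]
    exact .var fl j
  · intro t u _ ih σ τ h
    refine Hat.thunk ?_
    have := ih _ _ h.succ
    simpa [Sk.sub_ren, Sk.ren_sub] using this
  · intro t r _ ih σ τ h
    exact Hat.keep (ih σ τ h)

theorem Hat.ren {fl : Bool} {t : Sk} {h : U} (hh : Hat m fl t h) (ξ : ℕ → ℕ) :
    Hat m fl (t.ren ξ) (h.ren ξ) := by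
  rw [Sk.ren_eq_sub t, U.ren_eq_sub h]
  exact sk_vsub.2.2 hh _ _ fun fl n _ => ⟨ξ n, rfl, rfl⟩

/-- A reduction of the continuation is a reduction of the translation. -/
theorem SkEv.mono_plus' {t : Sk} {k u : U} (h : SkEv m t k u) :
    ∀ {k'}, UPlus k k' → ∃ u', UPlus u u' ∧ SkEv m t k' u' := by
  refine (sk_induction (Q := fun _ _ => True) (R := fun _ _ _ => True)
    (P := fun t k u => ∀ {k'}, UPlus k k' → ∃ u', UPlus u u' ∧ SkEv m t k' u')
    ?_ ?_ ?_ ?_ ?_ ?_ trivial (fun _ => trivial) (fun _ _ _ => trivial)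
    (fun _ _ _ _ => trivial) (fun _ _ _ _ => trivial) (fun _ _ _ _ _ _ => trivial)
    (fun _ _ => trivial) (fun _ _ => trivial) (fun _ _ => trivial) (fun _ _ => trivial)
    (fun _ _ => trivial)).1 h
  · intro n k k' hs; exact ⟨_, hs.appR _, .var n k'⟩
  · intro fl A b body k hb _ k' hs; exact ⟨_, hs.appL _, .lam k' hb⟩
  · intro fl f a hh k u ha _ _ ih k' hs
    obtain ⟨u', h1, h2⟩ := ih (U.lift_plus m (((hs.ren _).appR _).appR _).lam)
    exact ⟨u', h1, .app ha h2⟩
  · intro p e k u r _ he ih _ k' hs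
    obtain ⟨u', h1, h2⟩ := ih hs
    exact ⟨_, (h1.appR _).appL _, .mem h2 he⟩
  · intro t k r y ht hr hy _ k' hs
    obtain ⟨y', h1, h2⟩ := hy.plus (hs.appL _)
    exact ⟨_, h1.appR _, .stub ht hr h2⟩
  · intro t k u _ ih k' hs
    obtain ⟨u', h1, h2⟩ := ih hs
    exact ⟨_, h1.appR _, .wrap h2⟩

theorem SkEv.mono_red' {t : Sk} {k k' u : U} (h : SkEv m t k u) (hs : URed k k') :
    ∃ u', URed u u' ∧ SkEv m t k' u' := by
  rcases reflTransGen_iff_eq_or_transGen.1 hs with rfl | hs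
  · exact ⟨u, .refl, h⟩
  · obtain ⟨u', h1, h2⟩ := h.mono_plus' hs
    exact ⟨u', h1.to_reflTransGen, h2⟩

/-- Every variable of `t` is sent to a skeleton and a computational argument made from it. -/
def HatOn (m : ℕ) (t : Sk) (σ : Bool → ℕ → Sk) (τ : ℕ → U) : Prop :=
  ∀ fl n, Sk.Occ fl n t → Hat m fl (σ fl n) (τ n)

theorem HatOn.up {t : Sk} {σ : Bool → ℕ → Sk} {τ : ℕ → U}
    (h : ∀ fl n, Sk.Occ fl (n + 1) t → Hat m fl (σ fl n) (τ n)) :
    HatOn m t (Sk.up σ) (U.up τ) := by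
  intro fl n hn
  cases n with
  | zero => exact .var fl 0
  | succ n => exact (h fl n hn).ren _

theorem HatOn.succ {t : Sk} {σ : Bool → ℕ → Sk} {τ : ℕ → U} (h : HatOn m t σ τ) :
    HatOn m (t.ren Nat.succ) (Sk.up σ) (U.up τ) :=
  HatOn.up fun fl n hn => h fl n ((Sk.occ_succ fl t n).1 hn)

theorem HatOn.val {fl : Bool} {A b : Sk} {σ : Bool → ℕ → Sk} {τ : ℕ → U}
    (h : HatOn m (.lam fl A b) σ τ) :
    HatOn m (.mem (.mem (b.ren valShift) (.var fl 1)) (A.ren (· + 4))) (valSub σ)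
      (U.up (U.up (U.up (U.up τ)))) := by
  intro f n hn
  rcases n with _ | _ | _ | _ | n
  iterate 4 exact .var _ _
  simpa [valSub, Function.comp_def] using
    ((((h f n (occ_val_body hn)).ren Nat.succ).ren Nat.succ).ren Nat.succ).ren Nat.succ

theorem HatOn.frozen {fl : Bool} {a b : Sk} {σ : Bool → ℕ → Sk} {τ : ℕ → U}
    (h : HatOn m (.bind fl a b) σ τ) :
    HatOn m (.mem (b.ren frozenShift) (.var fl 0)) (frozenSub σ) (U.up (U.up (U.up τ))) := by
  intro f n hn
  rcases n with _ | _ | _ | n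
  iterate 3 exact .var _ _
  simpa [frozenSub, Function.comp_def] using
    (((h f n (occ_frozen_body hn)).ren Nat.succ).ren Nat.succ).ren Nat.succ

theorem sk_sub :
    (∀ {t k u}, SkEv m t k u → ∀ σ τ, HatOn m t σ τ →
        ∃ u', URed (u.sub τ) u' ∧ SkEv m (t.sub σ) (k.sub τ) u') ∧
      (∀ {t r}, Rho m t r → ∀ σ τ, HatOn m t σ τ →
        ∃ r', URed (r.sub τ) r' ∧ Rho m (t.sub σ) r') ∧
      ∀ {fl t h}, Hat m fl t h → ∀ σ τ, HatOn m t σ τ →
        ∃ h', URed (h.sub τ) h' ∧ Hat m fl (t.sub σ) h' := by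
  apply sk_induction
  · intro n k σ τ h
    have hh := h true n ⟨rfl, rfl⟩
    simp only [Sk.sub, U.sub_app, U.sub_var]
    generalize σ true n = s at hh
    generalize τ n = v at hh
    cases hh with
    | var _ j => exact ⟨_, .refl, .var j _⟩
    | @thunk _ tb hb =>
      refine ⟨tb.inst (k.sub τ), .single (.beta _ _), ?_⟩
      have := sk_vsub.1 hb (fun fl n => n.casesOn .cst (Sk.var fl)) (U.sub0 (k.sub τ))
        fun fl j hj => by
          cases j with
          | zero => exact absurd hj (Sk.not_occ_zero_succ _ _)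
          | succ j => exact ⟨j, rfl, rfl⟩
      simpa [U.inst, Sk.sub_ren] using this
  · intro fl A b body k _ ih σ τ h
    obtain ⟨u', h1, h2⟩ := ih (valSub σ) (U.up (U.up (U.up (U.up τ))))
      (HatOn.val h)
    rw [valSub_body] at h2
    simp only [Sk.sub, U.sub_app, U.lift_sub, U.value_sub]
    exact ⟨_, URed.app .refl (U.lift_red m (URed.tlam (URed.tlam (URed.lam (URed.lam h1))))),
      .lam _ h2⟩
  · intro fl f a hh k u _ _ iha ihf σ τ h
    obtain ⟨h', hv1, hv2⟩ := iha σ τ fun f n hn => h f n (.inr hn)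
    obtain ⟨u', ht1, ht2⟩ := ihf σ τ fun f n hn => h f n (.inl hn)
    simp only [U.lift_sub, U.appCont_sub] at ht2
    obtain ⟨u'', h1, h2⟩ := ht2.mono_red' (U.lift_red m
      (URed.app .refl (URed.app (URed.app .refl (hv1.ren _)) .refl)).lam)
    exact ⟨u'', ht1.trans h1, .app hv2 h2⟩
  · intro p e k u r _ _ ihp ihe σ τ h
    obtain ⟨u', h1, h2⟩ := ihp σ τ fun f n hn => h f n (.inl hn)
    obtain ⟨r', h3, h4⟩ := ihe σ τ fun f n hn => h f n (.inr hn)
    exact ⟨_, URed.app (URed.app .refl h1) h3, .mem h2 h4⟩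
  · intro t k r y ht _ hy ih σ τ h
    obtain ⟨r', h1, h2⟩ := ih σ τ h
    exact ⟨_, URed.app (URed.app .refl h1) .refl,
      .stub (ht.sub σ) h2 (by simpa using hy.sub τ)⟩
  · intro t k u _ ih σ τ h
    obtain ⟨u', h1, h2⟩ := ih σ τ h
    exact ⟨_, URed.app .refl h1, .wrap h2⟩
  · intro σ τ _; exact ⟨_, .refl, Rho.cst⟩
  · intro n σ τ h
    have hh := h false n ⟨rfl, rfl⟩
    simp only [Sk.sub, U.sub_var]
    generalize σ false n = s at hh
    generalize τ n = v at hh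
    cases hh with
    | var _ j => exact ⟨_, .refl, .var j⟩
    | keep hr => exact ⟨_, .refl, .mergeCst hr⟩
  · intro t k u hk _ ih σ τ h
    obtain ⟨u', h1, h2⟩ := ih σ τ h
    rw [hk.sub_eq] at h2
    exact ⟨u', h1, .comp hk h2⟩
  · intro p e x y _ _ ihp ihe σ τ h
    obtain ⟨x', h1, h2⟩ := ihp σ τ fun f n hn => h f n (.inl hn)
    obtain ⟨y', h3, h4⟩ := ihe σ τ fun f n hn => h f n (.inr hn)
    exact ⟨_, URed.app (URed.app .refl h1) h3, .mem h2 h4⟩
  · intro a b x y _ _ iha ihb σ τ h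
    obtain ⟨x', h1, h2⟩ := iha σ τ fun f n hn => h f n (.inl hn)
    obtain ⟨y', h3, h4⟩ := ihb σ τ fun f n hn => h f n (.inr hn)
    exact ⟨_, URed.app (URed.app .refl h1) h3, .node h2 h4⟩
  · intro fl a b x K body y _ hK _ hy iha ihb σ τ h
    obtain ⟨x', h1, h2⟩ := iha σ τ fun f n hn => h f n (.inl hn)
    obtain ⟨b', h3, h4⟩ := ihb (frozenSub σ) (U.up (U.up (U.up τ)))
      (HatOn.frozen h)
    rw [frozenSub_body] at h4
    have hy' := hy.sub τ
    simp only [U.sub_app, hK.sub_eq, U.frozen_sub] at hy'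
    obtain ⟨y', h5, h6⟩ := hy'.red (URed.app .refl (URed.tlam (URed.tlam (URed.lam h3))))
    exact ⟨_, URed.app (URed.app .refl h1) h5, .bind h2 hK h4 h6⟩
  · intro t r _ ih σ τ h
    obtain ⟨r', h1, h2⟩ := ih σ τ h
    exact ⟨_, URed.app .refl h1, .wrap h2⟩
  · intro t r _ ih σ τ h
    obtain ⟨r', h1, h2⟩ := ih σ τ h
    exact ⟨_, URed.app .refl h1, .mergeCst h2⟩
  · intro fl n σ τ h
    exact ⟨_, .refl, h fl n ⟨rfl, rfl⟩⟩
  · intro t u _ ih σ τ h
    obtain ⟨u', h1, h2⟩ := ih _ _ h.succ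
    exact ⟨_, h1.lam, .thunk (by simpa [Sk.sub_ren, Sk.ren_sub] using h2)⟩
  · intro t r _ ih σ τ h
    obtain ⟨r', h1, h2⟩ := ih σ τ h
    exact ⟨_, URed.app .refl h1, .keep h2⟩

end Vale.Agent.P340
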