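import Vale.Agent.P340.Cps
import Vale.Agent.P340.UOcc

/-!
# Substitution and reduction of continuations in the one-level translation
-/

namespace Vale.Agent.P340

open Relation

/-- Joint induction on the three relations of the translation. -/
theorem cps_induction {P : U → U → U → Prop} {Q R : U → U → Prop}
    (var : ∀ n k, P (.var n) k (.app (.var n) k))
    (cst : ∀ k, P .cst k (.app k .cst))
    (lam : ∀ {b t} k, Ev (b.ren Nat.succ) (.var 0) t → P (b.ren Nat.succ) (.var 0) t →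
      P (.lam b) k (.app k (.lam (.lam (.app (.app (.tapp .cst) t) (.var 1))))))
    (tlam : ∀ {b t} k, Ev (b.ren Nat.succ) (.var 0) t → P (b.ren Nat.succ) (.var 0) t →
      P (.tlam b) k (.app k (.tlam (.lam t))))
    (app : ∀ {f a v k t}, Th (a.ren Nat.succ) v →
      Ev f (.lam (.app (.app (.var 0) v) (k.ren Nat.succ))) t → Q (a.ren Nat.succ) v →
      P f (.lam (.app (.app (.var 0) v) (k.ren Nat.succ))) t → P (.app f a) k t)
    (tapp : ∀ {f k t}, Ev f (.lam (.app (.tapp (.var 0)) (k.ren Nat.succ))) t →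
      P f (.lam (.app (.tapp (.var 0)) (k.ren Nat.succ))) t → P (.tapp f) k t)
    (upi : ∀ {a b a' b'} k, Run a a' → Run b b' → R a a' → R b b' →
      P (.upi a b) k (.app k (.upi a' b')))
    (upiC : ∀ {b b'} k, Run b b' → R b b' → P (.upi .cst b) k (.app k (.upi .cst b')))
    (keep : ∀ {u k t} e, Ev u k t → P u k t → P u k (.app (.app (.tapp .cst) t) e))
    (tvar : ∀ n, Q (.var n) (.var n))
    (tlam' : ∀ {u t}, Ev (u.ren Nat.succ) (.var 0) t → P (u.ren Nat.succ) (.var 0) t →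
      Q u (.lam t))
    (run : ∀ {u v}, Th u v → Q u v → R u (.app .cst (.app v (.lam (.app .cst (.var 0)))))) :
    (∀ {u k t}, Ev u k t → P u k t) ∧ (∀ {u t}, Th u t → Q u t) ∧
      ∀ {u t}, Run u t → R u t :=
  ⟨fun h => Ev.rec (motive_1 := fun u k t _ => P u k t) (motive_2 := fun u t _ => Q u t)
      (motive_3 := fun u t _ => R u t) var cst lam tlam app tapp upi upiC keep tvar tlam' run h,
    fun h => Th.rec (motive_1 := fun u k t _ => P u k t) (motive_2 := fun u t _ => Q u t)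
      (motive_3 := fun u t _ => R u t) var cst lam tlam app tapp upi upiC keep tvar tlam' run h,
    fun h => Run.rec (motive_1 := fun u k t _ => P u k t) (motive_2 := fun u t _ => Q u t)
      (motive_3 := fun u t _ => R u t) var cst lam tlam app tapp upi upiC keep tvar tlam' run h⟩

/-- The two substitutions agree, as variables, on the variables of `u`. -/
def VarOn (u : U) (σ τ : ℕ → U) : Prop :=
  ∀ n, U.Occ n u → ∃ m, σ n = .var m ∧ τ n = .var m

theorem VarOn.up {u : U} {σ τ : ℕ → U} (h : ∀ n, U.Occ (n + 1) u → ∃ m,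
    σ n = .var m ∧ τ n = .var m) : VarOn u (U.up σ) (U.up τ) := by
  intro n hn
  cases n with
  | zero => exact ⟨0, rfl, rfl⟩
  | succ n =>
    obtain ⟨m, h1, h2⟩ := h n hn
    exact ⟨m + 1, by simp [h1], by simp [h2]⟩

theorem VarOn.succ {u : U} {σ τ : ℕ → U} (h : VarOn u σ τ) :
    VarOn (u.ren Nat.succ) (U.up σ) (U.up τ) :=
  VarOn.up fun n hn => h n ((U.occ_succ u n).1 hn)

theorem VarOn.body {b : U} {σ τ : ℕ → U} (h : ∀ n, U.Occ (n + 1) b → ∃ m,
    σ n = .var m ∧ τ n = .var m) : VarOn (b.ren Nat.succ) (U.up (U.up σ)) (U.up (U.up τ)) :=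
  (VarOn.up h).succ

theorem cps_vsub :
    (∀ {u k t}, Ev u k t → ∀ σ τ, VarOn u σ τ → Ev (u.sub σ) (k.sub τ) (t.sub τ)) ∧
      (∀ {u t}, Th u t → ∀ σ τ, VarOn u σ τ → Th (u.sub σ) (t.sub τ)) ∧
      ∀ {u t}, Run u t → ∀ σ τ, VarOn u σ τ → Run (u.sub σ) (t.sub τ) := by
  apply cps_induction
  · intro n k σ τ h
    obtain ⟨m, h1, h2⟩ := h n rfl
    simp only [U.sub_var, U.sub_app, h1, h2]
    exact .var m _
  · intro k σ τ _
    exact .cst _
  · intro b t k _ ih σ τ h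
    refine Ev.lam _ ?_
    rw [← U.ren_succ_sub]
    exact ih _ _ (VarOn.body fun n hn => h n hn)
  · intro b t k _ ih σ τ h
    refine Ev.tlam _ ?_
    rw [← U.ren_succ_sub]
    exact ih _ _ (VarOn.body fun n hn => h n hn)
  · intro f a v k t _ _ iha ihf σ τ h
    refine Ev.app (v := v.sub (U.up τ)) ?_ ?_
    · rw [← U.ren_succ_sub]
      exact iha _ _ (VarOn.succ fun n hn => h n (.inr hn))
    · rw [← U.ren_succ_sub]
      exact ihf σ τ fun n hn => h n (.inl hn)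
  · intro f k t _ ih σ τ h
    refine Ev.tapp ?_
    rw [← U.ren_succ_sub]
    exact ih σ τ h
  · intro a b a' b' k _ _ iha ihb σ τ h
    exact Ev.upi _ (iha σ τ fun n hn => h n (.inl hn))
      (ihb _ _ (VarOn.up fun n hn => h n (.inr hn)))
  · intro b b' k _ ihb σ τ h
    exact Ev.upiC _ (ihb _ _ (VarOn.up fun n hn => h n (.inr hn)))
  · intro u k t e _ ih σ τ h
    exact Ev.keep _ (ih σ τ h)
  · intro n σ τ h
    obtain ⟨m, h1, h2⟩ := h n rfl
    simp only [U.sub_var, h1, h2]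
    exact .var m
  · intro u t _ ih σ τ h
    refine Th.lam ?_
    rw [← U.ren_succ_sub]
    exact ih _ _ h.succ
  · intro u v _ ih σ τ h
    exact Run.mk (ih σ τ h)

theorem Th.ren {u t : U} (h : Th u t) (ξ : ℕ → ℕ) : Th (u.ren ξ) (t.ren ξ) := by
  rw [U.ren_eq_sub u, U.ren_eq_sub t]
  exact cps_vsub.2.1 h _ _ fun n _ => ⟨ξ n, rfl, rfl⟩

/-- A step of the continuation is a step of the translation. -/
theorem Ev.mono {u k t : U} (h : Ev u k t) :
    ∀ {k'}, UStep k k' → ∃ t', UStep t t' ∧ Ev u k' t' := by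
  refine (cps_induction (Q := fun _ _ => True) (R := fun _ _ => True)
    (P := fun u k t => ∀ {k'}, UStep k k' → ∃ t', UStep t t' ∧ Ev u k' t')
    ?_ ?_ ?_ ?_ ?_ ?_ ?_ ?_ ?_ (fun _ => trivial) (fun _ _ => trivial)
    (fun _ _ => trivial)).1 h
  · intro n k k' hs; exact ⟨_, .appR _ hs, .var n k'⟩
  · intro k k' hs; exact ⟨_, .appL _ hs, .cst k'⟩
  · intro b t k hb _ k' hs; exact ⟨_, .appL _ hs, .lam k' hb⟩
  · intro b t k hb _ k' hs; exact ⟨_, .appL _ hs, .tlam k' hb⟩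
  · intro f a v k t ha _ _ ih k' hs
    obtain ⟨t', h1, h2⟩ := ih (.lam (.appR _ (hs.ren _)))
    exact ⟨t', h1, .app ha h2⟩
  · intro f k t _ ih k' hs
    obtain ⟨t', h1, h2⟩ := ih (.lam (.appR _ (hs.ren _)))
    exact ⟨t', h1, .tapp h2⟩
  · intro a b a' b' k ha hb _ _ k' hs; exact ⟨_, .appL _ hs, .upi k' ha hb⟩
  · intro b b' k hb _ k' hs; exact ⟨_, .appL _ hs, .upiC k' hb⟩
  · intro u k t e _ ih k' hs
    obtain ⟨t', h1, h2⟩ := ih hs
    exact ⟨_, .appL _ (.appR _ h1), .keep e h2⟩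

theorem Ev.mono_red {u k k' t : U} (h : Ev u k t) (hs : URed k k') :
    ∃ t', URed t t' ∧ Ev u k' t' := by
  induction hs with
  | refl => exact ⟨t, .refl, h⟩
  | tail _ hs ih =>
    obtain ⟨t', h1, h2⟩ := ih
    obtain ⟨t'', h3, h4⟩ := h2.mono hs
    exact ⟨t'', h1.tail h3, h4⟩

theorem Ev.mono_plus {u k k' t : U} (h : Ev u k t) (hs : UPlus k k') :
    ∃ t', UPlus t t' ∧ Ev u k' t' := by
  induction hs with
  | single hs =>
    obtain ⟨t', h1, h2⟩ := h.mono hs
    exact ⟨t', .single h1, h2⟩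
  | tail _ hs ih =>
    obtain ⟨t', h1, h2⟩ := ih
    obtain ⟨t'', h3, h4⟩ := h2.mono hs
    exact ⟨t'', h1.tail h3, h4⟩

/-- The substitutions send every variable of `u` to a skeleton and one of its thunks. -/
def ThOn (u : U) (σ τ : ℕ → U) : Prop :=
  ∀ n, U.Occ n u → Th (σ n) (τ n)

theorem ThOn.up {u : U} {σ τ : ℕ → U} (h : ∀ n, U.Occ (n + 1) u → Th (σ n) (τ n)) :
    ThOn u (U.up σ) (U.up τ) := by
  intro n hn
  cases n with
  | zero => exact .var 0
  | succ n => exact (h n hn).ren _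

theorem ThOn.succ {u : U} {σ τ : ℕ → U} (h : ThOn u σ τ) :
    ThOn (u.ren Nat.succ) (U.up σ) (U.up τ) :=
  ThOn.up fun n hn => h n ((U.occ_succ u n).1 hn)

theorem ThOn.body {b : U} {σ τ : ℕ → U} (h : ∀ n, U.Occ (n + 1) b → Th (σ n) (τ n)) :
    ThOn (b.ren Nat.succ) (U.up (U.up σ)) (U.up (U.up τ)) :=
  (ThOn.up h).succ

theorem cps_sub :
    (∀ {u k t}, Ev u k t → ∀ σ τ, ThOn u σ τ →
        ∃ t', URed (t.sub τ) t' ∧ Ev (u.sub σ) (k.sub τ) t') ∧
      (∀ {u t}, Th u t → ∀ σ τ, ThOn u σ τ → ∃ t', URed (t.sub τ) t' ∧ Th (u.sub σ) t') ∧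
      ∀ {u t}, Run u t → ∀ σ τ, ThOn u σ τ → ∃ t', URed (t.sub τ) t' ∧ Run (u.sub σ) t' := by
  apply cps_induction
  · intro n k σ τ h
    have hth := h n rfl
    generalize hs : σ n = s at hth
    generalize ht : τ n = v at hth
    simp only [U.sub_var, U.sub_app, hs, ht]
    cases hth with
    | var m => exact ⟨_, .refl, .var m _⟩
    | @lam _ tb hb =>
      refine ⟨tb.inst (k.sub τ), .single (.beta _ _), ?_⟩
      have := cps_vsub.1 hb (U.sub0 (k.sub τ)) (U.sub0 (k.sub τ)) fun m hm => by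
        cases m with
        | zero => exact absurd hm (U.not_occ_zero_succ _)
        | succ m => exact ⟨m, rfl, rfl⟩
      simpa [U.inst, Function.comp_def] using this
  · intro k σ τ _
    exact ⟨_, .refl, .cst _⟩
  · intro b t k _ ih σ τ h
    obtain ⟨t', h1, h2⟩ := ih _ _ (ThOn.body fun n hn => h n hn)
    rw [U.ren_succ_sub] at h2
    exact ⟨_, URed.app .refl (URed.lam (URed.lam (URed.app (URed.app .refl h1) .refl))),
      .lam _ h2⟩
  · intro b t k _ ih σ τ h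
    obtain ⟨t', h1, h2⟩ := ih _ _ (ThOn.body fun n hn => h n hn)
    rw [U.ren_succ_sub] at h2
    exact ⟨_, URed.app .refl (URed.tlam (URed.lam h1)), .tlam _ h2⟩
  · intro f a v k t _ _ iha ihf σ τ h
    obtain ⟨v', hv1, hv2⟩ := iha _ _ (ThOn.succ fun n hn => h n (.inr hn))
    rw [U.ren_succ_sub] at hv2
    obtain ⟨t', ht1, ht2⟩ := ihf σ τ fun n hn => h n (.inl hn)
    simp only [U.sub_lam, U.sub_app, U.sub_var, U.up_zero, U.ren_succ_sub] at ht2
    obtain ⟨t'', h1, h2⟩ := ht2.mono_red (URed.lam (URed.app (URed.app .refl hv1) .refl))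
    exact ⟨t'', ht1.trans h1, .app hv2 h2⟩
  · intro f k t _ ih σ τ h
    obtain ⟨t', h1, h2⟩ := ih σ τ h
    simp only [U.sub_lam, U.sub_app, U.sub_tapp, U.sub_var, U.up_zero, U.ren_succ_sub] at h2
    exact ⟨t', h1, .tapp h2⟩
  · intro a b a' b' k _ _ iha ihb σ τ h
    obtain ⟨x, hx1, hx2⟩ := iha σ τ fun n hn => h n (.inl hn)
    obtain ⟨y, hy1, hy2⟩ := ihb _ _ (ThOn.up fun n hn => h n (.inr hn))
    exact ⟨_, URed.app .refl (URed.upi hx1 hy1), .upi _ hx2 hy2⟩
  · intro b b' k _ ihb σ τ h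
    obtain ⟨y, hy1, hy2⟩ := ihb _ _ (ThOn.up fun n hn => h n (.inr hn))
    exact ⟨_, URed.app .refl (URed.upi .refl hy1), .upiC _ hy2⟩
  · intro u k t e _ ih σ τ h
    obtain ⟨t', h1, h2⟩ := ih σ τ h
    exact ⟨_, URed.app (URed.app .refl h1) .refl, .keep _ h2⟩
  · intro n σ τ h
    exact ⟨_, .refl, h n rfl⟩
  · intro u t _ ih σ τ h
    obtain ⟨t', h1, h2⟩ := ih _ _ h.succ
    rw [U.ren_succ_sub] at h2
    exact ⟨_, h1.lam, .lam h2⟩
  · intro u v _ ih σ τ h
    obtain ⟨v', h1, h2⟩ := ih σ τ h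
    exact ⟨_, URed.app .refl (URed.app h1 .refl), .mk h2⟩

end Vale.Agent.P340
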