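import Vale.Agent.P340.HomTyping
import Vale.Agent.P340.CpsShape
import Vale.Agent.P340.CpsSk
import Vale.Agent.P340.UOcc

/-!
# The target toolkit

Answers, transports along walks, merges, units and continuations, each typed in the original
system together with its skeleton.
-/

namespace Vale.Agent.P340

variable {S : Type}

/-- The constants of the target. -/
structure Ops (S : Type) where
  O : S → Tm S
  o : S → Tm S
  f : S → S → Tm S
  g : S → Tm S

/-- Renamed constants. -/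
def Ops.ren (Θ : Ops S) (ξ : ℕ → ℕ) : Ops S where
  O s := (Θ.O s).ren ξ
  o s := (Θ.o s).ren ξ
  f a b := (Θ.f a b).ren ξ
  g s := (Θ.g s).ren ξ

theorem Tm.arr_ren (A B : Tm S) (ξ : ℕ → ℕ) :
    (Tm.arr A B).ren ξ = Tm.arr (A.ren ξ) (B.ren ξ) := by
  simp [Tm.arr, Function.comp_def]

theorem negs_ren (O : S → Tm S) (ξ : ℕ → ℕ) : ∀ (l : List (S × S)) (X : Tm S),
    (negs O l X).ren ξ = negs (fun s => (O s).ren ξ) l (X.ren ξ)
  | [], X => rfl
  | (d, d') :: l, X => by simp [negs, negs_ren O ξ l, Tm.arr_ren]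

theorem negs_snoc (O : S → Tm S) (p : S × S) : ∀ (l : List (S × S)) (X : Tm S),
    negs O (l ++ [p]) X = Tm.arr (Tm.arr (negs O l X) (O p.1)) (O p.2)
  | [], X => rfl
  | (d, d') :: l, X => by simpa [negs] using negs_snoc O p l _

theorem BConv.arr {A A' B B' : Tm S} (hA : BConv A A') (hB : BConv B B') :
    BConv (Tm.arr A B) (Tm.arr A' B') :=
  BConv.pi hA (hB.ren _)

theorem BConv.negs (O : S → Tm S) : ∀ (l : List (S × S)) {X X' : Tm S}, BConv X X' →
    BConv (negs O l X) (negs O l X')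
  | [], _, _, h => h
  | _ :: l, _, _, h => BConv.negs O l (BConv.arr (BConv.arr h (.refl _)) (.refl _))

variable {P : Spec S} {D : HData S} {m : ℕ} {Δ Δ' : List (Tm S)} {G G' : ℕ → Cls}
  {Θ : Ops S} {r r' f x X Y : Tm S} {R R' Q U₁ U₂ : U} {a b c d d' s z : S}

theorem Der.app_arr (hf : Der P Δ f (Tm.arr X Y)) (hx : Der P Δ x X) :
    Der P Δ (.app f x) Y := by
  simpa [Tm.arr] using hf.appl hx

theorem Der.lam_arr {body : Tm S} (hX : Der P Δ X (.srt a)) (hY : Der P Δ Y (.srt b))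
    (hr : P.rule a b b) (hb : Der P (X :: Δ) body (Y.ren Nat.succ)) :
    Der P Δ (.lam X body) (Tm.arr X Y) :=
  .abs hX hb (hX.arr hY hr)

/-- The constants are typed free variables (or sorts). -/
structure OpsOK (P : Spec S) (D : HData S) (m : ℕ) (Δ : List (Tm S)) (G : ℕ → Cls) (Θ : Ops S) :
    Prop where
  ans : ∀ {s}, s ∈ D.C → Der P Δ (Θ.O s) (.srt s)
  leaf : ∀ {s}, s ∈ D.C → Der P Δ (Θ.o s) (Θ.O s) ∧ Sh m G (Θ.o s) none .cst
  atom : ∀ {t c}, P.ax t c → c ∈ D.C → Der P Δ (Θ.O t) (.srt t) ∧ Sh m G (Θ.O t) none .cst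
  tr : ∀ {a b}, a ∈ D.C → b ∈ D.C → P.rule a b b →
    Der P Δ (Θ.f a b) (Tm.arr (Θ.O a) (Θ.O b)) ∧ Sh m G (Θ.f a b) none .cst
  mrg : ∀ {s}, s ∈ D.C → Der P Δ (Θ.g s)
    (Tm.arr (Θ.O (D.cp s)) (Tm.arr (Θ.O (D.cp s)) (Θ.O s))) ∧ Sh m G (Θ.g s) none .cst

theorem OpsOK.ren (h : OpsOK P D m Δ G Θ) {κ : ℕ → ℕ} (hκ : Rens κ Δ Δ')
    (hG : ∀ n, G' (κ n) = G n) : OpsOK P D m Δ' G' (Θ.ren κ) := by
  refine ⟨fun hs => (h.ans hs).rename hκ,
    fun hs => ⟨(h.leaf hs).1.rename hκ, (h.leaf hs).2.ren hG⟩,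
    fun h1 h2 => ⟨(h.atom h1 h2).1.rename hκ, (h.atom h1 h2).2.ren hG⟩, fun ha hb hr => ?_,
    fun hs => ?_⟩
  · obtain ⟨h1, h2⟩ := h.tr ha hb hr
    exact ⟨by simpa [Tm.arr_ren, Ops.ren] using h1.rename hκ, h2.ren hG⟩
  · obtain ⟨h1, h2⟩ := h.mrg hs
    exact ⟨by simpa [Tm.arr_ren, Ops.ren] using h1.rename hκ, h2.ren hG⟩

/-- A typed answer of colour `z` and its skeleton. -/
structure Ans (P : Spec S) (m : ℕ) (Δ : List (Tm S)) (G : ℕ → Cls) (Θ : Ops S) (z : S)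
    (r : Tm S) (R : U) : Prop where
  typed : Der P Δ r (Θ.O z)
  sh : Sh m G r (some .ans) R
  keeping : R.Keeping

theorem OpsOK.ans_leaf (h : OpsOK P D m Δ G Θ) (hs : s ∈ D.C) :
    Ans P m Δ G Θ s (Θ.o s) .cst :=
  ⟨(h.leaf hs).1, .coe _ (h.leaf hs).2, trivial⟩

theorem Wraps.trans {u v w : U} (h : Wraps u v) (h' : Wraps v w) : Wraps u w := by
  induction h' with
  | refl => exact h
  | wrap _ ih => exact .wrap ih

theorem Wraps.occ {u v : U} (h : Wraps u v) (n : ℕ) : U.Occ n v ↔ U.Occ n u := by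
  induction h with
  | refl => rfl
  | wrap _ ih => simp [U.wrap, U.Occ, ih]

theorem Wraps.keeping {u v : U} (h : Wraps u v) (hu : u.Keeping) : v.Keeping := by
  induction h with
  | refl => exact hu
  | wrap _ ih => exact ⟨trivial, ih⟩

theorem SkEv.wraps {t : Sk} {k u v : U} (h : SkEv m t k u) (hw : Wraps u v) : SkEv m t k v := by
  induction hw with
  | refl => exact h
  | wrap _ ih => exact .wrap ih

theorem Rho.wraps {t : Sk} {u v : U} (h : Rho m t u) (hw : Wraps u v) : Rho m t v := by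
  induction hw with
  | refl => exact h
  | wrap _ ih => exact .wrap ih

/-- One transport. -/
theorem Ans.step (h : Ans P m Δ G Θ a r R) (hΘ : OpsOK P D m Δ G Θ) (ha : a ∈ D.C)
    (hb : b ∈ D.C) (hr : P.rule a b b) :
    Ans P m Δ G Θ b (.app (Θ.f a b) r) (U.wrap R) :=
  ⟨(hΘ.tr ha hb hr).1.app_arr h.typed, .coe _ (.appFree (hΘ.tr ha hb hr).2 h.sh),
    ⟨trivial, h.keeping⟩⟩

/-- Transport along a walk. -/
theorem Ans.walk {l : List (S × S)} (hw : Walk P D a l b) (hΘ : OpsOK P D m Δ G Θ)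
    (ha : a ∈ D.C) (h : Ans P m Δ G Θ a r R) :
    ∃ r' R', Wraps R R' ∧ Ans P m Δ G Θ b r' R' := by
  induction hw generalizing r R with
  | nil => exact ⟨r, R, .refl, h⟩
  | cons hd hd' hr hr' _ ih =>
    obtain ⟨r', R', hw', h'⟩ := ih hd' ((h.step hΘ ha hd hr).step hΘ hd hd' hr')
    exact ⟨r', R', ((Wraps.refl.wrap).wrap).trans hw', h'⟩

/-- The side conditions of the translation at one finite class. -/
structure ClassOK (P : Spec S) (D : HData S) (m : ℕ) : Prop extends D.OK P where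
  len : ∀ {s}, s ∈ D.C → (D.walk s).length = m + 1
  conn : ∀ {a b}, a ∈ D.C → b ∈ D.C → ∃ l, Walk P D a l b

theorem ClassOK.move (hD : ClassOK P D m) (hΘ : OpsOK P D m Δ G Θ) (ha : a ∈ D.C)
    (hb : b ∈ D.C) (h : Ans P m Δ G Θ a r R) :
    ∃ r' R', Wraps R R' ∧ Ans P m Δ G Θ b r' R' :=
  h.walk (hD.conn ha hb).choose_spec hΘ ha

/-- Two answers are merged at any colour. -/
theorem ClassOK.merge (hD : ClassOK P D m) (hΘ : OpsOK P D m Δ G Θ) (ha : a ∈ D.C)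
    (hb : b ∈ D.C) (hz : z ∈ D.C) (h : Ans P m Δ G Θ a r R) (h' : Ans P m Δ G Θ b r' R') :
    ∃ t Q Q', Wraps R Q ∧ Wraps R' Q' ∧ Ans P m Δ G Θ z t (U.merge Q Q') := by
  obtain ⟨x, Q, hw, hx⟩ := hD.move hΘ ha (hD.cp_mem hz) h
  obtain ⟨y, Q', hw', hy⟩ := hD.move hΘ hb (hD.cp_mem hz) h'
  obtain ⟨hg, hgs⟩ := hΘ.mrg hz
  exact ⟨_, Q, Q', hw, hw', (hg.app_arr hx.typed).app_arr hy.typed,
    .coe _ (.appFree (.appFree hgs hx.sh) hy.sh), ⟨trivial, hx.keeping⟩, hy.keeping⟩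

theorem U.occ_merge (n : ℕ) (x y : U) :
    U.Occ n (U.merge x y) ↔ U.Occ n x ∨ U.Occ n y := by
  simp [U.merge, U.Occ]

theorem U.lift_snoc : ∀ (j : ℕ) (x : U), U.lift (j + 1) x = U.lift j (U.lift 1 x)
  | 0, _ => rfl
  | j + 1, x => by
    show U.lam (U.wrap (.app (.var 0) ((U.lift (j + 1) x).ren Nat.succ))) = _
    rw [U.lift_snoc j x]
    rfl

theorem U.occ_lift : ∀ (j : ℕ) (x : U) (n : ℕ), U.Occ n (U.lift j x) ↔ U.Occ n x
  | 0, _, _ => Iff.rfl
  | j + 1, x, n => by simp [U.lift, U.wrap, U.Occ, U.occ_succ, U.occ_lift j x n]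

theorem U.keeping_lift : ∀ (j : ℕ) {x : U}, x.Keeping → (U.lift j x).Keeping
  | 0, _, h => h
  | j + 1, _, h =>
    ⟨by simp [U.wrap, U.Occ], trivial, trivial, U.keeping_ren (U.keeping_lift j h) _⟩

/-- The first answer colour of a list of pairs. -/
def firstCol : List (S × S) → S → S
  | [], d => d
  | p :: _, _ => p.1

theorem firstCol_mem {l : List (S × S)} (h : Walk P D a l z) (hd : d ∈ D.C) :
    firstCol l d ∈ D.C := by
  cases h with
  | nil => exact hd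
  | cons h1 => exact h1

theorem firstCol_rule {l : List (S × S)} (h : Walk P D a l z) (hz : P.rule z d d) :
    P.rule a (firstCol l d) (firstCol l d) := by
  cases h with
  | nil => exact hz
  | cons _ _ hr => exact hr

/-- The last pair of a walk. -/
theorem Walk.snoc_inv {p : S × S} : ∀ {l : List (S × S)} {a z : S},
    Walk P D a (l ++ [p]) z → ∃ y, Walk P D a l y ∧ p.1 ∈ D.C ∧ p.2 = z ∧ p.2 ∈ D.C ∧
      P.rule y p.1 p.1 ∧ P.rule p.1 p.2 p.2
  | [], a, z, h => by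
    cases h with
    | cons h1 h2 h3 h4 h5 => cases h5; exact ⟨a, .nil a, h1, rfl, h2, h3, h4⟩
  | _ :: l, a, z, h => by
    cases h with
    | cons h1 h2 h3 h4 h5 =>
      obtain ⟨y, hy, rest⟩ := Walk.snoc_inv h5
      exact ⟨y, .cons h1 h2 h3 h4 hy, rest⟩

/-- A closed walk: everything but the last pair, and the colour of the last negation. -/
theorem ClassOK.split (hD : ClassOK P D m) (hs : s ∈ D.C) :
    ∃ l d y, D.walk s = l ++ [(d, s)] ∧ l.length = m ∧ Walk P D s l y ∧ d ∈ D.C ∧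
      P.rule y d d ∧ P.rule d s s := by
  have hl := hD.len hs
  rcases List.eq_nil_or_concat (D.walk s) with h | ⟨l, ⟨d, d'⟩, h⟩
  · simp [h] at hl
  · rw [List.concat_eq_append] at h
    obtain ⟨y, hy, hd, e, -, h1, h2⟩ := Walk.snoc_inv (h ▸ hD.walk hs)
    simp only at e hd h1 h2
    subst e
    exact ⟨l, d, y, h, by simpa [h] using hl, hy, hd, h1, h2⟩

/-- Going up by one double negation: `x : X` gives `λ k. f (k x)`. -/
theorem unit_step (hΘ : OpsOK P D m Δ G Θ) {j : ℕ} (hd : d ∈ D.C) (hd' : d' ∈ D.C)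
    (hX : Der P Δ X (.srt a)) (hr : P.rule a d d) (hr' : P.rule d d' d')
    (hx : Der P Δ x X) (hsh : Sh m G x (some (.neg j)) R) :
    ∃ t, Der P Δ t (Tm.arr (Tm.arr X (Θ.O d)) (Θ.O d')) ∧
      Sh m G t (some (.neg (j + 1))) (U.lift 1 R) := by
  have hK := hX.arr (hΘ.ans hd) hr
  have hΘ' := hΘ.ren (G' := Cls.cons (.comp (some (.kont j))) G)
    (Rens.succ Δ (Tm.arr X (Θ.O d))) fun _ => rfl
  have hk : Der P (Tm.arr X (Θ.O d) :: Δ) (.var 0)
      (Tm.arr (X.ren Nat.succ) ((Θ.O d).ren Nat.succ)) := by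
    rw [← Tm.arr_ren]; exact .var .zero
  have happ := hk.app_arr (hx.weaken (Tm.arr X (Θ.O d)))
  refine ⟨_, Der.lam_arr hK (hΘ.ans hd') hr' ((hΘ'.tr hd hd' hr').1.app_arr happ),
    .lam (Shp.Arr.neg j) (.coe _ (.appFree (hΘ'.tr hd hd' hr').2
      (.app (Shp.Arr.kont j) (.var rfl) (hsh.ren fun _ => rfl))))⟩

/-- The unit along a list of pairs. -/
theorem unit_exists (hΘ : OpsOK P D m Δ G Θ) {l : List (S × S)} (hl : Walk P D a l z) :
    ∀ {j : ℕ} {X x : Tm S} {R : U}, Der P Δ X (.srt a) → Der P Δ x X →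
      Sh m G x (some (.neg j)) R →
      ∃ t, Der P Δ t (negs Θ.O l X) ∧
        Sh m G t (some (.neg (j + l.length))) (U.lift l.length R) := by
  induction hl with
  | nil => exact fun _ hx hs => ⟨_, hx, hs⟩
  | @cons a d d' z l hd hd' hr hr' _ ih =>
    intro j X x R hX hx hs
    obtain ⟨t, ht, hts⟩ := unit_step hΘ hd hd' hX hr hr' hx hs
    obtain ⟨t', ht', hts'⟩ := ih ((hX.arr (hΘ.ans hd) hr).arr (hΘ.ans hd') hr') ht hts
    refine ⟨t', ht', ?_⟩
    rwa [← U.lift_snoc, show j + 1 + l.length = j + (l.length + 1) by omega] at hts'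

/-- A continuation through a list of pairs. -/
theorem cont_exists (hΘ : OpsOK P D m Δ G Θ) (hd : d ∈ D.C) {l : List (S × S)}
    (hl : Walk P D a l z) :
    P.rule z d d → ∀ {j : ℕ} {X x : Tm S} {R : U}, Der P Δ X (.srt a) →
      Der P Δ x (Tm.arr X (Θ.O (firstCol l d))) → Sh m G x (some (.kont j)) R →
      ∃ t, Der P Δ t (Tm.arr (negs Θ.O l X) (Θ.O d)) ∧
        Sh m G t (some (.kont (j + l.length))) (U.lift l.length R) := by
  induction hl with
  | nil => exact fun _ _ _ _ _ _ hx hs => ⟨_, hx, hs⟩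
  | @cons a d₁ d₂ z l hd₁ hd₂ hr₁ hr₂ hl ih =>
    intro hzd j X x R hX hx hs
    let e := firstCol l d
    have he : e ∈ D.C := firstCol_mem hl hd
    have her : P.rule d₂ e e := firstCol_rule hl hzd
    have hX2 := (hX.arr (hΘ.ans hd₁) hr₁).arr (hΘ.ans hd₂) hr₂
    let X2 := Tm.arr (Tm.arr X (Θ.O d₁)) (Θ.O d₂)
    have hΘ' := hΘ.ren (G' := Cls.cons (.comp (some (.neg (j + 1)))) G)
      (Rens.succ Δ X2) fun _ => rfl
    have hy : Der P (X2 :: Δ) (.var 0)
        (Tm.arr ((Tm.arr X (Θ.O d₁)).ren Nat.succ) ((Θ.O d₂).ren Nat.succ)) := by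
      rw [← Tm.arr_ren]; exact .var .zero
    have happ := hy.app_arr (hx.weaken X2)
    obtain ⟨t, ht, hts⟩ := ih hzd (j := j + 1) hX2
      (Der.lam_arr hX2 (hΘ.ans he) her ((hΘ'.tr hd₂ he her).1.app_arr happ))
      (.lam (Shp.Arr.kont (j + 1)) (.coe _ (.appFree (hΘ'.tr hd₂ he her).2
        (.app (Shp.Arr.neg j) (.var rfl) (hs.ren fun _ => rfl)))))
    refine ⟨t, ht, ?_⟩
    change Sh m G t (some (.kont (j + 1 + l.length))) (U.lift l.length (U.lift 1 R)) at hts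
    rwa [← U.lift_snoc, show j + 1 + l.length = j + (l.length + 1) by omega] at hts

end Vale.Agent.P340
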