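import Vale.Agent.P340.Levels
import Vale.Agent.P340.UStepBasic

/-!
# Skeletons of one level

An expression of level `i` is sent to its skeleton: arguments and domains of other levels are
erased. A step gives a step of the skeleton or leaves it unchanged, and the steps of the latter
kind terminate when everything above `i` is strongly normal.
-/

namespace Vale.Agent.P340

open Relation

variable {S : Type} [PartialOrder S] {P : Spec S} {i s : S}
  {Γ Δ : List (Tm S)} {M M' A A' B b f a : Tm S}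

omit [PartialOrder S] in
open Classical in
/-- The skeleton at level `i`. -/
noncomputable def erase (P : Spec S) (i : S) : List (Tm S) → Tm S → U
  | _, .var n => .var n
  | _, .srt _ => .cst
  | Γ, .pi A B => .upi (if Lv P Γ A i then erase P i Γ A else .cst) (erase P i (A :: Γ) B)
  | Γ, .lam A b =>
      if Der P Γ A (.srt i) then .lam (erase P i (A :: Γ) b) else .tlam (erase P i (A :: Γ) b)
  | Γ, .app f a =>
      if Lv P Γ a i then .app (erase P i Γ f) (erase P i Γ a) else .tapp (erase P i Γ f)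

theorem sort_iff (hP : GenNonDependent P) (hA : Der P Γ A (.srt s)) :
    Der P Γ A (.srt i) ↔ s = i :=
  ⟨fun h => bconv_srt_inj (hA.unique hP h), fun h => h ▸ hA⟩

theorem lv_iff (hP : GenNonDependent P) (hΓ : Wf P Γ) (ha : Der P Γ a A)
    (hA : Der P Γ A (.srt s)) : Lv P Γ a i ↔ s = i :=
  ⟨fun h => Lv.unique hP hΓ ⟨A, ha, hA⟩ h, fun h => h ▸ ⟨A, ha, hA⟩⟩

/-- A declared variable keeps its level when the context grows. -/
theorem lv_var_of_succ (hP : GenNonDependent P) (hΓ : Wf P (A :: Γ)) {n : ℕ}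
    (h : Lv P (A :: Γ) (.var (n + 1)) i) : Lv P Γ (.var n) i := by
  have h0 := h
  obtain ⟨T, hT, -⟩ := h0
  obtain ⟨A', hl, -⟩ := hT.gen_var
  cases hl with
  | succ hl =>
    cases hΓ with
    | cons hΓ hA =>
      obtain ⟨j, hj⟩ := Lv.of_var hΓ hl
      have hj' : Lv P (A :: Γ) (.var (n + 1)) j := hj.rename (Rens.succ Γ A)
      exact Lv.unique hP (hΓ.cons hA) hj' h ▸ hj

theorem dom_of_var_zero (hP : GenNonDependent P) (hΓ : Wf P (A :: Γ))
    (h : Lv P (A :: Γ) (.var 0) i) : Der P Γ A (.srt i) := by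
  cases hΓ with
  | @cons _ _ t hΓ hA =>
    have : Lv P (A :: Γ) (.var 0) t := ⟨_, .var .zero, hA.weaken A⟩
    exact Lv.unique hP (hΓ.cons hA) this h ▸ hA

/-! ### Free variables of a skeleton -/

theorem erase_occ (hP : GenNonDependent P) :
    ∀ (M : Tm S) (Γ : List (Tm S)) (n : ℕ), Wf P Γ → Lv P Γ M i →
      U.Occ n (erase P i Γ M) → Lv P Γ (.var n) i := by
  intro M
  induction M with
  | var m =>
    intro Γ n _ h ho
    simp only [erase, U.Occ] at ho
    exact ho ▸ h
  | srt s => intro Γ n _ _ ho; simp [erase, U.Occ] at ho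
  | pi A B ihA ihB =>
    intro Γ n hΓ h ho
    obtain ⟨s₁, s₂, hA, -, -, -, hB, -⟩ := h.pi_inv hP hΓ
    simp only [erase, U.Occ] at ho
    rcases ho with ho | ho
    · split_ifs at ho with hc
      · exact ihA Γ n hΓ hc ho
      · exact (by simpa [U.Occ] using ho)
    · exact lv_var_of_succ hP (hΓ.cons hA) (ihB _ _ (hΓ.cons hA) hB ho)
  | lam A b _ ihb =>
    intro Γ n hΓ h ho
    obtain ⟨B, s₁, hA, -, -, -, hb⟩ := h.lam_inv hP hΓ
    simp only [erase] at ho
    split_ifs at ho <;> exact lv_var_of_succ hP (hΓ.cons hA) (ihb _ _ (hΓ.cons hA) hb ho)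
  | app f a ihf iha =>
    intro Γ n hΓ h ho
    obtain ⟨A, B, s₁, -, -, -, -, -, hf, -⟩ := h.app_inv hP hΓ
    simp only [erase] at ho
    split_ifs at ho with hc
    · rcases ho with ho | ho
      · exact ihf Γ n hΓ hf ho
      · exact iha Γ n hΓ hc ho
    · exact ihf Γ n hΓ hf ho

theorem erase_proper (hP : GenNonDependent P) :
    ∀ (M : Tm S) (Γ : List (Tm S)), Wf P Γ → Lv P Γ M i → (erase P i Γ M).Proper := by
  intro M
  induction M with
  | var m => intro Γ _ _; trivial
  | srt s => intro Γ _ _; trivial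
  | pi A B ihA ihB =>
    intro Γ hΓ h
    obtain ⟨s₁, s₂, hA, -, -, -, hB, -⟩ := h.pi_inv hP hΓ
    refine ⟨?_, ihB _ (hΓ.cons hA) hB⟩
    split_ifs with hc
    · exact ihA Γ hΓ hc
    · trivial
  | lam A b _ ihb =>
    intro Γ hΓ h
    obtain ⟨B, s₁, hA, -, -, -, hb⟩ := h.lam_inv hP hΓ
    simp only [erase]
    split_ifs with hc
    · exact ihb _ (hΓ.cons hA) hb
    · exact ⟨fun ho => hc (dom_of_var_zero hP (hΓ.cons hA) (erase_occ hP _ _ _ (hΓ.cons hA) hb ho)),
        ihb _ (hΓ.cons hA) hb⟩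
  | app f a ihf iha =>
    intro Γ hΓ h
    obtain ⟨A, B, s₁, -, -, -, -, -, hf, -⟩ := h.app_inv hP hΓ
    simp only [erase]
    split_ifs with hc
    · exact ⟨ihf Γ hΓ hf, iha Γ hΓ hc⟩
    · exact ihf Γ hΓ hf

/-! ### Renaming and substitution -/

theorem erase_ren (hP : GenNonDependent P) :
    ∀ (M : Tm S) (Γ Δ : List (Tm S)) (ξ : ℕ → ℕ), Wf P Γ → Wf P Δ → Rens ξ Γ Δ →
      Lv P Γ M i → erase P i Δ (M.ren ξ) = (erase P i Γ M).ren ξ := by
  intro M
  induction M with
  | var m => intro Γ Δ ξ _ _ _ _; rfl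
  | srt s => intro Γ Δ ξ _ _ _ _; rfl
  | pi A B ihA ihB =>
    intro Γ Δ ξ hΓ hΔ hξ h
    obtain ⟨s₁, s₂, hA, -, -, -, hB, -⟩ := h.pi_inv hP hΓ
    have hA' : Der P Δ (A.ren ξ) (.srt s₁) := hA.rename hξ
    have hiff : Lv P Δ (A.ren ξ) i ↔ Lv P Γ A i := by
      rw [Lv.type_iff hP hΔ hA', Lv.type_iff hP hΓ hA]
    have eB := ihB _ _ _ (hΓ.cons hA) (hΔ.cons hA') (hξ.up A) hB
    by_cases hc : Lv P Γ A i
    · simp only [Tm.ren_pi, erase, U.ren_upi, if_pos hc, if_pos (hiff.2 hc), eB,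
        ihA Γ Δ ξ hΓ hΔ hξ hc]
    · simp only [Tm.ren_pi, erase, U.ren_upi, U.ren_cst, if_neg hc,
        if_neg (mt hiff.1 hc), eB]
  | lam A b _ ihb =>
    intro Γ Δ ξ hΓ hΔ hξ h
    obtain ⟨B, s₁, hA, -, -, -, hb⟩ := h.lam_inv hP hΓ
    have hA' : Der P Δ (A.ren ξ) (.srt s₁) := hA.rename hξ
    have eb := ihb _ _ _ (hΓ.cons hA) (hΔ.cons hA') (hξ.up A) hb
    have hiff : Der P Δ (A.ren ξ) (.srt i) ↔ Der P Γ A (.srt i) := by
      rw [sort_iff hP hA', sort_iff hP hA]
    by_cases hc : Der P Γ A (.srt i)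
    · simp only [Tm.ren_lam, erase, U.ren_lam, if_pos hc, if_pos (hiff.2 hc), eb]
    · simp only [Tm.ren_lam, erase, U.ren_tlam, if_neg hc, if_neg (mt hiff.1 hc), eb]
  | app f a ihf iha =>
    intro Γ Δ ξ hΓ hΔ hξ h
    obtain ⟨A, B, s₁, -, ha, hA, -, -, hf, -⟩ := h.app_inv hP hΓ
    have hiff : Lv P Δ (a.ren ξ) i ↔ Lv P Γ a i := by
      rw [lv_iff hP hΔ (ha.rename hξ) (hA.rename hξ), lv_iff hP hΓ ha hA]
    by_cases hc : Lv P Γ a i
    · simp only [Tm.ren_app, erase, U.ren_app, if_pos hc, if_pos (hiff.2 hc),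
        ihf Γ Δ ξ hΓ hΔ hξ hf, iha Γ Δ ξ hΓ hΔ hξ hc]
    · simp only [Tm.ren_app, erase, U.ren_tapp, if_neg hc, if_neg (mt hiff.1 hc),
        ihf Γ Δ ξ hΓ hΔ hξ hf]

theorem erase_sub (hP : GenNonDependent P) :
    ∀ (M : Tm S) (Γ Δ : List (Tm S)) (σ : ℕ → Tm S) (τ : ℕ → U), Wf P Γ → Wf P Δ →
      Subs P σ Γ Δ → Lv P Γ M i → (∀ n, Lv P Γ (.var n) i → τ n = erase P i Δ (σ n)) →
      erase P i Δ (M.sub σ) = (erase P i Γ M).sub τ := by
  intro M
  induction M with
  | var m => intro Γ Δ σ τ _ _ _ h hτ; exact (hτ m h).symm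
  | srt s => intro Γ Δ σ τ _ _ _ _ _; rfl
  | pi A B ihA ihB =>
    intro Γ Δ σ τ hΓ hΔ hσ h hτ
    obtain ⟨s₁, s₂, hA, -, -, -, hB, -⟩ := h.pi_inv hP hΓ
    have hA' : Der P Δ (A.sub σ) (.srt s₁) := hA.subst hσ
    have hiff : Lv P Δ (A.sub σ) i ↔ Lv P Γ A i := by
      rw [Lv.type_iff hP hΔ hA', Lv.type_iff hP hΓ hA]
    have hup := ihB _ _ _ (U.up τ) (hΓ.cons hA) (hΔ.cons hA') (hσ.up A) hB ?_
    · by_cases hc : Lv P Γ A i
      · simp only [Tm.sub_pi, erase, U.sub_upi, if_pos hc, if_pos (hiff.2 hc), hup,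
          ihA Γ Δ σ τ hΓ hΔ hσ hc hτ]
      · simp only [Tm.sub_pi, erase, U.sub_upi, U.sub_cst, if_neg hc,
          if_neg (mt hiff.1 hc), hup]
    · intro n hn
      cases n with
      | zero => rfl
      | succ n =>
        have hn' := lv_var_of_succ hP (hΓ.cons hA) hn
        rw [U.up_succ, hτ n hn', ups_succ, erase_ren hP _ Δ _ _ hΔ (hΔ.cons hA')
          (Rens.succ _ _) (by simpa using hn'.subst hσ)]
  | lam A b _ ihb =>
    intro Γ Δ σ τ hΓ hΔ hσ h hτ
    obtain ⟨B, s₁, hA, -, -, -, hb⟩ := h.lam_inv hP hΓ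
    have hA' : Der P Δ (A.sub σ) (.srt s₁) := hA.subst hσ
    have hup := ihb _ _ _ (U.up τ) (hΓ.cons hA) (hΔ.cons hA') (hσ.up A) hb ?_
    · have hiff : Der P Δ (A.sub σ) (.srt i) ↔ Der P Γ A (.srt i) := by
        rw [sort_iff hP hA', sort_iff hP hA]
      by_cases hc : Der P Γ A (.srt i)
      · simp only [Tm.sub_lam, erase, U.sub_lam, if_pos hc, if_pos (hiff.2 hc), hup]
      · simp only [Tm.sub_lam, erase, U.sub_tlam, if_neg hc, if_neg (mt hiff.1 hc), hup]
    · intro n hn
      cases n with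
      | zero => rfl
      | succ n =>
        have hn' := lv_var_of_succ hP (hΓ.cons hA) hn
        rw [U.up_succ, hτ n hn', ups_succ, erase_ren hP _ Δ _ _ hΔ (hΔ.cons hA')
          (Rens.succ _ _) (by simpa using hn'.subst hσ)]
  | app f a ihf iha =>
    intro Γ Δ σ τ hΓ hΔ hσ h hτ
    obtain ⟨A, B, s₁, -, ha, hA, -, -, hf, -⟩ := h.app_inv hP hΓ
    have hiff : Lv P Δ (a.sub σ) i ↔ Lv P Γ a i := by
      rw [lv_iff hP hΔ (ha.subst hσ) (hA.subst hσ), lv_iff hP hΓ ha hA]
    by_cases hc : Lv P Γ a i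
    · simp only [Tm.sub_app, erase, U.sub_app, if_pos hc, if_pos (hiff.2 hc),
        ihf Γ Δ σ τ hΓ hΔ hσ hf hτ, iha Γ Δ σ τ hΓ hΔ hσ hc hτ]
    · simp only [Tm.sub_app, erase, U.sub_tapp, if_neg hc, if_neg (mt hiff.1 hc),
        ihf Γ Δ σ τ hΓ hΔ hσ hf hτ]

/-- Convertible last declarations give the same skeleton. -/
theorem erase_conv (hP : GenNonDependent P) (hΓ : Wf P Γ) (hA : Der P Γ A (.srt s))
    (hA' : Der P Γ A' (.srt s)) (hc : BConv A' A) (hb : Lv P (A :: Γ) b i) :
    erase P i (A' :: Γ) b = erase P i (A :: Γ) b := by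
  have h := erase_sub hP b (A :: Γ) (A' :: Γ) Tm.var U.var (hΓ.cons hA) (hΓ.cons hA')
    (Subs.convHead hA hc) hb fun n _ => rfl
  simpa using h

theorem Lv.convHead (hb : Lv P (A :: Γ) b i) (hA : Der P Γ A (.srt s)) (hc : BConv A' A) :
    Lv P (A' :: Γ) b i := by
  simpa using hb.subst (Subs.convHead hA hc)

/-! ### Steps -/

theorem erase_beta (hP : GenNonDependent P) (hΓ : Wf P Γ)
    (h : Lv P Γ (.app (.lam A b) a) i) :
    UStep (erase P i Γ (.app (.lam A b) a)) (erase P i Γ (b.inst a)) := by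
  obtain ⟨A₀, B₀, s₁, hf, ha, hA₀, -, -, hlf, -⟩ := h.app_inv hP hΓ
  obtain ⟨B₁, t₁, hA, -, -, -, hb⟩ := hlf.lam_inv hP hΓ
  obtain ⟨u, B', -, -, -, -, hc⟩ := hf.gen_lam
  obtain ⟨hAA, -⟩ := bconv_pi_inj hc
  have hs : t₁ = s₁ := sort_unique hP hΓ hA hA₀ hAA
  have ha' : Der P Γ a A := .conv ha hA hAA.symm
  change UStep _ (erase P i Γ (b.sub (sub0 a)))
  by_cases hi : s₁ = i
  · rw [erase_sub hP b (A :: Γ) Γ (sub0 a) (U.sub0 (erase P i Γ a)) (hΓ.cons hA) hΓ
      (Subs.inst ha') hb fun n _ => by cases n <;> rfl]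
    simp only [erase, if_pos ((lv_iff hP hΓ ha hA₀).2 hi),
      if_pos ((sort_iff hP hA).2 (hs.trans hi))]
    exact UStep.beta _ _
  · rw [erase_sub hP b (A :: Γ) Γ (sub0 a) (U.sub0 .cst) (hΓ.cons hA) hΓ (Subs.inst ha') hb ?_]
    · simp only [erase, if_neg fun hl => hi ((lv_iff hP hΓ ha hA₀).1 hl),
        if_neg fun hd => hi (hs ▸ (sort_iff hP hA).1 hd)]
      exact UStep.tbeta _
    · intro n hn
      cases n with
      | zero => exact absurd (hs ▸ (sort_iff hP hA).1 (dom_of_var_zero hP (hΓ.cons hA) hn)) hi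
      | succ n => rfl

theorem erase_step (hP : GenNonDependent P) (hs : Step M M') :
    ∀ Γ, Wf P Γ → Lv P Γ M i →
      UStep (erase P i Γ M) (erase P i Γ M') ∨ erase P i Γ M' = erase P i Γ M := by
  induction hs with
  | beta A b a => intro Γ hΓ h; exact .inl (erase_beta hP hΓ h)
  | @piL A A' B hs ih =>
    intro Γ hΓ h
    obtain ⟨s₁, s₂, hA, -, -, -, hB, -⟩ := h.pi_inv hP hΓ
    have hA' := hA.step hΓ hs
    have hiff : Lv P Γ A' i ↔ Lv P Γ A i := by
      rw [Lv.type_iff hP hΓ hA', Lv.type_iff hP hΓ hA]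
    by_cases hc : Lv P Γ A i
    · simp only [erase, if_pos hc, if_pos (hiff.2 hc),
        erase_conv hP hΓ hA hA' (BConv.of_step hs).symm hB]
      rcases ih Γ hΓ hc with h' | h'
      · exact .inl (.upiL _ h')
      · exact .inr (by rw [h'])
    · exact .inr (by simp only [erase, if_neg hc, if_neg (mt hiff.1 hc),
        erase_conv hP hΓ hA hA' (BConv.of_step hs).symm hB])
  | @piR A B B' hs ih =>
    intro Γ hΓ h
    obtain ⟨s₁, s₂, hA, -, -, -, hB, -⟩ := h.pi_inv hP hΓ
    simp only [erase]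
    rcases ih _ (hΓ.cons hA) hB with h' | h'
    · exact .inl (.upiR _ h')
    · exact .inr (by rw [h'])
  | @lamL A A' b hs _ =>
    intro Γ hΓ h
    obtain ⟨B, s₁, hA, -, -, -, hb⟩ := h.lam_inv hP hΓ
    have hA' := hA.step hΓ hs
    have hiff : Der P Γ A' (.srt i) ↔ Der P Γ A (.srt i) := by
      rw [sort_iff hP hA', sort_iff hP hA]
    refine .inr ?_
    by_cases hc : Der P Γ A (.srt i)
    · simp only [erase, if_pos hc, if_pos (hiff.2 hc),
        erase_conv hP hΓ hA hA' (BConv.of_step hs).symm hb]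
    · simp only [erase, if_neg hc, if_neg (mt hiff.1 hc),
        erase_conv hP hΓ hA hA' (BConv.of_step hs).symm hb]
  | @lamR A b b' hs ih =>
    intro Γ hΓ h
    obtain ⟨B, s₁, hA, -, -, -, hb⟩ := h.lam_inv hP hΓ
    simp only [erase]
    rcases ih _ (hΓ.cons hA) hb with h' | h'
    · split_ifs
      · exact .inl (.lam h')
      · exact .inl (.tlam h')
    · exact .inr (by rw [h'])
  | @appL f f' a hs ih =>
    intro Γ hΓ h
    obtain ⟨A, B, s₁, -, -, -, -, -, hf, -⟩ := h.app_inv hP hΓ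
    simp only [erase]
    rcases ih Γ hΓ hf with h' | h'
    · split_ifs
      · exact .inl (.appL _ h')
      · exact .inl (.tapp h')
    · exact .inr (by rw [h'])
  | @appR f a a' hs ih =>
    intro Γ hΓ h
    obtain ⟨A, B, s₁, -, ha, hA, -, -, -, -⟩ := h.app_inv hP hΓ
    have hiff : Lv P Γ a' i ↔ Lv P Γ a i := by
      rw [lv_iff hP hΓ (ha.step hΓ hs) hA, lv_iff hP hΓ ha hA]
    by_cases hc : Lv P Γ a i
    · simp only [erase, if_pos hc, if_pos (hiff.2 hc)]
      rcases ih Γ hΓ hc with h' | h'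
      · exact .inl (.appR _ h')
      · exact .inr (by rw [h'])
    · exact .inr (by simp only [erase, if_neg hc, if_neg (mt hiff.1 hc)])

theorem erase_red (hP : GenNonDependent P) (hΓ : Wf P Γ) (h : Lv P Γ M i) (hr : Red M M') :
    ReflTransGen UStep (erase P i Γ M) (erase P i Γ M') := by
  induction hr with
  | refl => exact .refl
  | @tail K L hK hs ih =>
    rcases erase_step hP hs Γ hΓ (h.red hΓ hK) with h' | h'
    · exact ih.tail h'
    · exact h' ▸ ih

theorem IsNormal.pi_parts (h : IsNormal (.pi A B)) : IsNormal A ∧ IsNormal B :=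
  ⟨fun _ hs => h _ (.piL _ hs), fun _ hs => h _ (.piR _ hs)⟩

theorem IsNormal.app_parts (h : IsNormal (.app f a)) : IsNormal f ∧ IsNormal a :=
  ⟨fun _ hs => h _ (.appL _ hs), fun _ hs => h _ (.appR _ hs)⟩

theorem erase_normal (hP : GenNonDependent P) :
    ∀ (M : Tm S) (Γ : List (Tm S)), Wf P Γ → Lv P Γ M i → IsNormal M →
      (erase P i Γ M).Normal := by
  intro M
  induction M with
  | var m => intro Γ _ _ _ v hv; cases hv
  | srt s => intro Γ _ _ _ v hv; cases hv
  | pi A B ihA ihB =>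
    intro Γ hΓ h hn v hv
    obtain ⟨s₁, s₂, hA, -, -, -, hB, -⟩ := h.pi_inv hP hΓ
    simp only [erase] at hv
    cases hv with
    | upiL _ hs =>
      split_ifs at hs with hc
      · exact ihA Γ hΓ hc hn.pi_parts.1 _ hs
      · cases hs
    | upiR _ hs => exact ihB _ (hΓ.cons hA) hB hn.pi_parts.2 _ hs
  | lam A b _ ihb =>
    intro Γ hΓ h hn v hv
    obtain ⟨B, s₁, hA, -, -, -, hb⟩ := h.lam_inv hP hΓ
    have := ihb _ (hΓ.cons hA) hb fun _ hs => hn _ (.lamR _ hs)
    simp only [erase] at hv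
    split_ifs at hv
    · cases hv with | lam hs => exact this _ hs
    · cases hv with | tlam hs => exact this _ hs
  | app f a ihf iha =>
    intro Γ hΓ h hn v hv
    obtain ⟨A, B, s₁, -, -, -, -, -, hf, -⟩ := h.app_inv hP hΓ
    have hlam : ∀ X y, f ≠ .lam X y := fun X y e => hn _ (e ▸ Step.beta X y a)
    have hf' := ihf Γ hΓ hf hn.app_parts.1
    simp only [erase] at hv
    split_ifs at hv with hc
    · generalize he : erase P i Γ f = e at hv hf'
      cases hv with
      | beta => cases f <;> simp only [erase] at he <;> (try split_ifs at he) <;> simp_all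
      | appL _ hs => exact hf' _ hs
      | appR _ hs => exact iha Γ hΓ hc hn.app_parts.2 _ hs
    · generalize he : erase P i Γ f = e at hv hf'
      cases hv with
      | tbeta => cases f <;> simp only [erase] at he <;> (try split_ifs at he) <;> simp_all
      | tapp hs => exact hf' _ hs

/-! ### Steps that leave the skeleton unchanged -/

/-- A step that is not a step of the skeleton. -/
def Quiet (P : Spec S) (i : S) (Γ : List (Tm S)) (N N' : Tm S) : Prop :=
  Step N' N ∧ ¬ UStep (erase P i Γ N') (erase P i Γ N)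

theorem quiet_app (hP : GenNonDependent P) (hΓ : Wf P Γ) (hA : Der P Γ A (.srt s))
    (hi : Lv P Γ (.app f a) i) (hf : Der P Γ f (.pi A B)) (ha : Der P Γ a A)
    (accf : Acc (Quiet P i Γ) f)
    (acca : (s = i → Acc (Quiet P i Γ) a) ∧ (s ≠ i → StronglyNormal a)) :
    Acc (Quiet P i Γ) (.app f a) := by
  induction accf generalizing a with
  | intro f _ ihf =>
    by_cases hs : s = i
    · have acc := acca.1 hs
      clear acca
      induction acc with
      | intro a ha₀ iha =>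
        refine Acc.intro _ fun N hN => ?_
        obtain ⟨hst, hq⟩ := hN
        cases hst with
        | beta X y _ => exact absurd (erase_beta hP hΓ hi) hq
        | @appL _ f' _ hst =>
          refine ihf f' ⟨hst, fun h => hq ?_⟩ (hi.red hΓ (.single (.appL _ hst)))
            (hf.step hΓ hst) ha ⟨fun _ => Acc.intro a ha₀, fun h => absurd hs h⟩
          simp only [erase, if_pos ((lv_iff hP hΓ ha hA).2 hs)]
          exact .appL _ h
        | @appR _ _ a' hst =>
          refine iha a' ⟨hst, fun h => hq ?_⟩ (hi.red hΓ (.single (.appR _ hst)))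
            (ha.step hΓ hst)
          simp only [erase, if_pos ((lv_iff hP hΓ ha hA).2 hs),
            if_pos ((lv_iff hP hΓ (ha.step hΓ hst) hA).2 hs)]
          exact .appR _ h
    · have acc := acca.2 hs
      clear acca
      induction acc with
      | intro a ha₀ iha =>
        refine Acc.intro _ fun N hN => ?_
        obtain ⟨hst, hq⟩ := hN
        cases hst with
        | beta X y _ => exact absurd (erase_beta hP hΓ hi) hq
        | @appL _ f' _ hst =>
          refine ihf f' ⟨hst, fun h => hq ?_⟩ (hi.red hΓ (.single (.appL _ hst)))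
            (hf.step hΓ hst) ha ⟨fun h => absurd h hs, fun _ => Acc.intro a ha₀⟩
          simp only [erase, if_neg fun hl => hs ((lv_iff hP hΓ ha hA).1 hl)]
          exact .tapp h
        | @appR _ _ a' hst =>
          exact iha a' hst (hi.red hΓ (.single (.appR _ hst))) (ha.step hΓ hst)

theorem quiet_pi (hP : GenNonDependent P) (hΓ : Wf P Γ) {s₁ : S} {X : Tm S}
    (hA₀ : Der P Γ X (.srt s₁)) (hA : Der P Γ A (.srt s₁)) (hc : BConv A X)
    (hB : Lv P (X :: Γ) B i)
    (accA : (Lv P Γ X i → Acc (Quiet P i Γ) A) ∧ (¬ Lv P Γ X i → StronglyNormal A))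
    (accB : Acc (Quiet P i (X :: Γ)) B) : Acc (Quiet P i Γ) (.pi A B) := by
  have hiff : ∀ {C}, Der P Γ C (.srt s₁) → (Lv P Γ C i ↔ Lv P Γ X i) := fun hC => by
    rw [Lv.type_iff hP hΓ hC, Lv.type_iff hP hΓ hA₀]
  have hE : ∀ {C D}, Der P Γ C (.srt s₁) → BConv C X → Lv P (X :: Γ) D i →
      erase P i (C :: Γ) D = erase P i (X :: Γ) D := fun hC hcC hD =>
    erase_conv hP hΓ hA₀ hC hcC hD
  induction accB generalizing A with
  | intro B hB₀ ihB =>
    by_cases hL : Lv P Γ X i
    · have acc := accA.1 hL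
      clear accA
      induction acc with
      | intro A hA₁ ihA =>
        refine Acc.intro _ fun N hN => ?_
        obtain ⟨hst, hq⟩ := hN
        cases hst with
        | @piL _ A' _ hst =>
          have hA' := hA.step hΓ hst
          have hc' := (BConv.of_step hst).symm.trans hc
          refine ihA A' ⟨hst, fun h => hq ?_⟩ hA' hc'
          simp only [erase, if_pos ((hiff hA).2 hL), if_pos ((hiff hA').2 hL), hE hA hc hB,
            hE hA' hc' hB]
          exact .upiL _ h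
        | @piR _ _ B' hst =>
          have hB' := hB.red (hΓ.cons hA₀) (.single hst)
          refine ihB B' ⟨hst, fun h => hq ?_⟩ hA hc hB'
            ⟨fun _ => Acc.intro A hA₁, fun h => absurd hL h⟩
          simp only [erase, hE hA hc hB, hE hA hc hB']
          exact .upiR _ h
    · have acc := accA.2 hL
      clear accA
      induction acc with
      | intro A hA₁ ihA =>
        refine Acc.intro _ fun N hN => ?_
        obtain ⟨hst, hq⟩ := hN
        cases hst with
        | @piL _ A' _ hst => exact ihA A' hst (hA.step hΓ hst) ((BConv.of_step hst).symm.trans hc)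
        | @piR _ _ B' hst =>
          have hB' := hB.red (hΓ.cons hA₀) (.single hst)
          refine ihB B' ⟨hst, fun h => hq ?_⟩ hA hc hB'
            ⟨fun h => absurd h hL, fun _ => Acc.intro A hA₁⟩
          simp only [erase, hE hA hc hB, hE hA hc hB']
          exact .upiR _ h

theorem quiet_lam (hP : GenNonDependent P) (hΓ : Wf P Γ) {s₁ : S} {X : Tm S}
    (hA₀ : Der P Γ X (.srt s₁)) (hA : Der P Γ A (.srt s₁)) (hc : BConv A X)
    (hb : Lv P (X :: Γ) b i) (accA : StronglyNormal A)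
    (accb : Acc (Quiet P i (X :: Γ)) b) : Acc (Quiet P i Γ) (.lam A b) := by
  induction accb generalizing A with
  | intro b hb₀ ihb =>
    induction accA with
    | intro A hA₁ ihA =>
      refine Acc.intro _ fun N hN => ?_
      obtain ⟨hst, hq⟩ := hN
      cases hst with
      | @lamL _ A' _ hst => exact ihA A' hst (hA.step hΓ hst) ((BConv.of_step hst).symm.trans hc)
      | @lamR _ _ b' hst =>
        have hb' := hb.red (hΓ.cons hA₀) (.single hst)
        refine ihb b' ⟨hst, fun h => hq ?_⟩ hA hc hb' (Acc.intro A hA₁)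
        simp only [erase, erase_conv hP hΓ hA₀ hA hc hb, erase_conv hP hΓ hA₀ hA hc hb']
        split_ifs
        · exact .lam h
        · exact .tlam h

theorem quiet_acc (hP : GenNonDependent P) (hi : SNAbove P i) :
    ∀ (M : Tm S) (Γ : List (Tm S)), Wf P Γ → Lv P Γ M i → Acc (Quiet P i Γ) M := by
  intro M
  induction M with
  | var m => intro Γ _ _; exact Acc.intro _ fun N hN => by cases hN.1
  | srt s => intro Γ _ _; exact Acc.intro _ fun N hN => by cases hN.1
  | pi A B ihA ihB =>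
    intro Γ hΓ h
    obtain ⟨s₁, s₂, hA, -, -, -, hB, hmono⟩ := h.pi_inv hP hΓ
    refine quiet_pi hP hΓ hA hA (.refl _) hB ⟨ihA Γ hΓ, fun hL => ?_⟩ (ihB _ (hΓ.cons hA) hB)
    refine sn_type hP hi A Γ s₁ hΓ hA fun t ht => ?_
    refine lt_of_le_of_ne (hmono t ((Lv.type_iff hP hΓ hA).2 ht)) fun e => hL ?_
    exact e ▸ (Lv.type_iff hP hΓ hA).2 ht
  | lam A b _ ihb =>
    intro Γ hΓ h
    obtain ⟨B, s₁, hA, -, -, hr, hb⟩ := h.lam_inv hP hΓ
    exact quiet_lam hP hΓ hA hA (.refl _) hb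
      (sn_type hP hi A Γ s₁ hΓ hA (Hi.of_le hP (hP.rule_le hr))) (ihb _ (hΓ.cons hA) hb)
  | app f a ihf iha =>
    intro Γ hΓ h
    obtain ⟨A, B, s₁, hf, ha, hA, -, hr, hlf, hla⟩ := h.app_inv hP hΓ
    exact quiet_app hP hΓ hA h hf ha (ihf Γ hΓ hlf)
      ⟨fun hs => iha Γ hΓ (hs ▸ hla),
        fun hs => hi s₁ (lt_of_le_of_ne (hP.rule_le hr) (Ne.symm hs)) Γ a hΓ hla⟩

/-- Strong normalisation of the skeleton gives it for the expression. -/
theorem sn_of_erase (hP : GenNonDependent P) (hi : SNAbove P i) (hΓ : Wf P Γ)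
    (h : Lv P Γ M i) (hsn : (erase P i Γ M).SN) : StronglyNormal M := by
  generalize hu : erase P i Γ M = u at hsn
  induction hsn generalizing M with
  | intro u _ ihu =>
    have acc := quiet_acc hP hi M Γ hΓ h
    induction acc with
    | intro M _ ihM =>
      refine Acc.intro _ fun N hN => ?_
      have hN' : Lv P Γ N i := h.red hΓ (.single hN)
      by_cases hq : UStep (erase P i Γ M) (erase P i Γ N)
      · exact ihu _ (hu ▸ hq) hN' rfl
      · rcases erase_step hP hN Γ hΓ h with h' | h'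
        · exact absurd h' hq
        · exact ihM N ⟨hN, hq⟩ hN' (h'.trans hu)

end Vale.Agent.P340
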