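import Vale.Agent.P340.HomSub

/-!
# The homomorphisms respect beta reduction and conversion
-/

namespace Vale.Agent.P340

variable {S : Type} {P : Spec S} {D : HData S} {Γ Δ : List (Tm S)} {M M' T T' A B b a : Tm S}
  {e : HEnv S} {s c : S}

/-- The sort of a type of a sort. -/
theorem Der.srt_of_conv (h : Der P Γ T (.srt c)) (hΓ : Wf P Γ) (hc : BConv (.srt s) T) :
    P.ax s c :=
  (h.red hΓ (red_of_bconv_srt hc.symm)).srt_type

/-- Every expression of collapsed colour is mapped to the constant. -/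
theorem hom_col_mem (hP : PairSpec P) (hK : ∀ s t, P.ax s t → t ∉ D.K) (hΓ : Wf P Γ)
    (h : HasCol P Γ M c) (hc : c ∈ D.K) (w : Bool) : hom P D Γ e w M = e.o c := by
  cases M with
  | var n => exact colSel_mem hP hΓ h hc
  | app f a => exact colSel_mem hP hΓ h hc
  | lam A b => exact colSel_mem hP hΓ h hc
  | srt s =>
    obtain ⟨T, hM, hT⟩ := h
    obtain ⟨t, -, ht⟩ := hM.gen_srt
    exact absurd hc (hK _ _ (hT.srt_of_conv hΓ ht))
  | pi A B =>
    obtain ⟨T, hM, hT⟩ := h
    obtain ⟨s₁, s₂, s₃, -, -, -, ht⟩ := hM.gen_pi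
    exact absurd hc (hK _ _ (hT.srt_of_conv hΓ ht))

theorem colSel_hom (hP : PairSpec P) (hK : ∀ s t, P.ax s t → t ∉ D.K) (hΓ : Wf P Γ)
    (h : HasCol P Γ M c) (w : Bool) :
    colSel P D Γ e.o M (hom P D Γ e w M) = hom P D Γ e w M := by
  by_cases hc : c ∈ D.K
  · rw [colSel_mem hP hΓ h hc, hom_col_mem hP hK hΓ h hc]
  · rw [colSel_not_mem hP hΓ h hc]

/-- Changing the context by conversions does not change the images. -/
theorem hom_ctx (hP : PairSpec P) (h : Der P Γ M T) (hΓ : Wf P Γ) (hΔ : Wf P Δ)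
    (hσ : Subs P Tm.var Γ Δ) (w : Bool) : hom P D Δ e w M = hom P D Γ e w M := by
  conv_lhs => rw [← M.sub_id]
  refine hom_subst hP h hΓ hΔ ⟨hσ, rfl, rfl, fun n X w hX => ?_⟩ w
  obtain ⟨c, hc⟩ := hΓ.var_col hX
  exact colSel_subst hP hΓ hΔ hc hσ e.o rfl

/-- The substitution of a pair of images for a doubled binder. -/
def sub2 (x x' : Tm S) : ℕ → Tm S
  | 0 => x'
  | 1 => x
  | n + 2 => .var n

theorem Tm.inst_sub2 (M x x' : Tm S) :
    (M.sub (ups (sub0 x))).inst x' = M.sub (sub2 x x') := by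
  rw [Tm.inst, Tm.sub_sub]
  refine Tm.sub_congr _ fun n => ?_
  rcases n with _ | _ | n <;> simp [sub2, Function.comp_def]

theorem Tm.ren2_sub2 (M x x' : Tm S) : (M.ren (· + 2)).sub (sub2 x x') = M := by
  rw [Tm.sub_ren]
  exact (Tm.sub_congr _ fun _ => rfl).trans M.sub_id

/-- The image of an instance is the instance of the image. -/
theorem hom_inst (hP : PairSpec P) (hK : ∀ s t, P.ax s t → t ∉ D.K) (hΓ : Wf P Γ)
    (hA : Der P Γ A (.srt s)) (hb : Der P (A :: Γ) b B) (ha : Der P Γ a A) (w : Bool) :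
    hom P D Γ e w (b.inst a) =
      (hom P D (A :: Γ) e.up w b).sub
        (sub2 (hom P D Γ e false a) (hom P D Γ e true a)) := by
  rw [hom_target_sub]
  refine hom_subst hP hb (hΓ.cons hA) hΓ ⟨Subs.inst ha, ?_, ?_, fun n X w hX => ?_⟩ w
  · funext s; exact Tm.ren2_sub2 _ _ _
  · funext s; exact Tm.ren2_sub2 _ _ _
  · cases hX with
    | zero =>
      have hv : (e.up.sub (sub2 (hom P D Γ e false a) (hom P D Γ e true a))).v w 0 =
          hom P D Γ e w a := by
        cases w <;> rfl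
      obtain ⟨c, hc⟩ := (hΓ.cons hA).var_col (Lk.zero (Γ := Γ) (A := A))
      have hca : HasCol P Γ a c := hc.subst (Subs.inst ha)
      rw [hv]
      show hom P D Γ e w a = _
      rw [← colSel_subst hP (hΓ.cons hA) hΓ hc (Subs.inst ha) e.o rfl]
      exact (colSel_hom hP hK hΓ hca w).symm
    | @succ _ X' _ k hX' =>
      obtain ⟨c, hc⟩ := hΓ.var_col hX'
      show colSel P D Γ e.o (.var k) (e.v w k) =
        colSel P D (A :: Γ) e.o ((Tm.var k).ren Nat.succ) ((e.up.sub _).v w (k + 1))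
      rw [colSel_ren hP hΓ (hΓ.cons hA) hc (Rens.succ _ _)]
      exact congrArg _ (Tm.ren2_sub2 _ _ _).symm

theorem Red.negs {T T' : Tm S} (O : S → Tm S) (h : Red T T') :
    ∀ l : List (S × S), Red (negs O l T) (negs O l T')
  | [] => h
  | (d, d') :: l =>
    Red.negs O (Red.pi (Red.pi h .refl) .refl) l

theorem tySel_red (hP : PairSpec P) (hΓ : Wf P Γ) (h : Der P Γ A (.srt s)) (hr : Red A M')
    (O : S → Tm S) {i i' : Tm S} (hi : Red i i') :
    Red (tySel P D Γ O A i) (tySel P D Γ O M' i') := by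
  by_cases hs : s ∈ D.K
  · rw [tySel_mem hP h hs, tySel_mem hP (h.red hΓ hr) hs]
  · rw [tySel_not_mem hP h hs, tySel_not_mem hP (h.red hΓ hr) hs]
    exact hi

theorem colSel_red (hP : PairSpec P) (hΓ : Wf P Γ) (h : HasCol P Γ M c) (hr : Red M M')
    (o : S → Tm S) {i i' : Tm S} (hi : Red i i') :
    Red (colSel P D Γ o M i) (colSel P D Γ o M' i') := by
  by_cases hs : c ∈ D.K
  · rw [colSel_mem hP hΓ h hs, colSel_mem hP hΓ (h.red hΓ hr) hs]
  · rw [colSel_not_mem hP hΓ h hs, colSel_not_mem hP hΓ (h.red hΓ hr) hs]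
    exact hi

/-- A step becomes steps in both worlds. -/
theorem hom_step (hP : PairSpec P) (hK : ∀ s t, P.ax s t → t ∉ D.K) (h : Der P Γ M T) :
    ∀ {M' : Tm S} {e : HEnv S}, Wf P Γ → Step M M' →
      ∀ w, Red (hom P D Γ e w M) (hom P D Γ e w M') := by
  induction h with
  | axiom_ => intro M' e _ hs; cases hs
  | var => intro M' e _ hs; cases hs
  | conv _ _ _ ih _ => exact ih
  | @prod Γ A B s₁ s₂ s₃ hA hB hr ihA ihB =>
    intro M' e hΓ hs w
    have hΓ' := hΓ.cons hA
    cases hs with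
    | @piL _ A' _ hs =>
      have hA' := hA.step hΓ hs
      have hσ : Subs P Tm.var (A :: Γ) (A' :: Γ) :=
        Subs.convHead hA (BConv.of_step hs).symm
      have hB' : Der P (A' :: Γ) B (.srt s₂) := hB.convHead hA (BConv.of_step hs).symm
      simp only [hom]
      have hh := tySel_red (D := D) hP hΓ hA (.single hs) e.O (ihA (e := e) hΓ hs false)
      refine Red.pi hh (Red.pi (hh.ren _) ?_)
      rw [hom_ctx hP hB hΓ' (hΓ.cons hA') hσ]
      have key : ∀ i, tySel P D (A' :: Γ) e.up.O B i = tySel P D (A :: Γ) e.up.O B i := fun i => by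
        conv_lhs => rw [← B.sub_id]
        exact tySel_subst hP hB hσ _ rfl
      rw [key]
      by_cases hk : s₂ ∈ D.K
      · rw [tySel_mem hP hB hk, tySel_mem hP hB hk]
      rw [tySel_not_mem hP hB hk, tySel_not_mem hP hB hk]
      cases w
      · simp only [Bool.false_eq_true, if_false]; exact .refl
      simp only [if_true]
      by_cases hb : s₂ ∈ D.C
      · rw [codSel_mem hP hB hb, codSel_mem hP hB' hb]
        refine Red.pi ?_ .refl
        by_cases ha : s₁ ∈ D.C
        · rw [hatSel_mem hP hA ha, hatSel_mem hP hA' ha]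
          exact Red.negs _ ((ihA (e := e) hΓ hs true).ren _) _
        · rw [hatSel_not_mem hP hA ha, hatSel_not_mem hP hA' ha]
      · rw [codSel_not_mem hP hB hb, codSel_not_mem hP hB' hb]
    | @piR _ _ B' hs =>
      simp only [hom]
      refine Red.pi .refl (Red.pi .refl (tySel_red hP hΓ' hB (.single hs) _ ?_))
      cases w
      · simpa using ihB (e := e.up) hΓ' hs false
      simp only [if_true]
      by_cases hb : s₂ ∈ D.C
      · rw [codSel_mem hP hB hb, codSel_mem hP (hB.step hΓ' hs) hb]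
        exact Red.pi .refl ((Red.negs _ (ihB (e := e.up) hΓ' hs true) _).ren _)
      · rw [codSel_not_mem hP hB hb, codSel_not_mem hP (hB.step hΓ' hs) hb]
        exact ihB (e := e.up) hΓ' hs true
  | @abs Γ A B M s₁ s hA hM hp ihA ihM _ =>
    intro M' e hΓ hs w
    have hc : HasCol P Γ (.lam A M) s := ⟨_, .abs hA hM hp, hp⟩
    simp only [hom]
    cases hs with
    | @lamL _ A' _ hs =>
      refine colSel_red hP hΓ hc (.single (Step.lamL M hs)) _ ?_
      have hA' := hA.step hΓ hs
      have hh := tySel_red (D := D) hP hΓ hA (.single hs) e.O (ihA (e := e) hΓ hs false)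
      rw [hom_ctx hP hM (hΓ.cons hA) (hΓ.cons hA') (Subs.convHead hA (BConv.of_step hs).symm)]
      exact Red.lam hh (Red.lam (hh.ren _) .refl)
    | @lamR _ _ b' hs =>
      refine colSel_red hP hΓ hc (.single (Step.lamR A hs)) _ ?_
      exact Red.lam .refl (Red.lam .refl (ihM (e := e.up) (hΓ.cons hA) hs w))
  | @appl Γ f a A B hf ha ihf iha =>
    intro M' e hΓ hs w
    obtain ⟨c, hc, hp⟩ := hP.app_col hΓ hf ha
    cases hs with
    | @appL _ f' _ hs =>
      simp only [hom]
      exact colSel_red hP hΓ hc (.single (Step.appL a hs)) _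
        (Red.app (Red.app (ihf (e := e) hΓ hs w) .refl) .refl)
    | @appR _ _ a' hs =>
      simp only [hom]
      exact colSel_red hP hΓ hc (.single (Step.appR f hs)) _
        (Red.app (Red.app .refl (iha (e := e) hΓ hs false)) (iha (e := e) hΓ hs true))
    | beta A₁ b _ =>
      by_cases hk : c ∈ D.K
      · rw [hom_col_mem hP hK hΓ hc hk, hom_col_mem hP hK hΓ (hc.red hΓ (.single (.beta _ _ _))) hk]
      obtain ⟨a₁, B₁, s₁, hA₁, hb, hp₁, hcv⟩ := hf.gen_lam
      have ha₁ : Der P Γ a A₁ := .conv ha hA₁ (bconv_pi_inj hcv).1.symm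
      have hl : HasCol P Γ (.lam A₁ b) c := ⟨_, hf, hp⟩
      rw [hom_inst hP hK hΓ hA₁ hb ha₁]
      simp only [hom]
      rw [colSel_not_mem hP hΓ hc hk, colSel_not_mem hP hΓ hl hk]
      refine (Red.app (.single (Step.beta _ _ _)) .refl).trans ?_
      simp only [Tm.inst, Tm.sub_lam]
      refine .single ?_
      rw [← Tm.inst_sub2]
      exact Step.beta _ _ _

/-- Reduction becomes reduction. -/
theorem hom_red (hP : PairSpec P) (hK : ∀ s t, P.ax s t → t ∉ D.K) (hΓ : Wf P Γ)
    (h : Der P Γ M T) (hr : Red M M') (w : Bool) :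
    Red (hom P D Γ e w M) (hom P D Γ e w M') := by
  induction hr with
  | refl => exact .refl
  | tail hr hs ih => exact ih.trans (hom_step hP hK (h.red hΓ hr) hΓ hs w)

/-- Conversion of typed expressions becomes conversion. -/
theorem hom_bconv (hP : PairSpec P) (hK : ∀ s t, P.ax s t → t ∉ D.K) (hΓ : Wf P Γ)
    (hA : Der P Γ A T) (hB : Der P Γ B T') (hc : BConv A B) (w : Bool) :
    BConv (hom P D Γ e w A) (hom P D Γ e w B) := by
  obtain ⟨C, h₁, h₂⟩ := bconv_join hc
  exact (hom_red hP hK hΓ hA h₁ w).bconv.trans (hom_red hP hK hΓ hB h₂ w).bconv.symm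

/-- Conversion of types becomes conversion of their images in type position. -/
theorem homTy_bconv (hP : PairSpec P) (hK : ∀ s t, P.ax s t → t ∉ D.K) (hΓ : Wf P Γ)
    (hA : Der P Γ A (.srt s)) (hB : Der P Γ B (.srt s)) (hc : BConv A B) (w : Bool) :
    BConv (homTy P D Γ e w A) (homTy P D Γ e w B) := by
  by_cases hs : s ∈ D.K
  · rw [homTy, homTy, tySel_mem hP hA hs, tySel_mem hP hB hs]
    exact .refl _
  · rw [homTy, homTy, tySel_not_mem hP hA hs, tySel_not_mem hP hB hs]
    exact hom_bconv hP hK hΓ hA hB hc w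

end Vale.Agent.P340
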