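import Vale.Agent.P340.HomDef

/-!
# The homomorphisms commute with substitution, in the source and in the target
-/

namespace Vale.Agent.P340

variable {S : Type} {P : Spec S} {D : HData S}

theorem Tm.arr_sub (A B : Tm S) (τ : ℕ → Tm S) :
    (Tm.arr A B).sub τ = Tm.arr (A.sub τ) (B.sub τ) := by
  simp only [Tm.arr, Tm.sub_pi, Tm.ren_succ_sub]

theorem negs_sub (O : S → Tm S) (τ : ℕ → Tm S) : ∀ (l : List (S × S)) (T : Tm S),
    (negs O l T).sub τ = negs (fun s => (O s).sub τ) l (T.sub τ)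
  | [], T => rfl
  | (d, d') :: l, T => by simp [negs, negs_sub O τ l, Tm.arr_sub]

theorem Tm.ren2_sub (M : Tm S) (τ : ℕ → Tm S) :
    (M.ren (· + 2)).sub (ups (ups τ)) = (M.sub τ).ren (· + 2) := by
  rw [Tm.sub_ren, Tm.ren_sub]
  refine Tm.sub_congr _ fun n => ?_
  simp [Function.comp_def]

theorem HEnv.ext' {e e' : HEnv S} (hv : ∀ w n, e.v w n = e'.v w n) (hO : ∀ s, e.O s = e'.O s)
    (ho : ∀ s, e.o s = e'.o s) : e = e' := by
  obtain ⟨v, O, o⟩ := e
  obtain ⟨v', O', o'⟩ := e'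
  obtain rfl : v = v' := funext fun w => funext (hv w)
  obtain rfl : O = O' := funext hO
  obtain rfl : o = o' := funext ho
  rfl

theorem HEnv.sub_up (e : HEnv S) (τ : ℕ → Tm S) : (e.sub τ).up = e.up.sub (ups (ups τ)) := by
  refine HEnv.ext' (fun w n => ?_) (fun s => (Tm.ren2_sub _ τ).symm)
    (fun s => (Tm.ren2_sub _ τ).symm)
  cases n with
  | zero => cases w <;> simp [HEnv.up, HEnv.sub]
  | succ n => exact (Tm.ren2_sub _ τ).symm

theorem tySel_sub (Γ : List (Tm S)) (O : S → Tm S) (A img : Tm S) (τ : ℕ → Tm S) :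
    (tySel P D Γ O A img).sub τ =
      tySel P D Γ (fun s => (O s).sub τ) A (img.sub τ) := by
  unfold tySel; split <;> rfl

theorem colSel_sub (Γ : List (Tm S)) (o : S → Tm S) (t img : Tm S) (τ : ℕ → Tm S) :
    (colSel P D Γ o t img).sub τ =
      colSel P D Γ (fun s => (o s).sub τ) t (img.sub τ) := by
  unfold colSel; split <;> rfl

theorem hatSel_sub (Γ : List (Tm S)) (O : S → Tm S) (A img : Tm S) (b : S) (τ : ℕ → Tm S) :
    (hatSel P D Γ O A img b).sub τ =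
      hatSel P D Γ (fun s => (O s).sub τ) A (img.sub τ) b := by
  unfold hatSel; split <;> simp [negs_sub]

theorem codSel_sub (Γ : List (Tm S)) (A B : Tm S) (O : S → Tm S) (i j : Tm S) (τ : ℕ → Tm S) :
    (codSel P D Γ A B O i j).sub τ =
      codSel P D Γ A B (fun s => (O s).sub τ) (i.sub τ) (j.sub τ) := by
  unfold codSel; split <;> simp [Tm.arr_sub, hatSel_sub, negs_sub]

/-- Substitution in the target acts on the environment. -/
theorem hom_target_sub (t : Tm S) : ∀ (Γ : List (Tm S)) (e : HEnv S) (w : Bool) (τ : ℕ → Tm S),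
    (hom P D Γ e w t).sub τ = hom P D Γ (e.sub τ) w t := by
  induction t with
  | var n => intros; simp only [hom, colSel_sub]; rfl
  | srt s => intros; rfl
  | app f a ihf iha =>
    intro Γ e w τ
    simp only [hom, colSel_sub, Tm.sub, ihf, iha]
    rfl
  | lam A b ihA ihb =>
    intro Γ e w τ
    simp only [hom, colSel_sub, Tm.sub, Tm.ren_succ_sub, tySel_sub, ihA, ihb, HEnv.sub_up]
    rfl
  | pi A B ihA ihB =>
    intro Γ e w τ
    simp only [hom, Tm.sub, Tm.ren_succ_sub, tySel_sub, ihA, HEnv.sub_up]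
    cases w
    · simp only [Bool.false_eq_true, if_false, ihB]
      rfl
    · simp only [if_true, codSel_sub, ihB, Tm.ren2_sub, ihA]
      rfl

theorem homTy_target_sub (Γ : List (Tm S)) (e : HEnv S) (w : Bool) (A : Tm S) (τ : ℕ → Tm S) :
    (homTy P D Γ e w A).sub τ = homTy P D Γ (e.sub τ) w A := by
  simp only [homTy, tySel_sub, hom_target_sub]
  rfl

theorem hom_target_ren (Γ : List (Tm S)) (e : HEnv S) (w : Bool) (t : Tm S) (ξ : ℕ → ℕ) :
    (hom P D Γ e w t).ren ξ = hom P D Γ (e.sub fun n => .var (ξ n)) w t := by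
  rw [Tm.ren_eq_sub, hom_target_sub]

/-- The environment obtained by translating a substitution. -/
noncomputable def HEnv.comp (P : Spec S) (D : HData S) (Δ : List (Tm S)) (e : HEnv S)
    (σ : ℕ → Tm S) : HEnv S where
  v w n := hom P D Δ e w (σ n)
  O := e.O
  o := e.o

/-- An environment with one more pair of images. -/
def HEnv.cons (e : HEnv S) (x : Bool → Tm S) : HEnv S where
  v w n := match n with
    | 0 => x w
    | n + 1 => e.v w n
  O := e.O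
  o := e.o

variable {Γ Δ : List (Tm S)} {M T A B : Tm S} {σ : ℕ → Tm S} {e : HEnv S} {s : S}

theorem tySel_subst (hP : PairSpec P) (h : Der P Γ A (.srt s)) (hσ : Subs P σ Γ Δ)
    (O : S → Tm S) {i i' : Tm S} (hi : i' = i) :
    tySel P D Δ O (A.sub σ) i' = tySel P D Γ O A i := by
  subst hi
  by_cases hs : s ∈ D.K
  · rw [tySel_mem hP h hs, tySel_mem hP (h.subst hσ) hs]
  · rw [tySel_not_mem hP h hs, tySel_not_mem hP (h.subst hσ) hs]

theorem colSel_subst (hP : PairSpec P) (hΓ : Wf P Γ) (hΔ : Wf P Δ) (h : HasCol P Γ M s)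
    (hσ : Subs P σ Γ Δ) (o : S → Tm S) {i i' : Tm S} (hi : i' = i) :
    colSel P D Δ o (M.sub σ) i' = colSel P D Γ o M i := by
  subst hi
  by_cases hs : s ∈ D.K
  · rw [colSel_mem hP hΓ h hs, colSel_mem hP hΔ (h.subst hσ) hs]
  · rw [colSel_not_mem hP hΓ h hs, colSel_not_mem hP hΔ (h.subst hσ) hs]

theorem codSel_subst (hP : PairSpec P) {a b : S} (hA : Der P Γ A (.srt a))
    (hB : Der P (A :: Γ) B (.srt b)) (hσ : Subs P σ Γ Δ) (O : S → Tm S) {i i' j j' : Tm S}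
    (hi : i' = i) (hj : j' = j) :
    codSel P D Δ (A.sub σ) (B.sub (ups σ)) O i' j' = codSel P D Γ A B O i j := by
  subst hi; subst hj
  by_cases hb : b ∈ D.C
  · rw [codSel_mem hP hB hb, codSel_mem hP (hB.subst (hσ.up A)) hb]
    by_cases ha : a ∈ D.C
    · rw [hatSel_mem hP hA ha, hatSel_mem hP (hA.subst hσ) ha]
    · rw [hatSel_not_mem hP hA ha, hatSel_not_mem hP (hA.subst hσ) ha]
  · rw [codSel_not_mem hP hB hb, codSel_not_mem hP (hB.subst (hσ.up A)) hb]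

/-- The environment read through a renaming. -/
def HEnv.reindex (e : HEnv S) (ξ : ℕ → ℕ) : HEnv S where
  v w n := e.v w (ξ n)
  O := e.O
  o := e.o

theorem Rens.toSubs {ξ : ℕ → ℕ} (h : Rens ξ Γ Δ) : Subs P (fun n => .var (ξ n)) Γ Δ := by
  intro n X hX
  rw [← Tm.ren_eq_sub]
  exact .var (h n X hX)

theorem Wf.var_col (hΓ : Wf P Γ) {n : ℕ} {X : Tm S} (h : Lk Γ n X) :
    ∃ c, HasCol P Γ (.var n) c := by
  obtain ⟨c, hc⟩ := hΓ.lookup h
  exact ⟨c, X, .var h, hc⟩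

/-- The agreement between a substitution and a pair of environments. -/
def Compat (P : Spec S) (D : HData S) (Γ Δ : List (Tm S)) (σ : ℕ → Tm S) (e e' : HEnv S) :
    Prop :=
  Subs P σ Γ Δ ∧ e'.O = e.O ∧ e'.o = e.o ∧
    ∀ n X w, Lk Γ n X → hom P D Δ e w (σ n) = colSel P D Γ e.o (.var n) (e'.v w n)

/-- The homomorphisms follow every compatibility relation that is closed under binders. -/
theorem hom_map (hP : PairSpec P)
    (G : List (Tm S) → List (Tm S) → (ℕ → Tm S) → HEnv S → HEnv S → Prop)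
    (hG : ∀ {Γ Δ σ e e'}, Wf P Γ → Wf P Δ → G Γ Δ σ e e' → Compat P D Γ Δ σ e e')
    (hup : ∀ {Γ Δ σ e e'} {A : Tm S} {s : S}, Wf P Γ → Wf P Δ → Der P Γ A (.srt s) →
      G Γ Δ σ e e' → G (A :: Γ) (A.sub σ :: Δ) (ups σ) e.up e'.up)
    (h : Der P Γ M T) :
    ∀ {Δ : List (Tm S)} {σ : ℕ → Tm S} {e e' : HEnv S}, Wf P Γ → Wf P Δ →
      G Γ Δ σ e e' → ∀ w, hom P D Δ e w (M.sub σ) = hom P D Γ e' w M := by
  induction h with
  | axiom_ _ => intros; rfl
  | var h =>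
    intro Δ σ e e' hΓ hΔ g w
    obtain ⟨-, -, ho, hv⟩ := hG hΓ hΔ g
    simp only [Tm.sub, hom, ho]
    exact hv _ _ _ h
  | @prod Γ A B a b c hA hB hr ihA ihB =>
    intro Δ σ e e' hΓ hΔ g w
    obtain ⟨hσ, hO, ho, -⟩ := hG hΓ hΔ g
    have hΓ' := hΓ.cons hA
    have hΔ' := hΔ.cons (hA.subst hσ)
    have hA0 : tySel P D Δ e.O (A.sub σ) (hom P D Δ e false (A.sub σ)) =
        tySel P D Γ e'.O A (hom P D Γ e' false A) := by
      rw [hO]; exact tySel_subst hP hA hσ _ (ihA hΓ hΔ g _)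
    have g' := hup hΓ hΔ hA g
    have hO' : e'.up.O = e.up.O := (hG hΓ' hΔ' g').2.1
    simp only [Tm.sub, hom, hA0, hO']
    refine congrArg _ (congrArg _ ?_)
    refine tySel_subst hP hB (hσ.up A) _ ?_
    cases w
    · simpa using ihB hΓ' hΔ' g' false
    · simp only [if_true]
      exact codSel_subst hP hA hB hσ _ (congrArg _ (ihA hΓ hΔ g true)) (ihB hΓ' hΔ' g' true)
  | @abs Γ A B M a s hA hM hp ihA ihM _ =>
    intro Δ σ e e' hΓ hΔ g w
    obtain ⟨hσ, hO, ho, -⟩ := hG hΓ hΔ g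
    have hΓ' := hΓ.cons hA
    have hΔ' := hΔ.cons (hA.subst hσ)
    have g' := hup hΓ hΔ hA g
    have hc : HasCol P Γ (.lam A M) s := ⟨_, .abs hA hM hp, hp⟩
    simp only [Tm.sub, hom, ho]
    refine colSel_subst hP hΓ hΔ hc hσ _ ?_
    have hA0 : tySel P D Δ e.O (A.sub σ) (hom P D Δ e false (A.sub σ)) =
        tySel P D Γ e'.O A (hom P D Γ e' false A) := by
      rw [hO]; exact tySel_subst hP hA hσ _ (ihA hΓ hΔ g _)
    rw [hA0, ihM hΓ' hΔ' g' w]
  | @appl Γ f a A B hf ha ihf iha =>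
    intro Δ σ e e' hΓ hΔ g w
    obtain ⟨hσ, hO, ho, -⟩ := hG hΓ hΔ g
    obtain ⟨s, hc, -⟩ := hP.app_col hΓ hf ha
    simp only [Tm.sub, hom, ho]
    refine colSel_subst hP hΓ hΔ hc hσ _ ?_
    rw [ihf hΓ hΔ g w, iha hΓ hΔ g false, iha hΓ hΔ g true]
  | conv _ _ _ ih _ => exact ih

/-- The homomorphisms commute with renaming. -/
theorem hom_ren (hP : PairSpec P) (h : Der P Γ M T) (hΓ : Wf P Γ) (hΔ : Wf P Δ) {ξ : ℕ → ℕ}
    (hξ : Rens ξ Γ Δ) (e : HEnv S) (w : Bool) :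
    hom P D Δ e w (M.ren ξ) = hom P D Γ (e.reindex ξ) w M := by
  rw [Tm.ren_eq_sub]
  refine hom_map hP
    (fun Γ Δ σ e e' => ∃ ξ, σ = (fun n => .var (ξ n)) ∧ Rens ξ Γ Δ ∧ e' = e.reindex ξ)
    ?_ ?_ h hΓ hΔ ⟨ξ, rfl, hξ, rfl⟩ w
  · rintro Γ Δ σ e e' hΓ hΔ ⟨ξ, rfl, hξ, rfl⟩
    refine ⟨hξ.toSubs, rfl, rfl, fun n X w hX => ?_⟩
    obtain ⟨c, hc⟩ := hΓ.var_col hX
    exact colSel_subst hP hΓ hΔ hc hξ.toSubs e.o rfl
  · rintro Γ Δ σ e e' A s hΓ hΔ hA ⟨ξ, rfl, hξ, rfl⟩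
    refine ⟨upr ξ, ?_, ?_, ?_⟩
    · funext n; cases n <;> rfl
    · simpa [Tm.ren_eq_sub] using hξ.up A
    · refine HEnv.ext' (fun w n => ?_) (fun _ => rfl) (fun _ => rfl)
      cases n <;> rfl

theorem colSel_ren (hP : PairSpec P) (hΓ : Wf P Γ) (hΔ : Wf P Δ) (h : HasCol P Γ M s)
    {ξ : ℕ → ℕ} (hξ : Rens ξ Γ Δ) (o : S → Tm S) (i : Tm S) :
    colSel P D Δ o (M.ren ξ) i = colSel P D Γ o M i := by
  rw [Tm.ren_eq_sub]
  exact colSel_subst hP hΓ hΔ h hξ.toSubs o rfl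

/-- Substitution in the source composes the environment. -/
theorem hom_subst (hP : PairSpec P) (h : Der P Γ M T) (hΓ : Wf P Γ) (hΔ : Wf P Δ)
    {e' : HEnv S} (hc : Compat P D Γ Δ σ e e') (w : Bool) :
    hom P D Δ e w (M.sub σ) = hom P D Γ e' w M := by
  refine hom_map hP (Compat P D) (fun _ _ g => g) ?_ h hΓ hΔ hc w
  rintro Γ Δ σ e e' A s hΓ hΔ hA ⟨hσ, hO, ho, hv⟩
  have hΓ' := hΓ.cons hA
  have hΔ' := hΔ.cons (hA.subst hσ)
  refine ⟨hσ.up A, ?_, ?_, fun n X w hX => ?_⟩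
  · funext s; exact congrArg (Tm.ren (· + 2)) (congrFun hO s)
  · funext s; exact congrArg (Tm.ren (· + 2)) (congrFun ho s)
  · cases hX with
    | zero =>
      obtain ⟨c, hc⟩ := hΓ'.var_col (Lk.zero (Γ := Γ) (A := A))
      exact colSel_subst hP hΓ' hΔ' hc (hσ.up A) e.up.o rfl
    | @succ _ X' _ k hX' =>
      obtain ⟨c, hc⟩ := hΓ.var_col hX'
      have hr : e.up.reindex Nat.succ = e.sub fun n => .var (n + 2) := by
        refine HEnv.ext' (fun w m => ?_) (fun s => ?_) (fun s => ?_) <;>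
          simp [HEnv.reindex, HEnv.sub, HEnv.up, Tm.ren_eq_sub]
      show hom P D _ e.up w ((σ k).ren Nat.succ) =
        colSel P D (A :: Γ) e.up.o ((Tm.var k).ren Nat.succ) ((e'.v w k).ren (· + 2))
      rw [hom_ren hP (hσ _ _ hX') hΔ hΔ' (Rens.succ _ _), hr, ← hom_target_ren,
        hv _ _ _ hX', colSel_ren hP hΓ hΓ' hc (Rens.succ _ _), Tm.ren_eq_sub, colSel_sub]
      simp [HEnv.up, Tm.ren_eq_sub]

end Vale.Agent.P340
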