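import Vale.Agent.P340.HomBeta

/-!
# The images are typed in the original system

Only products along rules of the system are formed, so both homomorphisms send typed
expressions to typed expressions; the type of either image is the image of the type in the
world `false`.
-/

namespace Vale.Agent.P340

variable {S : Type}

/-- A list of pairs of colours of the class, composable by rules, from `a` to `z`. -/
inductive Walk (P : Spec S) (D : HData S) : S → List (S × S) → S → Prop
  | nil (a : S) : Walk P D a [] a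
  | cons {a d d' z l} : d ∈ D.C → d' ∈ D.C → P.rule a d d → P.rule d d' d' →
      Walk P D d' l z → Walk P D a ((d, d') :: l) z

/-- What the homomorphisms need of the class and the collapsed colours. -/
structure HData.OK (P : Spec S) (D : HData S) : Prop where
  not_ax : ∀ s t, P.ax s t → t ∉ D.K
  not_K : ∀ {s}, s ∈ D.C → s ∉ D.K
  walk : ∀ {s}, s ∈ D.C → Walk P D s (D.walk s) s
  cp_mem : ∀ {s}, s ∈ D.C → D.cp s ∈ D.C
  cp_rule : ∀ {s}, s ∈ D.C → P.rule (D.cp s) s s

/-- The images of the variables and the constants are typed. -/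
structure EnvOK (P : Spec S) (D : HData S) (Γ Δ : List (Tm S)) (e : HEnv S) : Prop where
  wf : Wf P Δ
  ans : ∀ {s}, s ∈ D.C ∨ s ∈ D.K → Der P Δ (e.O s) (.srt s)
  pt : ∀ {s}, s ∈ D.K → Der P Δ (e.o s) (e.O s)
  var : ∀ {n X} (w : Bool), Lk Γ n X →
    Der P Δ (colSel P D Γ e.o (.var n) (e.v w n)) (homTy P D Γ e false X)

variable {P : Spec S} {D : HData S} {Γ Δ : List (Tm S)} {M T A : Tm S} {e : HEnv S} {s : S}

theorem homTy_srt (hD : D.OK P) (Γ : List (Tm S)) (e : HEnv S) (w : Bool) (s : S) :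
    homTy P D Γ e w (.srt s) = .srt s :=
  tySel_srt hD.not_ax

theorem Der.arr {X Y : Tm S} {a b : S} (hX : Der P Δ X (.srt a)) (hY : Der P Δ Y (.srt b))
    (hr : P.rule a b b) : Der P Δ (Tm.arr X Y) (.srt b) :=
  .prod hX (hY.weaken X) hr

theorem negs_typed {O : S → Tm S} (hO : ∀ s ∈ D.C, Der P Δ (O s) (.srt s)) {a z : S}
    {l : List (S × S)} (h : Walk P D a l z) :
    ∀ {X : Tm S}, Der P Δ X (.srt a) → Der P Δ (negs O l X) (.srt z) := by
  induction h with
  | nil => exact id
  | cons hd hd' hr hr' _ ih => exact fun hX => ih ((hX.arr (hO _ hd) hr).arr (hO _ hd') hr')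

/-- Weakening of the source is a double weakening of the target. -/
theorem hom_weaken (hP : PairSpec P) (h : Der P Γ M T) (hΓ : Wf P Γ)
    (hA : Der P Γ A (.srt s)) (w : Bool) :
    hom P D (A :: Γ) e.up w (M.ren Nat.succ) = (hom P D Γ e w M).ren (· + 2) := by
  have hr : e.up.reindex Nat.succ = e.sub fun n => .var (n + 2) := by
    refine HEnv.ext' (fun w m => ?_) (fun s => ?_) (fun s => ?_) <;>
      simp [HEnv.reindex, HEnv.sub, HEnv.up, Tm.ren_eq_sub]
  rw [hom_ren hP h hΓ (hΓ.cons hA) (Rens.succ _ _), hr, hom_target_ren]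

theorem homTy_weaken (hP : PairSpec P) {X : Tm S} {c : S} (h : Der P Γ X (.srt c))
    (hΓ : Wf P Γ) (hA : Der P Γ A (.srt s)) :
    homTy P D (A :: Γ) e.up false (X.ren Nat.succ) = (homTy P D Γ e false X).ren (· + 2) := by
  by_cases hc : c ∈ D.K
  · rw [homTy, homTy, tySel_mem hP (h.weaken A) hc, tySel_mem hP h hc]
    rfl
  · rw [homTy, homTy, tySel_not_mem hP (h.weaken A) hc, tySel_not_mem hP h hc,
      hom_weaken hP h hΓ hA]

theorem Der.weaken2 {X Y : Tm S} (h : Der P Δ M T) :
    Der P (X :: Y :: Δ) (M.ren (· + 2)) (T.ren (· + 2)) := by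
  simpa [Tm.ren_ren, Function.comp_def] using (h.weaken Y).weaken X

/-- Going under a doubled binder. -/
theorem EnvOK.up (hP : PairSpec P) (hΓ : Wf P Γ) (hA : Der P Γ A (.srt s))
    (he : EnvOK P D Γ Δ e) {A₀ : Tm S} (hA₀ : A₀ = homTy P D Γ e false A)
    (hd : Der P Δ A₀ (.srt s)) :
    EnvOK P D (A :: Γ) (A₀.ren Nat.succ :: A₀ :: Δ) e.up := by
  have hd' : Der P (A₀ :: Δ) (A₀.ren Nat.succ) (.srt s) := hd.weaken A₀
  refine ⟨(he.wf.cons hd).cons hd', fun h => (he.ans h).weaken2,
    fun h => (he.pt h).weaken2, fun {n X} w hX => ?_⟩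
  cases hX with
  | zero =>
    rw [homTy_weaken hP hA hΓ hA, ← hA₀]
    have hv : Der P (A₀.ren Nat.succ :: A₀ :: Δ) (e.up.v w 0) (A₀.ren (· + 2)) := by
      have h0 := Der.var (P := P) (Lk.zero (Γ := A₀ :: Δ) (A := A₀.ren Nat.succ))
      have h1 := Der.var (P := P) ((Lk.zero (Γ := Δ) (A := A₀)).succ (B := A₀.ren Nat.succ))
      rw [Tm.ren_ren] at h0 h1
      cases w
      · exact h1
      · exact h0
    have hc : HasCol P (A :: Γ) (.var 0) s := ⟨_, .var .zero, hA.weaken A⟩
    by_cases hs : s ∈ D.K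
    · rw [colSel_mem hP (hΓ.cons hA) hc hs, hA₀, homTy, tySel_mem hP hA hs]
      rw [hA₀, homTy, tySel_mem hP hA hs] at hv
      exact ((he.pt hs).weaken2 : Der P _ _ _)
    · rw [colSel_not_mem hP (hΓ.cons hA) hc hs]
      exact hv
  | @succ _ X' _ k hX' =>
    obtain ⟨c, hc⟩ := hΓ.lookup hX'
    rw [homTy_weaken hP hc hΓ hA]
    have hcol : HasCol P Γ (.var k) c := ⟨_, .var hX', hc⟩
    have h := (he.var w hX').weaken2 (X := A₀.ren Nat.succ) (Y := A₀)
    have he' : colSel P D (A :: Γ) e.up.o ((Tm.var k).ren Nat.succ) ((e.v w k).ren (· + 2)) =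
        (colSel P D Γ e.o (.var k) (e.v w k)).ren (· + 2) := by
      rw [colSel_ren hP hΓ (hΓ.cons hA) hcol (Rens.succ _ _), Tm.ren_eq_sub, Tm.ren_eq_sub,
        colSel_sub]
      simp [HEnv.up, Tm.ren_eq_sub]
    rw [← he'] at h
    exact h

/-- Both images are typed, at the image of the type in the world `false`. -/
theorem hom_typing (hP : PairSpec P) (hD : D.OK P) (h : Der P Γ M T) :
    ∀ {Δ : List (Tm S)} {e : HEnv S}, Wf P Γ → EnvOK P D Γ Δ e → ∀ w,
      Der P Δ (hom P D Γ e w M) (homTy P D Γ e false T) := by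
  induction h with
  | axiom_ ha =>
    intro Δ e _ _ w
    rw [homTy_srt hD]
    exact .axiom_ ha
  | var h => intro Δ e _ he w; exact he.var w h
  | @prod Γ A B a b c hA hB hr ihA ihB =>
    intro Δ e hΓ he w
    obtain rfl := hP.rule_eq hr
    rw [homTy_srt hD]
    have hA0 : Der P Δ (homTy P D Γ e false A) (.srt a) := by
      by_cases ha : a ∈ D.K
      · rw [homTy, tySel_mem hP hA ha]; exact he.ans (.inr ha)
      · rw [homTy, tySel_not_mem hP hA ha, ← homTy_srt hD Γ e false a]
        exact ihA hΓ he false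
    have he' := he.up hP hΓ hA rfl hA0
    have hB0 := ihB (hΓ.cons hA) he' w
    rw [homTy_srt hD] at hB0
    simp only [hom]
    refine .prod hA0 (.prod (hA0.weaken _) ?_ hr) hr
    by_cases hbK : c ∈ D.K
    · rw [tySel_mem hP hB hbK]; exact he'.ans (.inr hbK)
    rw [tySel_not_mem hP hB hbK]
    cases w
    · simpa [homTy] using hB0
    simp only [if_true]
    by_cases hb : c ∈ D.C
    · rw [codSel_mem hP hB hb]
      have hO : ∀ s ∈ D.C, Der P ((homTy P D Γ e false A).ren Nat.succ ::
          homTy P D Γ e false A :: Δ) (e.up.O s) (.srt s) := fun s hs => he'.ans (.inl hs)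
      have hn := negs_typed hO (hD.walk hb) hB0
      by_cases ha : a ∈ D.C
      · rw [hatSel_mem hP hA ha]
        refine Der.arr (negs_typed hO (hD.walk ha) ?_) hn hr
        have := ihA hΓ he true
        rw [homTy_srt hD] at this
        exact this.weaken2
      · rw [hatSel_not_mem hP hA ha]
        exact Der.arr (hO _ (hD.cp_mem hb)) hn (hD.cp_rule hb)
    · rw [codSel_not_mem hP hB hb]
      exact hB0
  | @abs Γ A B M a s hA hM hp ihA ihM ihp =>
    intro Δ e hΓ he w
    have hc : HasCol P Γ (.lam A M) s := ⟨_, .abs hA hM hp, hp⟩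
    by_cases hs : s ∈ D.K
    · rw [hom_col_mem hP hD.not_ax hΓ hc hs, homTy, tySel_mem hP hp hs]
      exact he.pt hs
    have hA0 : Der P Δ (homTy P D Γ e false A) (.srt a) := by
      by_cases ha : a ∈ D.K
      · rw [homTy, tySel_mem hP hA ha]; exact he.ans (.inr ha)
      · rw [homTy, tySel_not_mem hP hA ha, ← homTy_srt hD Γ e false a]
        exact ihA hΓ he false
    have hb := ihM (hΓ.cons hA) (he.up hP hΓ hA rfl hA0) w
    have hp0 := ihp hΓ he false
    rw [homTy_srt hD] at hp0
    rw [homTy, tySel_not_mem hP hp hs]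
    simp only [hom, Bool.false_eq_true, if_false] at hp0 ⊢
    rw [colSel_not_mem hP hΓ hc hs]
    have hp1 := hP.pi_sort hp0
    exact .abs hA0 (.abs (hA0.weaken _) hb hp1) hp0
  | @appl Γ f a A B hf ha ihf iha =>
    intro Δ e hΓ he w
    obtain ⟨c, hc, hp⟩ := hP.app_col hΓ hf ha
    have hBi : Der P Γ (B.inst a) (.srt c) := (hP.pi_sort hp).inst ha
    by_cases hk : c ∈ D.K
    · rw [hom_col_mem hP hD.not_ax hΓ hc hk, homTy, tySel_mem hP hBi hk]
      exact he.pt hk
    obtain ⟨s₁, -, -, hA, -, -, -⟩ := hf.pi_type hΓ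
    have hf' := ihf hΓ he w
    rw [homTy, tySel_not_mem hP hp hk] at hf'
    simp only [hom, Bool.false_eq_true, if_false] at hf'
    rw [tySel_not_mem hP (hP.pi_sort hp) hk] at hf'
    rw [homTy, tySel_not_mem hP hBi hk, hom_inst hP hD.not_ax hΓ hA (hP.pi_sort hp) ha,
      ← Tm.inst_sub2]
    simp only [hom]
    rw [colSel_not_mem hP hΓ hc hk]
    refine Der.appl ?_ (iha hΓ he true)
    have h2 := hf'.appl (iha hΓ he false)
    simpa [Tm.inst, homTy, Function.comp_def] using h2
  | @conv Γ M A B s hM hB hc ihM ihB =>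
    intro Δ e hΓ he w
    have hA : Der P Γ A (.srt s) := by
      rcases hM.correct hΓ with ⟨t, rfl⟩ | ⟨t, ht⟩
      · exact hB.red hΓ (red_of_bconv_srt hc.symm)
      · rwa [hP.sort_conv hΓ ht hB hc] at ht
    have hB0 : Der P Δ (homTy P D Γ e false B) (.srt s) := by
      by_cases hs : s ∈ D.K
      · rw [homTy, tySel_mem hP hB hs]; exact he.ans (.inr hs)
      · rw [homTy, tySel_not_mem hP hB hs, ← homTy_srt hD Γ e false s]
        exact ihB hΓ he false
    exact .conv (ihM hΓ he w) hB0 (homTy_bconv hP hD.not_ax hΓ hA hB hc false)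

/-- The image of a type in either world is a type of the same sort. -/
theorem hom_type (hP : PairSpec P) (hD : D.OK P) (h : Der P Γ A (.srt s)) (hΓ : Wf P Γ)
    (he : EnvOK P D Γ Δ e) (w : Bool) : Der P Δ (hom P D Γ e w A) (.srt s) := by
  simpa [homTy_srt hD] using hom_typing hP hD h hΓ he w

end Vale.Agent.P340
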