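import Vale.Agent.P340.CpsSub
import Vale.Agent.P340.Conservation

/-!
# The translation simulates every step of a skeleton
-/

namespace Vale.Agent.P340

open Relation

theorem ured_keep {t t' : U} (h : URed t t') (e : U) :
    URed (.app (.app (.tapp .cst) t) e) (.app (.app (.tapp .cst) t') e) :=
  URed.app (URed.app .refl h) .refl

theorem uplus_keep {t t' : U} (h : UPlus t t') (e : U) :
    UPlus (.app (.app (.tapp .cst) t) e) (.app (.app (.tapp .cst) t') e) :=
  (h.appR _).appL _

/-- Contracting the redex of an abstraction applied to an argument. -/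
theorem ev_beta {f K t : U} (h : Ev f K t) : ∀ b a v k, f = .lam b → Th (a.ren Nat.succ) v →
    K = .lam (.app (.app (.var 0) v) (k.ren Nat.succ)) →
    ∃ t', UPlus t t' ∧ Ev (b.inst a) k t' := by
  refine (cps_induction (Q := fun _ _ => True) (R := fun _ _ => True)
    (P := fun f K t => ∀ b a v k, f = .lam b → Th (a.ren Nat.succ) v →
      K = .lam (.app (.app (.var 0) v) (k.ren Nat.succ)) →
      ∃ t', UPlus t t' ∧ Ev (b.inst a) k t')
    ?_ ?_ ?_ ?_ ?_ ?_ ?_ ?_ ?_ (fun _ => trivial) (fun _ _ => trivial)
    (fun _ _ => trivial)).1 h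
  · intro n k b a v k' h; exact U.noConfusion h
  · intro k b a v k' h; exact U.noConfusion h
  · intro b t K hb _ b' a v k e hv eK
    cases e
    subst eK
    -- the source and target substitutions
    let σ : ℕ → U := fun n => n.casesOn .cst (U.sub0 a)
    let L : U := .lam (.lam (.app (.app (.tapp .cst) t) (.var 1)))
    let v' : U := v.inst L
    let τ : ℕ → U := fun n => ((U.up (U.sub0 v')) n).inst k
    have hv' : Th a v' := by
      have := cps_vsub.2.1 hv (U.sub0 L) (U.sub0 L) fun m hm => by
        cases m with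
        | zero => exact absurd hm (U.not_occ_zero_succ _)
        | succ m => exact ⟨m, rfl, rfl⟩
      simpa [U.inst, Function.comp_def, v'] using this
    have hστ : ThOn (b.ren Nat.succ) σ τ := by
      intro n hn
      cases n with
      | zero => exact absurd hn (U.not_occ_zero_succ _)
      | succ n =>
        cases n with
        | zero => simpa [σ, τ] using hv'
        | succ n => simpa [σ, τ, U.inst] using Th.var n
    obtain ⟨t', h1, h2⟩ := cps_sub.1 hb σ τ hστ
    have h3 : Ev (b.inst a) k t' := by simpa [σ, τ, U.inst, Function.comp_def] using h2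
    refine ⟨.app (.app (.tapp .cst) t') v', ?_, .keep v' h3⟩
    have s1 : UStep (.app (.lam (.app (.app (.var 0) v) (k.ren Nat.succ))) L)
        (.app (.app L v') k) := by
      have := UStep.beta (.app (.app (.var 0) v) (k.ren Nat.succ)) L
      simpa [U.inst, v', Function.comp_def] using this
    have s2 : UStep (.app (.app L v') k)
        (.app (.lam (.app (.app (.tapp .cst) (t.sub (U.up (U.sub0 v')))) (v'.ren Nat.succ))) k) := by
      refine UStep.appL _ ?_
      have := UStep.beta (.lam (.app (.app (.tapp .cst) t) (.var 1))) v'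
      simpa [U.inst, L] using this
    have s3 : UStep
        (.app (.lam (.app (.app (.tapp .cst) (t.sub (U.up (U.sub0 v')))) (v'.ren Nat.succ))) k)
        (.app (.app (.tapp .cst) (t.sub τ)) v') := by
      have := UStep.beta (.app (.app (.tapp .cst) (t.sub (U.up (U.sub0 v')))) (v'.ren Nat.succ)) k
      simpa [U.inst, U.sub_sub, τ, Function.comp_def] using this
    exact TransGen.trans_left (((TransGen.single s1).tail s2).tail s3) (ured_keep h1 v')
  · intro b t k hb _ b' a v k' h; exact U.noConfusion h
  · intro f a v k t _ _ _ _ b' a' v' k' h; exact U.noConfusion h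
  · intro f k t _ _ b' a' v' k' h; exact U.noConfusion h
  · intro a b a' b' k _ _ _ _ b'' a'' v k' h; exact U.noConfusion h
  · intro b b' k _ _ b'' a v k' h; exact U.noConfusion h
  · intro u k t e _ ih b a v k' h hv hK
    obtain ⟨t', h1, h2⟩ := ih b a v k' h hv hK
    exact ⟨_, uplus_keep h1 e, .keep e h2⟩

/-- Contracting the redex of a type abstraction. -/
theorem ev_tbeta {f K t : U} (h : Ev f K t) : ∀ b k, f = .tlam b → ¬ U.Occ 0 b →
    K = .lam (.app (.tapp (.var 0)) (k.ren Nat.succ)) →
    ∃ t', UPlus t t' ∧ Ev (b.inst .cst) k t' := by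
  refine (cps_induction (Q := fun _ _ => True) (R := fun _ _ => True)
    (P := fun f K t => ∀ b k, f = .tlam b → ¬ U.Occ 0 b →
      K = .lam (.app (.tapp (.var 0)) (k.ren Nat.succ)) →
      ∃ t', UPlus t t' ∧ Ev (b.inst .cst) k t')
    ?_ ?_ ?_ ?_ ?_ ?_ ?_ ?_ ?_ (fun _ => trivial) (fun _ _ => trivial)
    (fun _ _ => trivial)).1 h
  · intro n k b k' h; exact U.noConfusion h
  · intro k b k' h; exact U.noConfusion h
  · intro b t k hb _ b' k' h; exact U.noConfusion h
  · intro b t K hb _ b' k e hocc eK
    cases e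
    subst eK
    let σ : ℕ → U := fun n => n.casesOn .cst (U.sub0 .cst)
    let τ : ℕ → U := fun n => ((U.up (U.sub0 .cst)) n).inst k
    have hστ : ThOn (b.ren Nat.succ) σ τ := by
      intro n hn
      cases n with
      | zero => exact absurd hn (U.not_occ_zero_succ _)
      | succ n =>
        cases n with
        | zero => exact absurd ((U.occ_succ _ _).1 hn) hocc
        | succ n => simpa [σ, τ, U.inst] using Th.var n
    obtain ⟨t', h1, h2⟩ := cps_sub.1 hb σ τ hστ
    have h3 : Ev (b.inst .cst) k t' := by simpa [σ, τ, U.inst, Function.comp_def] using h2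
    refine ⟨t', ?_, h3⟩
    have s1 : UStep (.app (.lam (.app (.tapp (.var 0)) (k.ren Nat.succ))) (.tlam (.lam t)))
        (.app (.tapp (.tlam (.lam t))) k) := by
      have := UStep.beta (.app (.tapp (.var 0)) (k.ren Nat.succ)) (.tlam (.lam t))
      simpa [U.inst, Function.comp_def] using this
    have s2 : UStep (.app (.tapp (.tlam (.lam t))) k)
        (.app (.lam (t.sub (U.up (U.sub0 .cst)))) k) := by
      refine UStep.appL _ ?_
      have := UStep.tbeta (.lam t)
      simpa [U.inst] using this
    have s3 : UStep (.app (.lam (t.sub (U.up (U.sub0 .cst)))) k) (t.sub τ) := by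
      have := UStep.beta (t.sub (U.up (U.sub0 .cst))) k
      simpa [U.inst, U.sub_sub, τ] using this
    exact TransGen.trans_left (((TransGen.single s1).tail s2).tail s3) h1
  · intro f a v k t _ _ _ _ b' k' h; exact U.noConfusion h
  · intro f k t _ _ b' k' h; exact U.noConfusion h
  · intro a b a' b' k _ _ _ _ b'' k' h; exact U.noConfusion h
  · intro b b' k _ _ b'' k' h; exact U.noConfusion h
  · intro u k t e _ ih b k' h ho hK
    obtain ⟨t', h1, h2⟩ := ih b k' h ho hK
    exact ⟨_, uplus_keep h1 e, .keep e h2⟩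

theorem cps_step :
    (∀ {u k t}, Ev u k t → ∀ u', UStep u u' → u.Proper → ∃ t', UPlus t t' ∧ Ev u' k t') ∧
      (∀ {u t}, Th u t → ∀ u', UStep u u' → u.Proper → ∃ t', UPlus t t' ∧ Th u' t') ∧
      ∀ {u t}, Run u t → ∀ u', UStep u u' → u.Proper → ∃ t', UPlus t t' ∧ Run u' t' := by
  apply cps_induction
  · intro n k u' hs; cases hs
  · intro k u' hs; cases hs
  · intro b t k _ ih u' hs hp
    cases hs with
    | lam hs =>
      obtain ⟨t', h1, h2⟩ := ih _ (hs.ren _) (U.proper_ren (u := b) hp _)
      exact ⟨_, ((((h1.appR _).appL _).lam).lam).appR _, .lam k h2⟩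
  · intro b t k _ ih u' hs hp
    cases hs with
    | tlam hs =>
      obtain ⟨t', h1, h2⟩ := ih _ (hs.ren _) (U.proper_ren hp.2 _)
      exact ⟨_, h1.lam.tlam.appR _, .tlam k h2⟩
  · intro f a v k t ha hf iha ihf u' hs hp
    cases hs with
    | beta b _ => exact ev_beta hf b a v k rfl ha rfl
    | appL _ hs =>
      obtain ⟨t', h1, h2⟩ := ihf _ hs hp.1
      exact ⟨t', h1, .app ha h2⟩
    | appR _ hs =>
      obtain ⟨v', h1, h2⟩ := iha _ (hs.ren _) (U.proper_ren hp.2 _)
      obtain ⟨t', h3, h4⟩ := hf.mono_plus ((h1.appR _).appL _).lam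
      exact ⟨t', h3, .app h2 h4⟩
  · intro f k t hf ih u' hs hp
    cases hs with
    | tbeta b => exact ev_tbeta hf b k rfl hp.1 rfl
    | tapp hs =>
      obtain ⟨t', h1, h2⟩ := ih _ hs hp
      exact ⟨t', h1, .tapp h2⟩
  · intro a b a' b' k ha hb iha ihb u' hs hp
    cases hs with
    | upiL _ hs =>
      obtain ⟨x, h1, h2⟩ := iha _ hs hp.1
      exact ⟨_, (h1.upiL _).appR _, .upi k h2 hb⟩
    | upiR _ hs =>
      obtain ⟨y, h1, h2⟩ := ihb _ hs hp.2
      exact ⟨_, (h1.upiR _).appR _, .upi k ha h2⟩
  · intro b b' k hb ihb u' hs hp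
    cases hs with
    | upiL _ hs => cases hs
    | upiR _ hs =>
      obtain ⟨y, h1, h2⟩ := ihb _ hs hp.2
      exact ⟨_, (h1.upiR _).appR _, .upiC k h2⟩
  · intro u k t e _ ih u' hs hp
    obtain ⟨t', h1, h2⟩ := ih _ hs hp
    exact ⟨_, uplus_keep h1 e, .keep e h2⟩
  · intro n u' hs; cases hs
  · intro u t _ ih u' hs hp
    obtain ⟨t', h1, h2⟩ := ih _ (hs.ren _) (U.proper_ren hp _)
    exact ⟨_, h1.lam, .lam h2⟩
  · intro u v _ ih u' hs hp
    obtain ⟨v', h1, h2⟩ := ih _ hs hp
    exact ⟨_, (h1.appL _).appR _, .mk h2⟩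

/-- A skeleton is strongly normal if one of its thunks is keeping and has a normal form. -/
theorem simulation : Simulation := by
  intro u t v hu hth hk hred hn
  have hsn : t.SN := conservation t v hk hred hn
  have hacc := Acc.transGen hsn
  clear hk hred hn
  induction hacc generalizing u with
  | intro t _ ih =>
    refine U.SN.intro fun u' hs => ?_
    obtain ⟨t', h1, h2⟩ := cps_step.2.1 hth u' hs hu
    refine ih t' (Relation.transGen_swap.2 h1) u' (hs.proper hu) h2 ?_
    clear ih h2
    induction h1 with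
    | single h1 => exact hsn.step h1
    | tail _ h1 ih1 => exact ih1.step h1

end Vale.Agent.P340
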