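import Vale.Agent.P340.TermTrans
import Vale.Agent.P340.Simulation

/-!
# Levels with the rules `(i,i,i)` and `(t,i,i)`

A normal form of the translation gives strong normalisation of the skeleton.
-/

namespace Vale.Agent.P340

variable {S : Type} [PartialOrder S] {P : Spec S} {i t₀ : S} {Γ : List (Tm S)} {M : Tm S}

theorem base_context (h : Level P i t₀) (l : List S) (hl : ∀ s ∈ l, P.ax s i) :
    ∃ (Δ : List (Tm S)) (κ : Konst S), Wf P Δ ∧ Der P Δ (.var κ.O) (.srt i) ∧
      Der P Δ (.var κ.c) (keeperTy i κ.O) ∧ ∀ s ∈ l,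
        Der P Δ (.var (κ.inj s)) (.pi (.srt s) (.var (κ.O + 1))) ∧
        Der P Δ (.var (κ.proj s)) (.pi (.var κ.O) (.srt s)) := by
  induction l with
  | nil =>
    have hi : ∀ Θ : List (Tm S), Der P Θ (.srt i) (.srt t₀) := fun _ => .axiom_ h.ax_i
    have hO : Der P [.srt i] (.var 0) (.srt i) := .var .zero
    have hW : Der P [.srt i, .srt i] (.var 1) (.srt i) := hO.weaken _
    have hO' : Der P [.srt i, .srt i] (.var 1) (.srt i) := hW
    have hd : ∀ {Θ : List (Tm S)} {o : ℕ} {X : Tm S}, Der P Θ (.var o) (.srt i) →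
        Der P Θ X (.srt i) → Der P Θ (dneg o X) (.srt i) := fun ho hX =>
      .prod (.prod hX (ho.weaken _) h.rule_ii)
        (ho.weaken _) h.rule_ii
    have hW0 : Der P [.srt i, .srt i] (.var 0) (.srt i) := .var .zero
    have hk : Der P [.srt i] (keeperTy i 0) (.srt i) :=
      .prod (hi _) (.prod hO' (.prod (hd (hO'.weaken _) (hW0.weaken _))
        ((hO'.weaken _).weaken _) h.rule_ii) h.rule_ii) h.rule_ti
    refine ⟨[keeperTy i 0, .srt i], ⟨1, 0, fun _ => 0, fun _ => 0⟩,
      (Wf.nil.cons (hi _)).cons hk, hO.weaken _, ?_, fun s hs => absurd hs List.not_mem_nil⟩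
    have := Der.var (P := P) (Lk.zero (Γ := [Tm.srt i]) (A := keeperTy i 0))
    rwa [keeperTy_ren] at this
  | cons a l ih =>
    obtain ⟨Δ, κ, hΔ, hO, hc, hl'⟩ := ih fun s hs => hl s (List.mem_cons_of_mem _ hs)
    have ha : P.ax a i := hl a List.mem_cons_self
    have hA : Der P Δ (.pi (.srt a) (.var (κ.O + 1))) (.srt i) :=
      .prod (.axiom_ ha) (hO.weaken _) h.rule_ii
    have hB : Der P (.pi (.srt a) (.var (κ.O + 1)) :: Δ) (.pi (.var (κ.O + 1)) (.srt a))
        (.srt i) :=
      .prod (hO.weaken _) (.axiom_ ha) h.rule_ii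
    classical
    refine ⟨.pi (.var (κ.O + 1)) (.srt a) :: .pi (.srt a) (.var (κ.O + 1)) :: Δ,
      ⟨κ.O + 2, κ.c + 2, fun s => if s = a then 1 else κ.inj s + 2,
        fun s => if s = a then 0 else κ.proj s + 2⟩,
      (hΔ.cons hA).cons hB, (hO.weaken _).weaken _, (hc.weaken _).weaken _, fun s hs => ?_⟩
    by_cases hsa : s = a
    · subst hsa
      simp only [if_pos]
      exact ⟨.var Lk.zero.succ, .var .zero⟩
    · simp only [if_neg hsa]
      obtain ⟨h1, h2⟩ := hl' s (List.mem_of_ne_of_mem hsa hs)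
      exact ⟨(h1.weaken _).weaken _, (h2.weaken _).weaken _⟩

/-- Every context has a target. -/
theorem env_exists (h : Level P i t₀) (hfin : {s | P.ax s i}.Finite) (hΓ : Wf P Γ) :
    ∃ Δ κ, Env P i Γ Δ id κ Γ.length := by
  induction hΓ with
  | nil =>
    obtain ⟨Δ, κ, hΔ, hO, hc, hl⟩ :=
      base_context h hfin.toFinset.toList fun s hs => by simpa using hs
    exact ⟨Δ, κ, .nil, hΔ, fun n A j h' => (nomatch h'), fun n A h' => (nomatch h'), hO, hc,
      fun s hs => (hl s (by simpa using hs)).1, fun s hs => (hl s (by simpa using hs)).2,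
      Nat.zero_le _, Nat.zero_le _, fun _ _ => Nat.zero_le _, fun _ _ => Nat.zero_le _⟩
  | @cons Γ A s hΓ hA ih =>
    obtain ⟨Δ, κ, e⟩ := ih
    by_cases hs : i ≤ s
    · have hX := wrap_typed h.spec h.rule_ii e hA
        (tr_sort h.spec h.rule_ii e hA (Hi.of_le h.spec hs))
      have := e.cons h.spec hA hX fun _ => rfl
      rw [upr_id] at this
      exact ⟨_, _, this⟩
    · have := e.cons h.spec hA e.ans fun hle => absurd hle hs
      rw [upr_id] at this
      exact ⟨_, _, this⟩

theorem normal_rho : ∀ (u : U) (L : ℕ), u.Normal → (u.sub (rho L)).Normal := by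
  intro u
  induction u with
  | var n =>
    intro L _ v hv
    by_cases h : n < L
    · rw [U.sub_var, rho_lt h] at hv; cases hv
    · rw [U.sub_var, rho_ge (not_lt.1 h)] at hv; cases hv
  | cst => intro L _ v hv; cases hv
  | lam b ih =>
    intro L hu v hv
    rw [U.sub_lam, up_rho] at hv
    cases hv with | lam hs => exact ih _ (fun w hw => hu _ (.lam hw)) _ hs
  | tlam b ih =>
    intro L hu v hv
    rw [U.sub_tlam, up_rho] at hv
    cases hv with | tlam hs => exact ih _ (fun w hw => hu _ (.tlam hw)) _ hs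
  | app f a ihf iha =>
    intro L hu v hv
    rw [U.sub_app] at hv
    generalize he : f.sub (rho L) = e at hv
    cases hv with
    | beta b _ =>
      cases f with
      | var n => by_cases h : n < L <;> simp [rho, h] at he
      | lam b' => exact hu _ (.beta b' a)
      | _ => simp at he
    | appL _ hs => exact ihf L (fun w hw => hu _ (.appL _ hw)) _ (he ▸ hs)
    | appR _ hs => exact iha L (fun w hw => hu _ (.appR _ hw)) _ hs
  | tapp f ih =>
    intro L hu v hv
    rw [U.sub_tapp] at hv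
    generalize he : f.sub (rho L) = e at hv
    cases hv with
    | tbeta b =>
      cases f with
      | var n => by_cases h : n < L <;> simp [rho, h] at he
      | tlam b' => exact hu _ (.tbeta b')
      | _ => simp at he
    | tapp hs => exact ih L (fun w hw => hu _ (.tapp hw)) _ (he ▸ hs)
  | upi a b iha ihb =>
    intro L hu v hv
    rw [U.sub_upi, up_rho] at hv
    cases hv with
    | upiL _ hs => exact iha L (fun w hw => hu _ (.upiL _ hw)) _ hs
    | upiR _ hs => exact ihb _ (fun w hw => hu _ (.upiR _ hw)) _ hs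

theorem sn_of_cps (hP : GenNonDependent P) (hwn : WeaklyNormalizing P) {t : S} (hΓ : Wf P Γ)
    (hfin : {s | P.ax s i}.Finite) (hii : P.rule i i i) (hax : P.ax i t) (hti : P.rule t i i)
    (hM : Lv P Γ M i) : (erase P i Γ M).SN := by
  have h : Level P i t := ⟨hP, hii, hax, hti⟩
  obtain ⟨Δ, κ, e⟩ := env_exists h hfin hΓ
  have htr := trans_all h M Γ hΓ hM
  have hprop := erase_proper hP M Γ hΓ hM
  obtain ⟨T, hMT, hT⟩ := hM
  obtain ⟨v, hv, hth, hkeep⟩ := htr.thunk h e hMT hT
  rw [U.ren_id] at hth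
  obtain ⟨w, hvw, hw⟩ := hwn v ⟨Δ, _, Or.inl (hv.toTy e.tgt)⟩
  have hvl : Lv P Δ v i :=
    ⟨_, hv, dneg_typed hii e (tr_sort hP hii e hT (Hi.of_le hP le_rfl))⟩
  exact simulation _ _ _ hprop hth hkeep
    ((erase_red hP e.tgt hvl hvw).lift (U.sub (rho Γ.length)) fun _ _ hs => hs.sub _)
    (normal_rho _ _ (erase_normal hP w Δ e.tgt (hvl.red e.tgt hvw) hw))

end Vale.Agent.P340
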