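import Vale.Agent.P340.Typing

/-!
# Levels

In the class, types are unique up to conversion, and the level of an expression (the sort of
its type) is unique and only grows towards the subexpressions.
-/

namespace Vale.Agent.P340

variable {S : Type} [PartialOrder S] {P : Spec S}

theorem Lk.unique {Γ : List (Tm S)} {n : ℕ} {A B : Tm S} (h : Lk Γ n A) (h' : Lk Γ n B) :
    A = B := by
  induction h generalizing B with
  | zero => cases h'; rfl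
  | succ _ ih => cases h' with | succ h' => rw [ih h']

/-- Types are unique up to conversion. -/
theorem Der.unique (hP : GenNonDependent P) {Γ : List (Tm S)} {M T T' : Tm S}
    (h : Der P Γ M T) (h' : Der P Γ M T') : BConv T T' := by
  induction h generalizing T' with
  | axiom_ h =>
    obtain ⟨t, ht, hc⟩ := h'.gen_srt
    rw [hP.ax_fun h ht]; exact hc
  | var h =>
    obtain ⟨A, hl, hc⟩ := h'.gen_var
    rw [h.unique hl]; exact hc
  | prod _ _ hr ihA ihB =>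
    obtain ⟨s₁, s₂, s₃, hA, hB, hr', hc⟩ := h'.gen_pi
    rw [hP.rule_eq hr, bconv_srt_inj (ihB hB), ← hP.rule_eq hr']; exact hc
  | abs _ _ _ _ ihM _ =>
    obtain ⟨s₁, B, s, _, hb, _, hc⟩ := h'.gen_lam
    exact (BConv.pi (.refl _) (ihM hb)).trans hc
  | appl _ _ ihM _ =>
    obtain ⟨A', B', hf, _, hc⟩ := h'.gen_app
    exact ((bconv_pi_inj (ihM hf)).2.sub _).trans hc
  | conv _ _ hc ih _ => exact hc.symm.trans (ih h')

/-- `M` has a type of sort `i`. -/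
def Lv (P : Spec S) (Γ : List (Tm S)) (M : Tm S) (i : S) : Prop :=
  ∃ T, Der P Γ M T ∧ Der P Γ T (.srt i)

variable {Γ Δ : List (Tm S)} {M M' T T' A B b f a : Tm S} {i j s s₁ : S}

/-- Convertible sorted expressions have one sort. -/
theorem sort_unique (hP : GenNonDependent P) (hΓ : Wf P Γ) (h : Der P Γ T (.srt s))
    (h' : Der P Γ T' (.srt j)) (hc : BConv T T') : s = j := by
  obtain ⟨C, h1, h2⟩ := bconv_join hc
  exact bconv_srt_inj ((h.red hΓ h1).unique hP (h'.red hΓ h2))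

theorem Lv.unique (hP : GenNonDependent P) (hΓ : Wf P Γ) (h : Lv P Γ M i) (h' : Lv P Γ M j) :
    i = j := by
  obtain ⟨T, hM, hT⟩ := h
  obtain ⟨T', hM', hT'⟩ := h'
  exact sort_unique hP hΓ hT hT' (hM.unique hP hM')

theorem Lv.subst {σ : ℕ → Tm S} (h : Lv P Γ M i) (hσ : Subs P σ Γ Δ) :
    Lv P Δ (M.sub σ) i := by
  obtain ⟨T, hM, hT⟩ := h
  exact ⟨_, hM.subst hσ, hT.subst hσ⟩

theorem Lv.rename {ξ : ℕ → ℕ} (h : Lv P Γ M i) (hξ : Rens ξ Γ Δ) : Lv P Δ (M.ren ξ) i := by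
  obtain ⟨T, hM, hT⟩ := h
  exact ⟨_, hM.rename hξ, hT.rename hξ⟩

theorem Lv.red (hΓ : Wf P Γ) (h : Lv P Γ M i) (hr : Red M M') : Lv P Γ M' i := by
  obtain ⟨T, hM, hT⟩ := h
  exact ⟨T, hM.red hΓ hr, hT⟩

/-- A type has level `i` exactly when its sort has axiom `i`. -/
theorem Lv.type_iff (hP : GenNonDependent P) (hΓ : Wf P Γ) (h : Der P Γ A (.srt s)) :
    Lv P Γ A i ↔ P.ax s i := by
  refine ⟨fun ⟨T, hA, hT⟩ => ?_, fun hs => ⟨.srt s, h, .axiom_ hs⟩⟩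
  obtain ⟨C, h1, h2⟩ := bconv_join (h.unique hP hA)
  obtain ⟨t, ht, hc⟩ := (show Der P Γ (.srt s) (.srt i) from
    (red_srt h1) ▸ hT.red hΓ h2).gen_srt
  exact bconv_srt_inj hc ▸ ht

theorem Lv.of_var (hΓ : Wf P Γ) {n : ℕ} (h : Lk Γ n A) : ∃ i, Lv P Γ (.var n) i := by
  obtain ⟨s, hs⟩ := hΓ.lookup h
  exact ⟨s, A, .var h, hs⟩

/-- Every typed expression has a level, or is a sort or a product. -/
theorem Der.level_or_head (h : Der P Γ M T) (hΓ : Wf P Γ) :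
    (∃ i, Lv P Γ M i) ∨ (∃ s, M = .srt s) ∨ ∃ A B, M = .pi A B := by
  induction h with
  | axiom_ => exact .inr (.inl ⟨_, rfl⟩)
  | var h => exact .inl (Lv.of_var hΓ h)
  | prod => exact .inr (.inr ⟨_, _, rfl⟩)
  | abs hA hM hp => exact .inl ⟨_, _, .abs hA hM hp, hp⟩
  | appl hM hN =>
    obtain ⟨s₁, s₂, s₃, _, hB, _, _⟩ := hM.pi_type hΓ
    exact .inl ⟨s₂, _, .appl hM hN, hB.inst hN⟩
  | conv hM hB hc => exact .inl ⟨_, _, .conv hM hB hc, hB⟩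

/-- Components of an application of level `i`. -/
theorem Lv.app_inv (hP : GenNonDependent P) (hΓ : Wf P Γ) (h : Lv P Γ (.app f a) i) :
    ∃ A B s₁, Der P Γ f (.pi A B) ∧ Der P Γ a A ∧ Der P Γ A (.srt s₁) ∧
      Der P (A :: Γ) B (.srt i) ∧ P.rule s₁ i i ∧ Lv P Γ f i ∧ Lv P Γ a s₁ := by
  obtain ⟨T, hM, hT⟩ := h
  obtain ⟨A, B, hf, ha, hc⟩ := hM.gen_app
  obtain ⟨s₁, s₂, s₃, hA, hB, hr, hp⟩ := hf.pi_type hΓ
  have h3 := hP.rule_eq hr
  subst h3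
  have h2 : s₃ = i := sort_unique hP hΓ (hB.inst ha) hT hc
  subst h2
  exact ⟨A, B, s₁, hf, ha, hA, hB, hr, ⟨_, hf, hp⟩, _, ha, hA⟩

/-- Components of an abstraction of level `i`. -/
theorem Lv.lam_inv (hP : GenNonDependent P) (hΓ : Wf P Γ) (h : Lv P Γ (.lam A b) i) :
    ∃ B s₁, Der P Γ A (.srt s₁) ∧ Der P (A :: Γ) b B ∧ Der P (A :: Γ) B (.srt i) ∧
      P.rule s₁ i i ∧ Lv P (A :: Γ) b i := by
  obtain ⟨T, hM, hT⟩ := h
  obtain ⟨t₁, B, s, _, hb, hp, hc⟩ := hM.gen_lam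
  obtain ⟨s₁, s₂, s₃, hA, hB, hr, _⟩ := hp.gen_pi
  have h3 := hP.rule_eq hr
  subst h3
  have h2 : s₃ = i := sort_unique hP hΓ (.prod hA hB hr) hT hc
  subst h2
  exact ⟨B, s₁, hA, hb, hB, hr, B, hb, hB⟩

/-- Components of a product of level `i`. -/
theorem Lv.pi_inv (hP : GenNonDependent P) (hΓ : Wf P Γ) (h : Lv P Γ (.pi A B) i) :
    ∃ s₁ s₂, Der P Γ A (.srt s₁) ∧ Der P (A :: Γ) B (.srt s₂) ∧ P.rule s₁ s₂ s₂ ∧
      P.ax s₂ i ∧ Lv P (A :: Γ) B i ∧ ∀ t, Lv P Γ A t → i ≤ t := by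
  obtain ⟨T, hM, hT⟩ := h
  obtain ⟨s₁, s₂, s₃, hA, hB, hr, _⟩ := hM.gen_pi
  have h3 := hP.rule_eq hr
  subst h3
  have ha : P.ax s₃ i := (Lv.type_iff hP hΓ (.prod hA hB hr)).1 ⟨T, hM, hT⟩
  refine ⟨s₁, s₃, hA, hB, hr, ha, ⟨_, hB, .axiom_ ha⟩,
    fun t ht => ?_⟩
  obtain ⟨t₂, h₂, hle⟩ := hP.rule_mono hr ((Lv.type_iff hP hΓ hA).1 ht)
  exact hP.ax_fun ha h₂ ▸ hle

/-- Everything of a level above `i` is strongly normal. -/
def SNAbove (P : Spec S) (i : S) : Prop :=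
  ∀ j, i < j → ∀ Γ M, Wf P Γ → Lv P Γ M j → StronglyNormal M

/-- The types of sort `s` have a level above `i`, or none. -/
def Hi (P : Spec S) (i s : S) : Prop := ∀ t, P.ax s t → i < t

theorem Hi.of_le (hP : GenNonDependent P) (h : i ≤ s) : Hi P i s :=
  fun _ ht => h.trans_lt (hP.ax_lt ht)

theorem Hi.of_ax (hP : GenNonDependent P) (ha : P.ax s j) (h : i < j) : Hi P i s :=
  fun _ ht => hP.ax_fun ha ht ▸ h

theorem Hi.dom (hP : GenNonDependent P) {s₂ s₃ : S} (h : Hi P i s₂) (hr : P.rule s₁ s₂ s₃) :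
    Hi P i s₁ := fun t ht => by
  obtain ⟨t₂, h₂, hle⟩ := hP.rule_mono hr ht
  exact (h t₂ h₂).trans_le hle

/-- Types of level above `i`, or of no level, are strongly normal. -/
theorem sn_type (hP : GenNonDependent P) (hi : SNAbove P i) :
    ∀ (A : Tm S) (Γ : List (Tm S)) (s : S), Wf P Γ → Der P Γ A (.srt s) → Hi P i s →
      StronglyNormal A := by
  intro A
  induction A with
  | pi A B ihA ihB =>
    intro Γ s hΓ h hs
    obtain ⟨s₁, s₂, s₃, hA, hB, hr, hc⟩ := h.gen_pi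
    obtain rfl : s₃ = s := bconv_srt_inj hc
    obtain rfl : s₃ = s₂ := hP.rule_eq hr
    exact stronglyNormal_pi (ihA Γ s₁ hΓ hA (hs.dom hP hr)) (ihB _ _ (hΓ.cons hA) hB hs)
  | srt s => intro _ _ _ _ _; exact stronglyNormal_srt s
  | var n =>
    intro Γ s hΓ h hs
    rcases h.level_or_head hΓ with ⟨t, ht⟩ | ⟨_, h'⟩ | ⟨_, _, h'⟩
    · exact hi t (hs t ((Lv.type_iff hP hΓ h).1 ht)) Γ _ hΓ ht
    · simp at h'
    · simp at h'
  | lam A b _ _ =>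
    intro Γ s hΓ h hs
    rcases h.level_or_head hΓ with ⟨t, ht⟩ | ⟨_, h'⟩ | ⟨_, _, h'⟩
    · exact hi t (hs t ((Lv.type_iff hP hΓ h).1 ht)) Γ _ hΓ ht
    · simp at h'
    · simp at h'
  | app f a _ _ =>
    intro Γ s hΓ h hs
    rcases h.level_or_head hΓ with ⟨t, ht⟩ | ⟨_, h'⟩ | ⟨_, _, h'⟩
    · exact hi t (hs t ((Lv.type_iff hP hΓ h).1 ht)) Γ _ hΓ ht
    · simp at h'
    · simp at h'

/-- If every level is strongly normal, so is every typed expression. -/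
theorem sn_of_levels (hall : ∀ j Γ M, Wf P Γ → Lv P Γ M j → StronglyNormal M) :
    ∀ (M : Tm S) (Γ : List (Tm S)) (T : Tm S), Wf P Γ → Der P Γ M T → StronglyNormal M := by
  intro M
  induction M with
  | pi A B ihA ihB =>
    intro Γ T hΓ h
    obtain ⟨s₁, s₂, s₃, hA, hB, _, _⟩ := h.gen_pi
    exact stronglyNormal_pi (ihA Γ _ hΓ hA) (ihB _ _ (hΓ.cons hA) hB)
  | srt s => intro _ _ _ _; exact stronglyNormal_srt s
  | var n =>
    intro Γ T hΓ h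
    rcases h.level_or_head hΓ with ⟨t, ht⟩ | ⟨_, h'⟩ | ⟨_, _, h'⟩
    · exact hall t Γ _ hΓ ht
    · simp at h'
    · simp at h'
  | lam A b _ _ =>
    intro Γ T hΓ h
    rcases h.level_or_head hΓ with ⟨t, ht⟩ | ⟨_, h'⟩ | ⟨_, _, h'⟩
    · exact hall t Γ _ hΓ ht
    · simp at h'
    · simp at h'
  | app f a _ _ =>
    intro Γ T hΓ h
    rcases h.level_or_head hΓ with ⟨t, ht⟩ | ⟨_, h'⟩ | ⟨_, _, h'⟩
    · exact hall t Γ _ hΓ ht
    · simp at h'
    · simp at h'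

end Vale.Agent.P340
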