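import Vale.Agent.P340.Erasure
import Vale.Agent.P340.Fragment

/-!
# The induction on levels

Strong normalisation follows from that of the skeletons, level by level from the top, in every
finite fragment.
-/

namespace Vale.Agent.P340

variable {S : Type} [PartialOrder S] {P : Spec S}

/-- The three kinds of levels suffice. -/
theorem sn_of_level_lemmas
    (h₁ : ∀ Q : Spec S, GenNonDependent Q → ∀ Γ M i, Wf Q Γ → ¬ Q.rule i i i →
      Lv Q Γ M i → (erase Q i Γ M).SN)
    (h₂ : ∀ Q : Spec S, GenNonDependent Q → WeaklyNormalizing Q → ∀ Γ M i, Wf Q Γ →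
      (∀ t, Q.ax i t → ¬ Q.rule t i i) → Lv Q Γ M i → (erase Q i Γ M).SN)
    (h₃ : ∀ Q : Spec S, GenNonDependent Q → WeaklyNormalizing Q → ∀ Γ M i t, Wf Q Γ →
      {s | Q.ax s i}.Finite → Q.rule i i i → Q.ax i t → Q.rule t i i →
      Lv Q Γ M i → (erase Q i Γ M).SN)
    (hP : GenNonDependent P) (hW : WeaklyNormalizing P) : StronglyNormalizing P := by
  refine stronglyNormalizing_of_frag fun F => ?_
  have hQ := hP.frag F
  have hWQ := hW.frag F
  have hall : ∀ j Γ M, Wf (P.frag F) Γ → Lv (P.frag F) Γ M j → StronglyNormal M := by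
    intro j Γ M hΓ h
    revert Γ M
    by_cases hj : j ∈ fragSorts P F
    swap
    · exact fun Γ M hΓ h => absurd (h.mem_fragSorts hP hΓ) hj
    refine ((fragSorts_finite hP F).wellFoundedOn (r := (· > ·))).induction hj
      (P := fun k => ∀ Γ M, Wf (P.frag F) Γ → Lv (P.frag F) Γ M k → StronglyNormal M) ?_
    intro i _ ih Γ M hΓ h
    have hi : SNAbove (P.frag F) i := fun k hk Δ N hΔ hN =>
      ih k (hN.mem_fragSorts hP hΔ) hk Δ N hΔ hN
    refine sn_of_erase hQ hi hΓ h ?_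
    by_cases hr : (P.frag F).rule i i i
    · by_cases hd : ∃ t, (P.frag F).ax i t ∧ (P.frag F).rule t i i
      · obtain ⟨t, ht, htr⟩ := hd
        exact h₃ _ hQ hWQ Γ M i t hΓ (frag_ax_finite P F i) hr ht htr h
      · exact h₂ _ hQ hWQ Γ M i hΓ (fun t ht htr => hd ⟨t, ht, htr⟩) h
    · exact h₁ _ hQ Γ M i hΓ hr h
  rintro M ⟨Γ, B, hB | hB⟩
  · obtain ⟨hΓ, hd⟩ := hB.toDer
    exact sn_of_levels hall M Γ B hΓ hd
  · obtain ⟨hΓ, hd⟩ := hB.toDer
    rcases hd.correct hΓ with ⟨s, rfl⟩ | ⟨s, hs⟩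
    · exact stronglyNormal_srt s
    · exact sn_of_levels hall M Γ _ hΓ hs

end Vale.Agent.P340
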