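import Vale.Agent.P340.MemUnion

/-!
# Classes of colours with no domain edge inside

If the domain colour of a rule never lies in `C` together with its result colour, steps at `C`
terminate on all typed terms. Weak normalisation is not used.
-/

namespace Vale.Agent.P340

open Relation

variable {S L : Type} {P : Spec S} {C : Set L}

theorem MSN.red {t u : MTm S L} (h : MSN C t) (hr : MRed C t u) : MSN C u := by
  induction hr with
  | refl => exact h
  | tail _ hs ih => exact ih.inv hs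

theorem msn_var (n : ℕ) : MSN C (.var n : MTm S L) := Acc.intro _ fun u h => by cases h

theorem msn_srt (s : S) : MSN C (.srt s : MTm S L) := Acc.intro _ fun u h => by cases h

theorem msn_pi {A : MTm S L} (hA : MSN C A) :
    ∀ {B}, MSN C B → MSN C (MTm.pi A B) := by
  induction hA with
  | intro A hA₀ ihA =>
    intro B hB
    induction hB with
    | intro B hB₀ ihB =>
      refine Acc.intro _ fun u hu => ?_
      cases hu with
      | piL _ h => exact ihA _ h (Acc.intro B hB₀)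
      | piR _ h => exact ihB _ h

theorem msn_lam {A : MTm S L} (hA : MSN C A) :
    ∀ {B}, MSN C B → MSN C (MTm.lam A B) := by
  induction hA with
  | intro A hA₀ ihA =>
    intro B hB
    induction hB with
    | intro B hB₀ ihB =>
      refine Acc.intro _ fun u hu => ?_
      cases hu with
      | lamL _ h => exact ihA _ h (Acc.intro B hB₀)
      | lamR _ h => exact ihB _ h

theorem msn_mem {A : MTm S L} (hA : MSN C A) :
    ∀ {B}, MSN C B → MSN C (MTm.mem A B) := by
  induction hA with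
  | intro A hA₀ ihA =>
    intro B hB
    induction hB with
    | intro B hB₀ ihB =>
      refine Acc.intro _ fun u hu => ?_
      cases hu with
      | memL _ h => exact ihA _ h (Acc.intro B hB₀)
      | memR _ h => exact ihB _ h

theorem msn_app {c : L} {f : MTm S L} (hf : MSN C f) : ∀ {a}, MSN C a →
    (∀ f' a' r, c ∈ C → MRed C f f' → MRed C a a' → Ctr f' a' r → MSN C r) →
    MSN C (MTm.app c f a) := by
  induction hf with
  | intro f hf₀ ihf =>
    intro a ha
    induction ha with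
    | intro a ha₀ iha =>
      intro h
      refine Acc.intro _ fun u hu => ?_
      cases hu with
      | beta hc hr => exact h _ _ _ hc .refl .refl hr
      | appL _ _ hs =>
        exact ihf _ hs (Acc.intro a ha₀) fun f' a' r hc h₁ h₂ => h f' a' r hc (.head hs h₁) h₂
      | appR _ _ hs =>
        exact iha _ hs fun f' a' r hc h₁ h₂ => h f' a' r hc h₁ (.head hs h₂)

theorem MStep.of_ren {t : MTm S L} : ∀ {ξ : ℕ → ℕ} {u : MTm S L}, MStep C (t.ren ξ) u →
    ∃ t', MStep C t t' ∧ u = t'.ren ξ := by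
  induction t with
  | var n => intro ξ u h; cases h
  | srt s => intro ξ u h; cases h
  | pi A B ihA ihB =>
    intro ξ u h
    cases h with
    | piL _ h => obtain ⟨t', h', rfl⟩ := ihA h; exact ⟨_, .piL _ h', rfl⟩
    | piR _ h => obtain ⟨t', h', rfl⟩ := ihB h; exact ⟨_, .piR _ h', rfl⟩
  | lam A B ihA ihB =>
    intro ξ u h
    cases h with
    | lamL _ h => obtain ⟨t', h', rfl⟩ := ihA h; exact ⟨_, .lamL _ h', rfl⟩
    | lamR _ h => obtain ⟨t', h', rfl⟩ := ihB h; exact ⟨_, .lamR _ h', rfl⟩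
  | mem A B ihA ihB =>
    intro ξ u h
    cases h with
    | memL _ h => obtain ⟨t', h', rfl⟩ := ihA h; exact ⟨_, .memL _ h', rfl⟩
    | memR _ h => obtain ⟨t', h', rfl⟩ := ihB h; exact ⟨_, .memR _ h', rfl⟩
  | app c f a ihf iha =>
    intro ξ u h
    cases h with
    | beta hc hr =>
      obtain ⟨r, hr'⟩ := (LamHd.of_ren hr.lamHd).ctr a
      exact ⟨r, .beta hc hr', hr.unique (hr'.ren ξ)⟩
    | appL _ _ h => obtain ⟨t', h', rfl⟩ := ihf h; exact ⟨_, .appL _ _ h', rfl⟩
    | appR _ _ h => obtain ⟨t', h', rfl⟩ := iha h; exact ⟨_, .appR _ _ h', rfl⟩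

theorem MSN.ren {t : MTm S L} (h : MSN C t) (ξ : ℕ → ℕ) : MSN C (t.ren ξ) := by
  induction h with
  | intro t _ ih =>
    refine Acc.intro _ fun u hu => ?_
    obtain ⟨t', h', rfl⟩ := MStep.of_ren hu
    exact ih t' h'

theorem mred_var {n : ℕ} {u : MTm S L} (h : MRed C (.var n) u) : u = .var n :=
  MNormal.red_eq (mNormal_var n) h

theorem mred_srt {s : S} {u : MTm S L} (h : MRed C (.srt s) u) : u = .srt s := by
  induction h with
  | refl => rfl
  | tail _ h ih => subst ih; cases h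

theorem mred_pi {A B u : MTm S L} (h : MRed C (.pi A B) u) : ∃ A' B', u = .pi A' B' := by
  induction h with
  | refl => exact ⟨_, _, rfl⟩
  | tail _ h ih => obtain ⟨A', B', rfl⟩ := ih; cases h <;> exact ⟨_, _, rfl⟩

theorem mred_lam {A b u : MTm S L} (h : MRed C (.lam A b) u) :
    ∃ A' b', u = .lam A' b' ∧ MRed C A A' ∧ MRed C b b' := by
  induction h with
  | refl => exact ⟨A, b, rfl, .refl, .refl⟩
  | tail _ h ih =>
    obtain ⟨A', b', rfl, h₁, h₂⟩ := ih
    cases h with
    | lamL _ h => exact ⟨_, _, rfl, h₁.tail h, h₂⟩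
    | lamR _ h => exact ⟨_, _, rfl, h₁, h₂.tail h⟩

theorem mred_mem {p e u : MTm S L} (h : MRed C (.mem p e) u) :
    ∃ p' e', u = .mem p' e' ∧ MRed C p p' ∧ MRed C e e' := by
  induction h with
  | refl => exact ⟨p, e, rfl, .refl, .refl⟩
  | tail _ h ih =>
    obtain ⟨p', e', rfl, h₁, h₂⟩ := ih
    cases h with
    | memL _ h => exact ⟨_, _, rfl, h₁.tail h, h₂⟩
    | memR _ h => exact ⟨_, _, rfl, h₁, h₂.tail h⟩

theorem mred_app {c : L} {f a u : MTm S L} (h : MRed C (.app c f a) u) :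
    (∃ f' a', u = .app c f' a' ∧ MRed C f f' ∧ MRed C a a') ∨
      ∃ f' a' r, c ∈ C ∧ MRed C f f' ∧ MRed C a a' ∧ Ctr f' a' r ∧ MRed C r u := by
  induction h with
  | refl => exact .inl ⟨f, a, rfl, .refl, .refl⟩
  | tail _ h ih =>
    rcases ih with ⟨f', a', rfl, h₁, h₂⟩ | ⟨f', a', r, hc, h₁, h₂, h₃, h₄⟩
    · cases h with
      | beta hc hr => exact .inr ⟨_, _, _, hc, h₁, h₂, hr, .refl⟩
      | appL _ _ h => exact .inl ⟨_, _, rfl, h₁.tail h, h₂⟩
      | appR _ _ h => exact .inl ⟨_, _, rfl, h₁, h₂.tail h⟩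
    · exact .inr ⟨f', a', r, hc, h₁, h₂, h₃, h₄.tail h⟩

variable (K : Colouring P L)

/-- Strongly normal at `C`; and if of product type at a colour of `C`, so is every contraction
of a reduct with a strongly normal argument, recursively. -/
inductive MQ (C : Set L) (Γ : List (Tm S)) : MTm S L → Tm S → Prop
  | mk {t : MTm S L} {T : Tm S} : MSN C t →
      (∀ A B s, BConv T (.pi A B) → Der P Γ (.pi A B) (.srt s) → K.col s ∈ C →
        ∀ f' a r, MRed C t f' → MDer P K.col Γ a A → MSN C a → Ctr f' a r →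
          MQ C Γ r (B.inst a.erase)) → MQ C Γ t T

variable {K} {Γ : List (Tm S)}

theorem MQ.msn {t : MTm S L} {T : Tm S} (h : MQ K C Γ t T) : MSN C t := by
  cases h with | mk h _ => exact h

theorem MQ.conv {t : MTm S L} {T T' : Tm S} (h : MQ K C Γ t T) (hc : BConv T T') :
    MQ K C Γ t T' := by
  cases h with
  | mk h₁ h₂ => exact .mk h₁ fun A B s h => h₂ A B s (hc.trans h)

theorem MQ.red {t u : MTm S L} {T : Tm S} (h : MQ K C Γ t T) (hr : MRed C t u) :
    MQ K C Γ u T := by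
  cases h with
  | mk h₁ h₂ =>
    exact .mk (h₁.red hr) fun A B s hc hp hs f' a r hf => h₂ A B s hc hp hs f' a r (hr.trans hf)

theorem MQ.mem {p : MTm S L} {T : Tm S} (h : MQ K C Γ p T) :
    ∀ {e}, MSN C e → MQ K C Γ (.mem p e) T := by
  induction h with
  | mk h₁ _ ih =>
    intro e he
    refine .mk (msn_mem h₁ he) fun A B s hc hp hs f' a r hf ha hsa hr => ?_
    obtain ⟨p', e', rfl, hp', he'⟩ := mred_mem hf
    cases hr with
    | mem _ hr => exact ih A B s hc hp hs p' a _ hp' ha hsa hr (he.red he')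

/-- A substitution by variables, or by strongly normal terms at colours outside `C`. -/
def MGood (K : Colouring P L) (C : Set L) (σ : ℕ → MTm S L) (Γ : List (Tm S)) : Prop :=
  ∀ n A, Lk Γ n A → MSN C (σ n) ∧
    ((∃ m, σ n = .var m) ∨ ∀ s, Der P Γ A (.srt s) → K.col s ∉ C)

theorem MGood.up {σ : ℕ → MTm S L} {A : Tm S} (h : MGood K C σ Γ) (hΓ : Wf P Γ)
    (hA : Wf P (A :: Γ)) : MGood K C (MTm.up σ) (A :: Γ) := by
  intro n B hl
  cases hl with
  | zero => exact ⟨msn_var 0, .inl ⟨0, rfl⟩⟩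
  | @succ _ B' _ n hl =>
    refine ⟨(h n B' hl).1.ren _, (h n B' hl).2.imp ?_ fun h' s hs => ?_⟩
    · rintro ⟨m, hm⟩; exact ⟨m + 1, by simp [hm]⟩
    · obtain ⟨s', hs'⟩ := hΓ.lookup hl
      rw [K.sound hA hs (by simpa using hs'.weaken A)]
      exact h' s' hs'

theorem MGood.id : MGood K C MTm.var Γ := fun n _ _ => ⟨msn_var n, .inl ⟨n, rfl⟩⟩

variable (hC : ∀ a b r, P.rule a b r → K.col r ∈ C → K.col a ∉ C)

include hC

theorem MDer.mq {t : MTm S L} {T : Tm S} (h : MDer P K.col Γ t T) :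
    ∀ {Δ : List (Tm S)} {σ : ℕ → MTm S L}, Wf P Γ → Wf P Δ → MSubs P K.col σ Γ Δ →
      MGood K C σ Γ → MQ K C Δ (t.sub σ) (T.sub fun m => (σ m).erase) := by
  induction h with
  | axiom_ _ =>
    intro Δ σ _ _ _ _
    refine .mk (msn_srt _) fun A B s _ _ _ f' a r hf _ _ hr => ?_
    rw [mred_srt hf] at hr; cases hr
  | @var Γ n A hl =>
    intro Δ σ hΓ hΔ hσ hg
    obtain ⟨hsn, ⟨m, hm⟩ | hcol⟩ := hg n A hl
    · refine .mk hsn fun A' B s _ _ _ f' a r hf _ _ hr => ?_
      simp only [MTm.sub_var, hm] at hf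
      rw [mred_var hf] at hr; cases hr
    · refine .mk hsn fun A' B s hc hp hs f' a r hf _ _ hr => ?_
      obtain ⟨s', hs'⟩ := hΓ.lookup hl
      exact absurd hs (K.sound_conv hΔ (hs'.subst hσ.erase) hp hc ▸ hcol s' hs')
  | prod hA _ _ ihA ihB =>
    intro Δ σ hΓ hΔ hσ hg
    have hw := hΓ.cons hA.toDer
    have hwΔ := hΔ.cons (by simpa using hA.toDer.subst hσ.erase)
    have hQ := ihB hw hwΔ (by simpa using hσ.up _) (hg.up hΓ hw)
    refine .mk (msn_pi (ihA hΓ hΔ hσ hg).msn hQ.msn) fun A' B' s _ _ _ f' a r hf _ _ hr => ?_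
    obtain ⟨_, _, rfl⟩ := mred_pi hf
    cases hr
  | @abs Γ A b B s₁ s hA hb hp ihA ihb =>
    intro Δ σ hΓ hΔ hσ hg
    have hw := hΓ.cons hA.toDer
    have hwΔ := hΔ.cons (by simpa using hA.toDer.subst hσ.erase)
    refine .mk (msn_lam (ihA hΓ hΔ hσ hg).msn
      (ihb hw hwΔ (by simpa using hσ.up _) (hg.up hΓ hw)).msn) ?_
    intro A₀ B₀ s₀ hc hp₀ hs₀ f' a r hf ha hsa hr
    obtain ⟨A', b', rfl, hA', hb'⟩ := mred_lam hf
    obtain ⟨hAA, hBB⟩ := bconv_pi_inj hc
    obtain ⟨t₁, t₂, hrule, hAt, _⟩ := hp.pi_rule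
    have hcol : K.col t₁ ∉ C := hC t₁ t₂ s hrule
      (by rwa [K.sound_conv hΔ (hp.subst hσ.erase) hp₀ (by simpa using hc)])
    have hσ' : MSubs P K.col (MTm.scons a σ) (A.erase :: Γ) Δ :=
      hσ.scons (.conv ha (by simpa using hA.toDer.subst hσ.erase) (by simpa using hAA.symm))
    have hg' : MGood K C (MTm.scons a σ) (A.erase :: Γ) := by
      intro n B' hl
      cases hl with
      | zero =>
        exact ⟨hsa, .inr fun t ht => by rwa [K.sound hw ht (by simpa using hAt.weaken A.erase)]⟩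
      | @succ _ B'' _ n hl =>
        refine ⟨(hg n B'' hl).1, (hg n B'' hl).2.imp id fun h' t ht => ?_⟩
        obtain ⟨s', hs'⟩ := hΓ.lookup hl
        rw [K.sound hw ht (by simpa using hs'.weaken A.erase)]
        exact h' s' hs'
    have hQ := ihb hw hΔ hσ' hg'
    cases hr with
    | lam _ _ _ =>
      refine (MQ.mem (MQ.mem ?_ hsa) ((ihA hΓ hΔ hσ hg).msn.red hA')).conv (.refl _)
      refine (hQ.red ?_).conv ?_
      · rw [← MTm.inst_up, MTm.inst, MTm.inst]
        exact MRed.lift (fun _ _ h => h.sub _) hb'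
      · have e : (fun m => (MTm.scons a σ m).erase) =
            fun m => ((ups fun k => (σ k).erase) m).sub (sub0 a.erase) := by
          funext m
          cases m with
          | zero => rfl
          | succ m => simp [Function.comp_def]
        rw [e, ← Tm.sub_sub]
        exact hBB.sub _
  | @appl Γ f a A B s c hf ha hp hc ihf iha =>
    intro Δ σ hΓ hΔ hσ hg
    have hQf := ihf hΓ hΔ hσ hg
    have hQa := iha hΓ hΔ hσ hg
    have hda := ha.subst hσ
    have hp' := hp.subst hσ.erase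
    cases hQf with
    | mk hsn hQ =>
      have key : ∀ f' a' r, c ∈ C → MRed C (f.sub σ) f' → MRed C (a.sub σ) a' → Ctr f' a' r →
          MQ K C Δ r ((B.inst a.erase).sub fun m => (σ m).erase) := by
        intro f' a' r hcC h₁ h₂ hr
        refine (hQ _ _ s (.refl _) hp' (hc ▸ hcC) f' a' r h₁ (hda.red hΔ h₂)
          (hQa.msn.red h₂) hr).conv ?_
        rw [Tm.sub_inst, ← MTm.erase_sub]
        refine BConv.inst_right _ (BConv.symm ?_)
        clear hr
        induction h₂ with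
        | refl => exact .refl _
        | tail _ hs ih => exact ih.trans hs.erase.bconv
      refine .mk (msn_app hsn hQa.msn fun f' a' r hcC h₁ h₂ hr =>
        (key f' a' r hcC h₁ h₂ hr).msn) fun A₀ B₀ s₀ hc₀ hp₀ hs₀ f'' a₀ r₀ hf'' ha₀ hsa₀ hr₀ => ?_
      rcases mred_app hf'' with ⟨_, _, rfl, _, _⟩ | ⟨f', a', r, hcC, h₁, h₂, hr, h₄⟩
      · cases hr₀
      · cases key f' a' r hcC h₁ h₂ hr with
        | mk _ h => exact h A₀ B₀ s₀ hc₀ hp₀ hs₀ f'' a₀ r₀ h₄ ha₀ hsa₀ hr₀
  | mem _ _ ihp ihe =>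
    intro Δ σ hΓ hΔ hσ hg
    exact (ihp hΓ hΔ hσ hg).mem (ihe hΓ hΔ hσ hg).msn
  | conv _ _ hc ih =>
    intro Δ σ hΓ hΔ hσ hg
    exact (ih hΓ hΔ hσ hg).conv (hc.sub _)

/-- A class without a domain edge inside is strongly normalising. -/
theorem msn_of_no_domain_edge {t : MTm S L} {T : Tm S} (hΓ : Wf P Γ)
    (h : MDer P K.col Γ t T) : MSN C t := by
  have := (h.mq hC hΓ hΓ (MSubs.id Γ) MGood.id).msn
  rwa [MTm.sub_id] at this

end Vale.Agent.P340
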