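import Vale.Agent.P340.MemAcyclic

/-!
# Induction over the classes of colours

Strong normalisation reduces to that of each class of mutually reachable colours which contains
a domain edge. Specifications are arbitrary; only the finitely many labels of one term matter.
-/

namespace Vale.Agent.P340

open Relation

variable {S L : Type} {P : Spec S}

/-- Reachability between colours along rules, from domain and codomain to result. -/
def Reach (P : Spec S) (col : S → L) : L → L → Prop := ReflTransGen (Edge P col)

/-- The colours mutually reachable with `c`. -/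
def colClass (P : Spec S) (col : S → L) (c : L) : Set L :=
  {d | Reach P col c d ∧ Reach P col d c}

/-- A class has a domain edge inside if some rule has domain and result colour in it. -/
def HasDomainEdge (P : Spec S) (col : S → L) (c : L) : Prop :=
  ∃ a b r, P.rule a b r ∧ col a ∈ colClass P col c ∧ col r ∈ colClass P col c

theorem MSN.mono {R R' : Set L} {t : MTm S L} (h : MSN R' t) (hR : R ⊆ R') : MSN R t := by
  induction h with
  | intro t _ ih => exact Acc.intro _ fun u hu => ih u (hu.mono hR)

theorem MSN.of_labels {X : Set L} {t : MTm S L} (h : MSN X t) (hl : t.labels ⊆ X) :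
    MSN Set.univ t := by
  induction h with
  | intro t _ ih =>
    exact Acc.intro _ fun u hu =>
      ih u (hu.restrict.mono fun x hx => hl hx.2) (hu.labels.trans hl)

/-- A finite nonempty set of colours has one that all its predecessors in the set can be reached
from. -/
theorem exists_minimal_colour (P : Spec S) (col : S → L) {R : Set L} (hR : R.Finite)
    (hne : R.Nonempty) : ∃ c ∈ R, ∀ d ∈ R, Reach P col d c → Reach P col c d := by
  obtain ⟨c, hc, hmin⟩ :=
    Set.exists_min_image R (fun c => {d ∈ R | Reach P col d c}.ncard) hR hne
  refine ⟨c, hc, fun d hd hdc => ?_⟩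
  have hsub : {e ∈ R | Reach P col e d} ⊆ {e ∈ R | Reach P col e c} :=
    fun e he => ⟨he.1, ReflTransGen.trans he.2 hdc⟩
  have he := Set.eq_of_subset_of_ncard_le hsub (hmin d hd) (hR.subset fun e he => he.1)
  exact (he.symm ▸ (⟨hc, .refl⟩ : c ∈ {e ∈ R | Reach P col e c}) :
    c ∈ {e ∈ R | Reach P col e d}).2

theorem not_mStep_empty {t u : MTm S L} : ¬ MStep (∅ : Set L) t u := fun h => by
  induction h with
  | beta hc _ => exact hc
  | _ => assumption

/-- Steps at any finite set of colours terminate. -/
theorem msn_finite (K : Colouring P L)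
    (hD : ∀ c, HasDomainEdge P K.col c → ∀ Γ t T, Wf P Γ → MDer P K.col Γ t T →
      MSN (colClass P K.col c) t)
    {R : Set L} (hR : R.Finite) :
    ∀ Γ t T, Wf P Γ → MDer P K.col Γ t T → MSN R t := by
  induction h : R.ncard using Nat.strong_induction_on generalizing R with
  | _ n ih =>
    intro Γ t T hΓ ht
    rcases R.eq_empty_or_nonempty with rfl | hne
    · exact Acc.intro _ fun u hu => (not_mStep_empty hu).elim
    · obtain ⟨c, hc, hmin⟩ := exists_minimal_colour P K.col hR hne
      have hlt : (R \ colClass P K.col c).ncard < n := by
        subst h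
        exact Set.ncard_lt_ncard (Set.sdiff_ssubset_left_iff.mpr ⟨c, hc, .refl, .refl⟩) hR
      have hH := ih _ hlt (hR.subset Set.sdiff_subset) rfl
      have hC : ∀ Γ t T, Wf P Γ → MDer P K.col Γ t T → MSN (R ∩ colClass P K.col c) t := by
        intro Δ u U hΔ hu
        refine MSN.mono ?_ Set.inter_subset_right
        by_cases hE : HasDomainEdge P K.col c
        · exact hD c hE Δ u U hΔ hu
        · exact msn_of_no_domain_edge
            (fun a b r hr hrc hac => hE ⟨a, b, r, hr, hac, hrc⟩) hΔ hu
      have hno : ∀ a b r, P.rule a b r → K.col r ∈ R ∩ colClass P K.col c →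
          K.col a ∉ R \ colClass P K.col c ∧ K.col b ∉ R \ colClass P K.col c := by
        rintro a b r hr ⟨_, hcr, hrc⟩
        have out : ∀ x, Edge P K.col x (K.col r) → x ∉ R \ colClass P K.col c := by
          rintro x hx ⟨hxR, hxc⟩
          have hxc' : Reach P K.col x c := ReflTransGen.head hx hrc
          exact hxc ⟨hmin x hxR hxc', hxc'⟩
        exact ⟨out _ ⟨a, b, r, hr, rfl, .inl rfl⟩, out _ ⟨a, b, r, hr, rfl, .inr rfl⟩⟩
      have hd : Disjoint (R ∩ colClass P K.col c) (R \ colClass P K.col c) :=
        Set.disjoint_left.mpr fun x hx hx' => hx'.2 hx.2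
      have := msn_union K hno hd hH hC hΓ ht
      rwa [Set.inter_union_sdiff] at this

/-- Strong normalisation of a specification, arbitrary otherwise, follows from strong
normalisation of each class of colours with a domain edge inside, on typed terms with memory. -/
theorem stronglyNormalizing_of_classes (K : Colouring P L)
    (hD : ∀ c, HasDomainEdge P K.col c → ∀ Γ t T, Wf P Γ → MDer P K.col Γ t T →
      MSN (colClass P K.col c) t) :
    StronglyNormalizing P :=
  stronglyNormalizing_of_mem K.col fun Γ t T hΓ ht =>
    (msn_finite K hD t.labels_finite Γ t T hΓ ht).of_labels subset_rfl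

/-- Sorts of one type, transitively. -/
def SortEq (P : Spec S) : S → S → Prop :=
  EqvGen fun s s' => ∃ Γ T, Wf P Γ ∧ Der P Γ T (.srt s) ∧ Der P Γ T (.srt s')

/-- The finest colouring, which exists for every specification. -/
def finestColouring (P : Spec S) : Colouring P (Quot (SortEq P)) where
  col := Quot.mk _
  sound hΓ h h' := Quot.sound (.rel _ _ ⟨_, _, hΓ, h, h'⟩)

/-- For functional sorts the colours are the sorts themselves. -/
def idColouring (P : Spec S)
    (h : ∀ (Γ : List (Tm S)) (T : Tm S) (s s' : S), Wf P Γ → Der P Γ T (.srt s) →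
      Der P Γ T (.srt s') → s = s') : Colouring P S where
  col := id
  sound hΓ h₁ h₂ := h _ _ _ _ hΓ h₁ h₂

end Vale.Agent.P340
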