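import Vale.Agent.P340.Reduction

/-!
# Terms with memory and coloured applications

An application carries a label (the colour of the type of its function). Contracting a redex
keeps the argument and the annotation in memory, so nothing is erased.
-/

namespace Vale.Agent.P340

open Relation

variable {S L : Type}

/-- Expressions with memory pairs and labelled applications. -/
inductive MTm (S L : Type) : Type
  | var (n : ℕ)
  | srt (s : S)
  | pi (A B : MTm S L)
  | lam (A b : MTm S L)
  | app (c : L) (f a : MTm S L)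
  | mem (p e : MTm S L)

namespace MTm

/-- Renaming of free variables. -/
def ren (ξ : ℕ → ℕ) : MTm S L → MTm S L
  | .var n => .var (ξ n)
  | .srt s => .srt s
  | .pi A B => .pi (A.ren ξ) (B.ren (upr ξ))
  | .lam A b => .lam (A.ren ξ) (b.ren (upr ξ))
  | .app c f a => .app c (f.ren ξ) (a.ren ξ)
  | .mem p e => .mem (p.ren ξ) (e.ren ξ)

/-- A substitution pushed under one binder. -/
def up (σ : ℕ → MTm S L) : ℕ → MTm S L
  | 0 => .var 0
  | n + 1 => (σ n).ren Nat.succ

/-- Simultaneous substitution. -/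
def sub (σ : ℕ → MTm S L) : MTm S L → MTm S L
  | .var n => σ n
  | .srt s => .srt s
  | .pi A B => .pi (A.sub σ) (B.sub (up σ))
  | .lam A b => .lam (A.sub σ) (b.sub (up σ))
  | .app c f a => .app c (f.sub σ) (a.sub σ)
  | .mem p e => .mem (p.sub σ) (e.sub σ)

/-- A substitution extended by one term. -/
def scons (a : MTm S L) (σ : ℕ → MTm S L) : ℕ → MTm S L
  | 0 => a
  | n + 1 => σ n

/-- The term with the last bound variable replaced by `a`. -/
def inst (b a : MTm S L) : MTm S L := b.sub (scons a MTm.var)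

/-- Forget memory and labels. -/
def erase : MTm S L → Tm S
  | .var n => .var n
  | .srt s => .srt s
  | .pi A B => .pi A.erase B.erase
  | .lam A b => .lam A.erase b.erase
  | .app _ f a => .app f.erase a.erase
  | .mem p _ => p.erase

@[simp] theorem ren_var (ξ : ℕ → ℕ) (n : ℕ) : (MTm.var n : MTm S L).ren ξ = .var (ξ n) := rfl

@[simp] theorem ren_srt (ξ : ℕ → ℕ) (s : S) : (MTm.srt s : MTm S L).ren ξ = .srt s := rfl

@[simp] theorem ren_pi (ξ : ℕ → ℕ) (A B : MTm S L) :
    (MTm.pi A B).ren ξ = .pi (A.ren ξ) (B.ren (upr ξ)) := rfl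

@[simp] theorem ren_lam (ξ : ℕ → ℕ) (A b : MTm S L) :
    (MTm.lam A b).ren ξ = .lam (A.ren ξ) (b.ren (upr ξ)) := rfl

@[simp] theorem ren_app (ξ : ℕ → ℕ) (c : L) (f a : MTm S L) :
    (MTm.app c f a).ren ξ = .app c (f.ren ξ) (a.ren ξ) := rfl

@[simp] theorem ren_mem (ξ : ℕ → ℕ) (p e : MTm S L) :
    (MTm.mem p e).ren ξ = .mem (p.ren ξ) (e.ren ξ) := rfl

@[simp] theorem sub_var (σ : ℕ → MTm S L) (n : ℕ) : (MTm.var n).sub σ = σ n := rfl

@[simp] theorem sub_srt (σ : ℕ → MTm S L) (s : S) : (MTm.srt s).sub σ = .srt s := rfl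

@[simp] theorem sub_pi (σ : ℕ → MTm S L) (A B : MTm S L) :
    (MTm.pi A B).sub σ = .pi (A.sub σ) (B.sub (up σ)) := rfl

@[simp] theorem sub_lam (σ : ℕ → MTm S L) (A b : MTm S L) :
    (MTm.lam A b).sub σ = .lam (A.sub σ) (b.sub (up σ)) := rfl

@[simp] theorem sub_app (σ : ℕ → MTm S L) (c : L) (f a : MTm S L) :
    (MTm.app c f a).sub σ = .app c (f.sub σ) (a.sub σ) := rfl

@[simp] theorem sub_mem (σ : ℕ → MTm S L) (p e : MTm S L) :
    (MTm.mem p e).sub σ = .mem (p.sub σ) (e.sub σ) := rfl

@[simp] theorem up_zero (σ : ℕ → MTm S L) : up σ 0 = .var 0 := rfl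

@[simp] theorem up_succ (σ : ℕ → MTm S L) (n : ℕ) : up σ (n + 1) = (σ n).ren Nat.succ := rfl

@[simp] theorem scons_zero (a : MTm S L) (σ : ℕ → MTm S L) : scons a σ 0 = a := rfl

@[simp] theorem scons_succ (a : MTm S L) (σ : ℕ → MTm S L) (n : ℕ) : scons a σ (n + 1) = σ n := rfl

@[simp] theorem up_comp_upr (σ : ℕ → MTm S L) (ξ : ℕ → ℕ) : up σ ∘ upr ξ = up (σ ∘ ξ) := by
  funext n; cases n <;> rfl

@[simp] theorem ren_ren (M : MTm S L) : ∀ ξ ζ : ℕ → ℕ, (M.ren ξ).ren ζ = M.ren (ζ ∘ ξ) := by
  induction M <;> intros <;> simp [upr_comp, *]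

theorem ren_comp_up (σ : ℕ → MTm S L) (ζ : ℕ → ℕ) :
    (fun n => (up σ n).ren (upr ζ)) = up (fun n => (σ n).ren ζ) := by
  funext n; cases n <;> simp

@[simp] theorem up_var : up (MTm.var : ℕ → MTm S L) = MTm.var := by
  funext n; cases n <;> rfl

@[simp] theorem sub_ren (M : MTm S L) :
    ∀ (σ : ℕ → MTm S L) (ξ : ℕ → ℕ), (M.ren ξ).sub σ = M.sub (σ ∘ ξ) := by
  induction M <;> intros <;> simp [*]

theorem ren_sub (M : MTm S L) :
    ∀ (σ : ℕ → MTm S L) (ζ : ℕ → ℕ), (M.sub σ).ren ζ = M.sub (fun n => (σ n).ren ζ) := by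
  induction M <;> intros <;> simp [ren_comp_up, *]

theorem sub_comp_up (σ τ : ℕ → MTm S L) :
    (fun n => (up σ n).sub (up τ)) = up (fun n => (σ n).sub τ) := by
  funext n
  cases n with
  | zero => rfl
  | succ n => simp [ren_sub, Function.comp_def]

theorem sub_sub (M : MTm S L) :
    ∀ σ τ : ℕ → MTm S L, (M.sub σ).sub τ = M.sub (fun n => (σ n).sub τ) := by
  induction M <;> intros <;> simp [sub_comp_up, *]

@[simp] theorem sub_id (M : MTm S L) : M.sub MTm.var = M := by
  induction M <;> simp [*]

theorem inst_up (b a : MTm S L) (σ : ℕ → MTm S L) :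
    (b.sub (up σ)).inst a = b.sub (scons a σ) := by
  rw [inst, sub_sub]
  congr 1
  funext n
  cases n <;> simp [Function.comp_def]

theorem sub_inst (b a : MTm S L) (σ : ℕ → MTm S L) :
    (b.inst a).sub σ = (b.sub (up σ)).inst (a.sub σ) := by
  rw [inst_up, inst, sub_sub]
  congr 1
  funext n
  cases n <;> simp

theorem ren_eq_sub (M : MTm S L) (ξ : ℕ → ℕ) : M.ren ξ = M.sub (fun n => .var (ξ n)) := by
  conv_lhs => rw [← M.sub_id, ren_sub]
  rfl

theorem ren_inst (b a : MTm S L) (ξ : ℕ → ℕ) :
    (b.inst a).ren ξ = (b.ren (upr ξ)).inst (a.ren ξ) := by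
  rw [inst, inst, ren_sub, sub_ren]
  congr 1
  funext n
  cases n <;> rfl

@[simp] theorem erase_ren (M : MTm S L) : ∀ ξ, (M.ren ξ).erase = M.erase.ren ξ := by
  induction M <;> intros <;> simp [erase, *]

theorem erase_up (σ : ℕ → MTm S L) :
    (fun n => (up σ n).erase) = ups (fun n => (σ n).erase) := by
  funext n; cases n <;> simp [erase]

@[simp] theorem erase_sub (M : MTm S L) :
    ∀ σ, (M.sub σ).erase = M.erase.sub (fun n => (σ n).erase) := by
  induction M <;> intros <;> simp [erase, erase_up, *]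

@[simp] theorem erase_inst (b a : MTm S L) : (b.inst a).erase = b.erase.inst a.erase := by
  rw [inst, erase_sub, Tm.inst]
  exact Tm.sub_congr _ fun n => by cases n <;> rfl

end MTm

/-- An abstraction under memory pairs. -/
inductive LamHd : MTm S L → Prop
  | lam (A b) : LamHd (.lam A b)
  | mem {p} (e) : LamHd p → LamHd (.mem p e)

/-- The contraction of `f` applied to `a`: memory pairs are transparent and argument and
annotation are kept. -/
inductive Ctr : MTm S L → MTm S L → MTm S L → Prop
  | lam (A b a) : Ctr (.lam A b) a (.mem (.mem (b.inst a) a) A)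
  | mem {p a r} (e) : Ctr p a r → Ctr (.mem p e) a (.mem r e)

/-- One step contracting an application whose label is in `R`. -/
inductive MStep (R : Set L) : MTm S L → MTm S L → Prop
  | beta {c f a r} : c ∈ R → Ctr f a r → MStep R (.app c f a) r
  | piL {A A'} (B) : MStep R A A' → MStep R (.pi A B) (.pi A' B)
  | piR (A) {B B'} : MStep R B B' → MStep R (.pi A B) (.pi A B')
  | lamL {A A'} (b) : MStep R A A' → MStep R (.lam A b) (.lam A' b)
  | lamR (A) {b b'} : MStep R b b' → MStep R (.lam A b) (.lam A b')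
  | appL (c) {f f'} (a) : MStep R f f' → MStep R (.app c f a) (.app c f' a)
  | appR (c f) {a a'} : MStep R a a' → MStep R (.app c f a) (.app c f a')
  | memL {p p'} (e) : MStep R p p' → MStep R (.mem p e) (.mem p' e)
  | memR (p) {e e'} : MStep R e e' → MStep R (.mem p e) (.mem p e')

/-- Finitely many steps. -/
abbrev MRed (R : Set L) : MTm S L → MTm S L → Prop := ReflTransGen (MStep R)

/-- No infinite sequence of steps contracting labels of `R`. -/
def MSN (R : Set L) (t : MTm S L) : Prop := Acc (fun u v => MStep R v u) t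

variable {R R' : Set L}

theorem Ctr.lamHd {f a r : MTm S L} (h : Ctr f a r) : LamHd f := by
  induction h with
  | lam A b a => exact .lam A b
  | mem e _ ih => exact .mem e ih

theorem LamHd.ctr {f : MTm S L} (h : LamHd f) (a : MTm S L) : ∃ r, Ctr f a r := by
  induction h with
  | lam A b => exact ⟨_, .lam A b a⟩
  | mem e _ ih => obtain ⟨r, hr⟩ := ih; exact ⟨_, .mem e hr⟩

theorem Ctr.sub {f a r : MTm S L} (h : Ctr f a r) (σ : ℕ → MTm S L) :
    Ctr (f.sub σ) (a.sub σ) (r.sub σ) := by
  induction h with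
  | lam A b a => simpa [MTm.sub_inst] using Ctr.lam (A.sub σ) (b.sub (MTm.up σ)) (a.sub σ)
  | mem e _ ih => exact .mem _ ih

theorem Ctr.ren {f a r : MTm S L} (h : Ctr f a r) (ξ : ℕ → ℕ) :
    Ctr (f.ren ξ) (a.ren ξ) (r.ren ξ) := by
  simpa [MTm.ren_eq_sub] using h.sub fun n => .var (ξ n)

theorem MStep.sub {t u : MTm S L} (h : MStep R t u) :
    ∀ σ : ℕ → MTm S L, MStep R (t.sub σ) (u.sub σ) := by
  induction h with
  | beta hc hr => intro σ; exact .beta hc (hr.sub σ)
  | piL B _ ih => intro σ; exact .piL _ (ih _)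
  | piR A _ ih => intro σ; exact .piR _ (ih _)
  | lamL b _ ih => intro σ; exact .lamL _ (ih _)
  | lamR A _ ih => intro σ; exact .lamR _ (ih _)
  | appL c a _ ih => intro σ; exact .appL _ _ (ih _)
  | appR c f _ ih => intro σ; exact .appR _ _ (ih _)
  | memL e _ ih => intro σ; exact .memL _ (ih _)
  | memR p _ ih => intro σ; exact .memR _ (ih _)

theorem MStep.ren {t u : MTm S L} (h : MStep R t u) (ξ : ℕ → ℕ) :
    MStep R (t.ren ξ) (u.ren ξ) := by
  simpa [MTm.ren_eq_sub] using h.sub fun n => .var (ξ n)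

theorem MStep.mono {t u : MTm S L} (h : MStep R t u) (hR : R ⊆ R') : MStep R' t u := by
  induction h with
  | beta hc hr => exact .beta (hR hc) hr
  | piL B _ ih => exact .piL _ ih
  | piR A _ ih => exact .piR _ ih
  | lamL b _ ih => exact .lamL _ ih
  | lamR A _ ih => exact .lamR _ ih
  | appL c a _ ih => exact .appL _ _ ih
  | appR c f _ ih => exact .appR _ _ ih
  | memL e _ ih => exact .memL _ ih
  | memR p _ ih => exact .memR _ ih

/-- A step inside `R ∪ R'` lies in one of the two. -/
theorem MStep.split {t u : MTm S L} (h : MStep (R ∪ R') t u) : MStep R t u ∨ MStep R' t u := by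
  induction h with
  | beta hc hr => exact hc.imp (fun h => .beta h hr) fun h => .beta h hr
  | piL B _ ih => exact ih.imp (.piL _) (.piL _)
  | piR A _ ih => exact ih.imp (.piR _) (.piR _)
  | lamL b _ ih => exact ih.imp (.lamL _) (.lamL _)
  | lamR A _ ih => exact ih.imp (.lamR _) (.lamR _)
  | appL c a _ ih => exact ih.imp (.appL _ _) (.appL _ _)
  | appR c f _ ih => exact ih.imp (.appR _ _) (.appR _ _)
  | memL e _ ih => exact ih.imp (.memL _) (.memL _)
  | memR p _ ih => exact ih.imp (.memR _) (.memR _)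

theorem Ctr.erase {f a r : MTm S L} (h : Ctr f a r) :
    Step (.app f.erase a.erase) r.erase := by
  induction h with
  | lam A b a => simpa [MTm.erase] using Step.beta A.erase b.erase a.erase
  | mem e _ ih => exact ih

/-- A step of a term is at most one step of its erasure. -/
theorem MStep.erase {t u : MTm S L} (h : MStep R t u) : Red t.erase u.erase := by
  induction h with
  | beta _ hr => exact .single hr.erase
  | piL B _ ih => exact Red.pi ih .refl
  | piR A _ ih => exact Red.pi .refl ih
  | lamL b _ ih => exact Red.lam ih .refl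
  | lamR A _ ih => exact Red.lam .refl ih
  | appL c a _ ih => exact Red.app ih .refl
  | appR c f _ ih => exact Red.app .refl ih
  | memL e _ ih => exact ih
  | memR p _ ih => exact .refl

/-- The labels of a term. -/
def MTm.labels : MTm S L → Set L
  | .var _ => ∅
  | .srt _ => ∅
  | .pi A B => A.labels ∪ B.labels
  | .lam A b => A.labels ∪ b.labels
  | .app c f a => {c} ∪ (f.labels ∪ a.labels)
  | .mem p e => p.labels ∪ e.labels

theorem MTm.labels_finite : ∀ t : MTm S L, t.labels.Finite
  | .var _ => Set.finite_empty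
  | .srt _ => Set.finite_empty
  | .pi A B => A.labels_finite.union B.labels_finite
  | .lam A b => A.labels_finite.union b.labels_finite
  | .app c f a => (Set.finite_singleton c).union (f.labels_finite.union a.labels_finite)
  | .mem p e => p.labels_finite.union e.labels_finite

@[simp] theorem MTm.labels_ren (M : MTm S L) : ∀ ξ, (M.ren ξ).labels = M.labels := by
  induction M <;> intros <;> simp [MTm.labels, *]

theorem MTm.labels_sub (M : MTm S L) : ∀ {σ : ℕ → MTm S L} {X : Set L},
    (∀ n, (σ n).labels ⊆ X) → (M.sub σ).labels ⊆ M.labels ∪ X := by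
  induction M with
  | var n => intro σ X h; exact fun x hx => .inr (h n hx)
  | srt s => intro σ X h; simp [MTm.labels]
  | pi A B ihA ihB =>
    intro σ X h
    have := ihA h
    have := ihB (σ := MTm.up σ) (X := X) fun n => by cases n <;> simp [MTm.labels, h]
    simp only [MTm.sub_pi, MTm.labels, Set.union_subset_iff]
    grind
  | lam A b ihA ihb =>
    intro σ X h
    have := ihA h
    have := ihb (σ := MTm.up σ) (X := X) fun n => by cases n <;> simp [MTm.labels, h]
    simp only [MTm.sub_lam, MTm.labels, Set.union_subset_iff]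
    grind
  | app c f a ihf iha =>
    intro σ X h
    have := ihf h
    have := iha h
    simp only [MTm.sub_app, MTm.labels, Set.union_subset_iff]
    grind
  | mem p e ihp ihe =>
    intro σ X h
    have := ihp h
    have := ihe h
    simp only [MTm.sub_mem, MTm.labels, Set.union_subset_iff]
    grind

theorem Ctr.labels {f a r : MTm S L} (h : Ctr f a r) :
    r.labels ⊆ f.labels ∪ a.labels := by
  induction h with
  | lam A b a =>
    have := MTm.labels_sub b (σ := MTm.scons a MTm.var) (X := a.labels)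
      fun n => by cases n <;> simp [MTm.labels]
    simp only [MTm.labels, MTm.inst, Set.union_subset_iff]
    grind
  | mem e _ ih =>
    simp only [MTm.labels, Set.union_subset_iff]
    grind

/-- Steps create no labels. -/
theorem MStep.labels {t u : MTm S L} (h : MStep R t u) : u.labels ⊆ t.labels := by
  induction h with
  | beta _ hr => exact hr.labels.trans Set.subset_union_right
  | _ => simp only [MTm.labels] at *; grind

/-- Only the labels of a term matter for its steps. -/
theorem MStep.restrict {t u : MTm S L} (h : MStep R t u) : MStep (R ∩ t.labels) t u := by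
  induction h with
  | beta hc hr => exact .beta ⟨hc, .inl rfl⟩ hr
  | piL B _ ih => exact .piL _ (ih.mono fun x hx => ⟨hx.1, .inl hx.2⟩)
  | piR A _ ih => exact .piR _ (ih.mono fun x hx => ⟨hx.1, .inr hx.2⟩)
  | lamL b _ ih => exact .lamL _ (ih.mono fun x hx => ⟨hx.1, .inl hx.2⟩)
  | lamR A _ ih => exact .lamR _ (ih.mono fun x hx => ⟨hx.1, .inr hx.2⟩)
  | appL c a _ ih => exact .appL _ _ (ih.mono fun x hx => ⟨hx.1, .inr (.inl hx.2)⟩)
  | appR c f _ ih => exact .appR _ _ (ih.mono fun x hx => ⟨hx.1, .inr (.inr hx.2)⟩)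
  | memL e _ ih => exact .memL _ (ih.mono fun x hx => ⟨hx.1, .inl hx.2⟩)
  | memR p _ ih => exact .memR _ (ih.mono fun x hx => ⟨hx.1, .inr hx.2⟩)

/-- Every step of an erasure lifts. -/
theorem LamHd.of_erase {f : MTm S L} : ∀ {A b : Tm S}, f.erase = .lam A b → LamHd f := by
  induction f with
  | lam A b => intro _ _ _; exact .lam A b
  | mem p e ihp _ => intro A b h; exact .mem e (ihp h)
  | _ => intro A b h; simp [MTm.erase] at h

theorem Ctr.erase_eq {f a r : MTm S L} (h : Ctr f a r) :
    ∀ {A b : Tm S}, f.erase = .lam A b → r.erase = b.inst a.erase := by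
  induction h with
  | lam A b a => intro A' b' e; simp [MTm.erase] at e ⊢; simp [e]
  | mem e _ ih => intro A b e; exact ih e

theorem Step.lift {M M' : Tm S} (h : Step M M') :
    ∀ t : MTm S L, t.erase = M → ∃ u, MStep Set.univ t u ∧ u.erase = M' := by
  intro t
  induction t generalizing M M' with
  | var n => intro e; subst e; simp [MTm.erase] at h; cases h
  | srt s => intro e; subst e; simp [MTm.erase] at h; cases h
  | mem p e ihp _ =>
    intro he
    obtain ⟨u, hu, hu'⟩ := ihp h he
    exact ⟨_, .memL e hu, hu'⟩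
  | pi A B ihA ihB =>
    intro e; subst e; simp only [MTm.erase] at h
    cases h with
    | piL _ h => obtain ⟨u, hu, rfl⟩ := ihA h rfl; exact ⟨_, .piL _ hu, rfl⟩
    | piR _ h => obtain ⟨u, hu, rfl⟩ := ihB h rfl; exact ⟨_, .piR _ hu, rfl⟩
  | lam A b ihA ihb =>
    intro e; subst e; simp only [MTm.erase] at h
    cases h with
    | lamL _ h => obtain ⟨u, hu, rfl⟩ := ihA h rfl; exact ⟨_, .lamL _ hu, rfl⟩
    | lamR _ h => obtain ⟨u, hu, rfl⟩ := ihb h rfl; exact ⟨_, .lamR _ hu, rfl⟩
  | app c f a ihf iha =>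
    intro e; subst e; simp only [MTm.erase] at h
    generalize hF : f.erase = F at h
    cases h with
    | beta A b _ =>
      obtain ⟨r, hr⟩ := (LamHd.of_erase hF).ctr a
      exact ⟨r, .beta trivial hr, hr.erase_eq hF⟩
    | appL _ h =>
      obtain ⟨u, hu, rfl⟩ := ihf h hF
      exact ⟨_, .appL _ _ hu, rfl⟩
    | appR _ h =>
      obtain ⟨u, hu, rfl⟩ := iha h rfl
      exact ⟨_, .appR _ _ hu, by simp [MTm.erase, hF]⟩

/-- Strong normalisation with memory gives strong normalisation of the erasure. -/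
theorem MSN.erase {t : MTm S L} (h : MSN Set.univ t) : StronglyNormal t.erase := by
  induction h with
  | intro t _ ih =>
    refine Acc.intro _ fun M hM => ?_
    obtain ⟨u, hu, rfl⟩ := Step.lift hM t rfl
    exact ih u hu

end Vale.Agent.P340
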