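import Vale.Agent.P340.MemTyping

/-!
# Contraction creates only redexes of earlier colours, and termination of a union

If no colour of `H` is the domain or codomain colour of a rule whose result colour is in `C`,
steps at `C` keep `H`-normality. As nothing is erased, strong normalisation at `H` and at `C`
then gives strong normalisation at `C ∪ H`.
-/

namespace Vale.Agent.P340

open Relation

variable {S L : Type} {P : Spec S}

/-- One colour is the domain or codomain colour of a rule with the other as result colour. -/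
def Edge (P : Spec S) (col : S → L) (x y : L) : Prop :=
  ∃ a b r, P.rule a b r ∧ col r = y ∧ (col a = x ∨ col b = x)

/-- No redex at `R`. -/
def MNormal (R : Set L) (t : MTm S L) : Prop := ∀ u, ¬ MStep R t u

theorem MNormal.red_eq {R : Set L} {t u : MTm S L} (h : MNormal R t) (hr : MRed R t u) :
    u = t := by
  rcases hr.cases_head with rfl | ⟨v, hv, -⟩
  · rfl
  · exact (h v hv).elim

theorem MSN.exists_normal {R : Set L} {t : MTm S L} (h : MSN R t) :
    ∃ n, MRed R t n ∧ MNormal R n := by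
  induction h with
  | intro t _ ih =>
    by_cases hn : MNormal R t
    · exact ⟨t, .refl, hn⟩
    · simp only [MNormal, not_forall, not_not] at hn
      obtain ⟨u, hu⟩ := hn
      obtain ⟨n, h₁, h₂⟩ := ih u hu
      exact ⟨n, .head hu h₁, h₂⟩

theorem LamHd.of_ren {t : MTm S L} {ξ : ℕ → ℕ} (h : LamHd (t.ren ξ)) : LamHd t := by
  induction t generalizing ξ with
  | lam A b => exact .lam A b
  | mem p e ihp _ => cases h with | mem _ h => exact .mem e (ihp h)
  | _ => cases h

theorem LamHd.sub {t : MTm S L} (h : LamHd t) (σ : ℕ → MTm S L) : LamHd (t.sub σ) := by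
  induction h with
  | lam A b => exact .lam _ _
  | mem e _ ih => exact .mem _ ih

variable {col : S → L} (K : Colouring P L)

/-- An abstraction that appears under a substitution was substituted at a variable of that type. -/
theorem LamHd.sub_cases {σ : ℕ → MTm S L} {Γ : List (Tm S)} {f : MTm S L} :
    ∀ {T : Tm S}, MDer P col Γ f T → LamHd (f.sub σ) →
      LamHd f ∨ ∃ n A, Lk Γ n A ∧ BConv A T ∧ LamHd (σ n) := by
  induction f with
  | lam A b => intro T _ _; exact .inl (.lam A b)
  | var n =>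
    intro T hf h
    obtain ⟨A, hl, hc⟩ := hf.gen_var
    exact .inr ⟨n, A, hl, hc, h⟩
  | mem p e ihp _ =>
    intro T hf h
    cases h with
    | mem _ h => exact (ihp hf.gen_mem.1 h).imp (.mem e) id
  | srt s => intro T _ h; cases h
  | pi A B => intro T _ h; cases h
  | app c f a => intro T _ h; cases h

/-- A product type with a sort comes from a rule with that result sort. -/
theorem Der.pi_rule {Γ : List (Tm S)} {A B : Tm S} {s : S} (h : Der P Γ (.pi A B) (.srt s)) :
    ∃ s₁ s₂, P.rule s₁ s₂ s ∧ Der P Γ A (.srt s₁) ∧ Der P (A :: Γ) B (.srt s₂) := by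
  obtain ⟨s₁, s₂, s₃, hA, hB, hr, hc⟩ := h.gen_pi
  obtain rfl := bconv_srt_inj hc
  exact ⟨s₁, s₂, hr, hA, hB⟩

variable {R H C : Set L}

/-- A step at `C` exposes an abstraction only at the codomain colour of a rule into `C`. -/
theorem LamHd.of_step {Γ : List (Tm S)} (hΓ : Wf P Γ) {g g' : MTm S L} (hs : MStep C g g') :
    ∀ {A B : Tm S} {s : S}, MDer P K.col Γ g (.pi A B) → Der P Γ (.pi A B) (.srt s) →
      LamHd g' → LamHd g ∨ ∃ a b r, P.rule a b r ∧ K.col r ∈ C ∧ K.col b = K.col s := by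
  induction hs with
  | @beta c h z r hc hr =>
    intro A B s hg hp _
    obtain ⟨A', B', s', hh, hz, hp', rfl, hconv⟩ := hg.gen_app
    obtain ⟨s₁, s₂, hrule, _, hB'⟩ := hp'.pi_rule
    exact .inr ⟨s₁, s₂, s', hrule, hc, K.sound_conv hΓ (hB'.inst hz.toDer) hp hconv⟩
  | lamL b _ _ => intro A B s _ _ _; exact .inl (.lam _ _)
  | lamR A' _ _ => intro A B s _ _ _; exact .inl (.lam _ _)
  | piL B' _ _ => intro A B s _ _ h; cases h
  | piR A' _ _ => intro A B s _ _ h; cases h
  | appL c a _ _ => intro A B s _ _ h; cases h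
  | appR c f _ _ => intro A B s _ _ h; cases h
  | memL e _ ih =>
    intro A B s hg hp h
    cases h with
    | mem _ h => exact (ih hg.gen_mem.1 hp h).imp (.mem _) id
  | memR p _ _ =>
    intro A B s _ _ h
    cases h with
    | mem _ h => exact .inl (.mem _ h)

theorem mNormal_var (n : ℕ) : MNormal R (.var n : MTm S L) := fun u h => by cases h

theorem MDer.gen_pi {Γ : List (Tm S)} {A B : MTm S L} {T : Tm S}
    (h : MDer P col Γ (.pi A B) T) : ∃ s₁ s₂ s₃, MDer P col Γ A (.srt s₁) ∧
      MDer P col (A.erase :: Γ) B (.srt s₂) ∧ P.rule s₁ s₂ s₃ ∧ BConv (.srt s₃) T := by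
  generalize hM : MTm.pi A B = M at h
  induction h with
  | prod hA hB hr => cases hM; exact ⟨_, _, _, hA, hB, hr, .refl _⟩
  | conv _ _ hc ih =>
    obtain ⟨a, b, c, h1, h2, h3, h4⟩ := ih hM
    exact ⟨a, b, c, h1, h2, h3, h4.trans hc⟩
  | _ => simp at hM

theorem MNormal.ren {R : Set L} {t : MTm S L} (h : MNormal R t) (ξ : ℕ → ℕ) :
    MNormal R (t.ren ξ) := by
  intro u hu
  induction t generalizing ξ u with
  | var n => cases hu
  | srt s => cases hu
  | pi A B ihA ihB =>
    cases hu with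
    | piL _ hu => exact ihA (fun v hv => h _ (.piL B hv)) _ _ hu
    | piR _ hu => exact ihB (fun v hv => h _ (.piR A hv)) _ _ hu
  | lam A B ihA ihB =>
    cases hu with
    | lamL _ hu => exact ihA (fun v hv => h _ (.lamL B hv)) _ _ hu
    | lamR _ hu => exact ihB (fun v hv => h _ (.lamR A hv)) _ _ hu
  | mem A B ihA ihB =>
    cases hu with
    | memL _ hu => exact ihA (fun v hv => h _ (.memL B hv)) _ _ hu
    | memR _ hu => exact ihB (fun v hv => h _ (.memR A hv)) _ _ hu
  | app c f a ihf iha =>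
    cases hu with
    | beta hc hr =>
      obtain ⟨r, hr'⟩ := (LamHd.of_ren hr.lamHd).ctr a
      exact h _ (.beta hc hr')
    | appL _ _ hu => exact ihf (fun v hv => h _ (.appL c a hv)) _ _ hu
    | appR _ _ hu => exact iha (fun v hv => h _ (.appR c f hv)) _ _ hu

/-- Substitution of abstractions only at colours outside `R` keeps normality. -/
theorem MNormal.subst {t : MTm S L} : ∀ {Γ : List (Tm S)} {T : Tm S} {σ : ℕ → MTm S L},
    Wf P Γ → MDer P K.col Γ t T → MNormal R t → (∀ n, MNormal R (σ n)) →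
    (∀ n A, Lk Γ n A → LamHd (σ n) → ∀ s, Der P Γ A (.srt s) → K.col s ∉ R) →
    MNormal R (t.sub σ) := by
  have up : ∀ {Γ : List (Tm S)} {A : Tm S} {σ : ℕ → MTm S L}, Wf P Γ →
      Wf P (A :: Γ) → (∀ n, MNormal R (σ n)) →
      (∀ n A, Lk Γ n A → LamHd (σ n) → ∀ s, Der P Γ A (.srt s) → K.col s ∉ R) →
      (∀ n, MNormal R (MTm.up σ n)) ∧ ∀ n B, Lk (A :: Γ) n B → LamHd (MTm.up σ n) →
        ∀ s, Der P (A :: Γ) B (.srt s) → K.col s ∉ R := by
    intro Γ A σ hΓ hA hn hg
    refine ⟨fun n => ?_, fun n B hl hh s hs => ?_⟩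
    · cases n with
      | zero => exact mNormal_var 0
      | succ n => exact (hn n).ren _
    · cases hl with
      | zero => cases hh
      | @succ _ B' _ n hl' =>
        obtain ⟨s', hs'⟩ := hΓ.lookup hl'
        rw [K.sound hA hs (by simpa using hs'.weaken A)]
        exact hg n B' hl' (LamHd.of_ren hh) s' hs'
  induction t with
  | var n => intro Γ T σ _ _ _ hn _; exact hn n
  | srt s => intro Γ T σ _ _ _ _ _ u hu; cases hu
  | pi A B ihA ihB =>
    intro Γ T σ hΓ ht h hn hg u hu
    obtain ⟨s₁, s₂, s₃, hA, hB, _, _⟩ := ht.gen_pi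
    have hw := hΓ.cons hA.toDer
    obtain ⟨hn', hg'⟩ := up hΓ hw hn hg
    cases hu with
    | piL _ hu => exact ihA hΓ hA (fun v hv => h _ (.piL B hv)) hn hg _ hu
    | piR _ hu => exact ihB hw hB (fun v hv => h _ (.piR A hv)) hn' hg' _ hu
  | lam A b ihA ihb =>
    intro Γ T σ hΓ ht h hn hg u hu
    obtain ⟨s₁, B, s, hA, hb, _, _⟩ := ht.gen_lam
    have hw := hΓ.cons hA.toDer
    obtain ⟨hn', hg'⟩ := up hΓ hw hn hg
    cases hu with
    | lamL _ hu => exact ihA hΓ hA (fun v hv => h _ (.lamL b hv)) hn hg _ hu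
    | lamR _ hu => exact ihb hw hb (fun v hv => h _ (.lamR A hv)) hn' hg' _ hu
  | mem p e ihp ihe =>
    intro Γ T σ hΓ ht h hn hg u hu
    obtain ⟨hp, E, he⟩ := ht.gen_mem
    cases hu with
    | memL _ hu => exact ihp hΓ hp (fun v hv => h _ (.memL e hv)) hn hg _ hu
    | memR _ hu => exact ihe hΓ he (fun v hv => h _ (.memR p hv)) hn hg _ hu
  | app c f a ihf iha =>
    intro Γ T σ hΓ ht h hn hg u hu
    obtain ⟨A, B, s, hf, ha, hp, hc, _⟩ := ht.gen_app
    cases hu with
    | beta hcR hr =>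
      rcases LamHd.sub_cases hf hr.lamHd with hl | ⟨n, A', hl, hconv, hσ⟩
      · obtain ⟨r, hr'⟩ := hl.ctr a
        exact h _ (.beta hcR hr')
      · obtain ⟨s', hs'⟩ := hΓ.lookup hl
        refine hg n A' hl hσ s' hs' ?_
        rwa [K.sound_conv hΓ hs' hp hconv, ← hc]
    | appL _ _ hu => exact ihf hΓ hf (fun v hv => h _ (.appL c a hv)) hn hg _ hu
    | appR _ _ hu => exact iha hΓ ha (fun v hv => h _ (.appR c f hv)) hn hg _ hu

variable (hno : ∀ a b r, P.rule a b r → K.col r ∈ C → K.col a ∉ H ∧ K.col b ∉ H)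

include hno

theorem Ctr.normal {f a r : MTm S L} (hr : Ctr f a r) : ∀ {Γ : List (Tm S)} {A B : Tm S} {s : S},
    Wf P Γ → MDer P K.col Γ f (.pi A B) → MDer P K.col Γ a A →
    Der P Γ (.pi A B) (.srt s) → K.col s ∈ C → MNormal H f → MNormal H a → MNormal H r := by
  induction hr with
  | lam A' b a =>
    intro Γ A B s hΓ hf ha hp hs hnf hna u hu
    obtain ⟨s₁, B', s', hA', hb, hp', hc⟩ := hf.gen_lam
    obtain ⟨t₁, t₂, hrule, hA'', _⟩ := hp'.pi_rule
    have hcol : K.col t₁ ∉ H :=
      (hno t₁ t₂ s' hrule (by rwa [K.sound_conv hΓ hp' hp hc])).1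
    have hw := hΓ.cons hA'.toDer
    cases hu with
    | memL _ hu =>
      cases hu with
      | memL _ hu =>
        refine MNormal.subst K hw hb (fun v hv => hnf _ (.lamR A' hv)) (fun n => ?_) ?_ _ hu
        · cases n with
          | zero => exact hna
          | succ n => exact mNormal_var n
        · intro n B₀ hl hh t ht
          cases hl with
          | zero => rwa [K.sound hw ht (by simpa using hA''.weaken A'.erase)]
          | succ _ => cases hh
      | memR _ hu => exact hna _ hu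
    | memR _ hu => exact hnf _ (.lamL b hu)
  | mem e _ ih =>
    intro Γ A B s hΓ hf ha hp hs hnf hna u hu
    cases hu with
    | memL _ hu =>
      exact ih hΓ hf.gen_mem.1 ha hp hs (fun v hv => hnf _ (.memL e hv)) hna _ hu
    | memR _ hu => exact hnf _ (.memR _ hu)

/-- Steps at `C` create no redex at `H`. -/
theorem MStep.normal {t t' : MTm S L} (hs : MStep C t t') :
    ∀ {Γ : List (Tm S)} {T : Tm S}, Wf P Γ → MDer P K.col Γ t T → MNormal H t →
      MNormal H t' := by
  induction hs with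
  | beta hc hr =>
    intro Γ T hΓ ht h
    obtain ⟨A, B, s, hf, ha, hp, rfl, _⟩ := ht.gen_app
    exact hr.normal K hno hΓ hf ha hp hc (fun v hv => h _ (.appL _ _ hv))
      (fun v hv => h _ (.appR _ _ hv))
  | piL B _ ih =>
    intro Γ T hΓ ht h u hu
    obtain ⟨_, _, _, hA, _, _, _⟩ := ht.gen_pi
    cases hu with
    | piL _ hu => exact ih hΓ hA (fun v hv => h _ (.piL _ hv)) _ hu
    | piR _ hu => exact h _ (.piR _ hu)
  | piR A _ ih =>
    intro Γ T hΓ ht h u hu
    obtain ⟨_, _, _, hA, hB, _, _⟩ := ht.gen_pi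
    cases hu with
    | piL _ hu => exact h _ (.piL _ hu)
    | piR _ hu => exact ih (hΓ.cons hA.toDer) hB (fun v hv => h _ (.piR _ hv)) _ hu
  | lamL b _ ih =>
    intro Γ T hΓ ht h u hu
    obtain ⟨_, _, _, hA, _, _, _⟩ := ht.gen_lam
    cases hu with
    | lamL _ hu => exact ih hΓ hA (fun v hv => h _ (.lamL _ hv)) _ hu
    | lamR _ hu => exact h _ (.lamR _ hu)
  | lamR A _ ih =>
    intro Γ T hΓ ht h u hu
    obtain ⟨_, _, _, hA, hb, _, _⟩ := ht.gen_lam
    cases hu with
    | lamL _ hu => exact h _ (.lamL _ hu)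
    | lamR _ hu => exact ih (hΓ.cons hA.toDer) hb (fun v hv => h _ (.lamR _ hv)) _ hu
  | memL e _ ih =>
    intro Γ T hΓ ht h u hu
    cases hu with
    | memL _ hu => exact ih hΓ ht.gen_mem.1 (fun v hv => h _ (.memL _ hv)) _ hu
    | memR _ hu => exact h _ (.memR _ hu)
  | memR p _ ih =>
    intro Γ T hΓ ht h u hu
    obtain ⟨_, E, he⟩ := ht.gen_mem
    cases hu with
    | memL _ hu => exact h _ (.memL _ hu)
    | memR _ hu => exact ih hΓ he (fun v hv => h _ (.memR _ hv)) _ hu
  | appL c a hs ih =>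
    intro Γ T hΓ ht h u hu
    obtain ⟨A, B, s, hf, ha, hp, rfl, _⟩ := ht.gen_app
    cases hu with
    | beta hcH hr =>
      rcases LamHd.of_step K hΓ hs hf hp hr.lamHd with hl | ⟨a', b', r', hrule, hr', hb'⟩
      · obtain ⟨r, hr''⟩ := hl.ctr a
        exact h _ (.beta hcH hr'')
      · exact (hno a' b' r' hrule hr').2 (by rwa [hb'])
    | appL _ _ hu => exact ih hΓ hf (fun v hv => h _ (.appL _ _ hv)) _ hu
    | appR _ _ hu => exact h _ (.appR _ _ hu)
  | appR c f _ ih =>
    intro Γ T hΓ ht h u hu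
    obtain ⟨A, B, s, hf, ha, hp, _, _⟩ := ht.gen_app
    cases hu with
    | beta hcH hr =>
      obtain ⟨r, hr''⟩ := hr.lamHd.ctr _
      exact h _ (.beta hcH hr'')
    | appL _ _ hu => exact h _ (.appL _ _ hu)
    | appR _ _ hu => exact ih hΓ ha (fun v hv => h _ (.appR _ _ hv)) _ hu

/-- Strong normalisation at `C` and at `H` gives it at `C ∪ H`. -/
theorem msn_union (hd : Disjoint C H)
    (hH : ∀ Γ t T, Wf P Γ → MDer P K.col Γ t T → MSN H t)
    (hC : ∀ Γ t T, Wf P Γ → MDer P K.col Γ t T → MSN C t)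
    {Γ : List (Tm S)} {t : MTm S L} {T : Tm S} (hΓ : Wf P Γ) (ht : MDer P K.col Γ t T) :
    MSN (C ∪ H) t := by
  suffices main : ∀ n, Acc (TransGen fun u v => MStep C v u) n → MNormal H n →
      ∀ t, MDer P K.col Γ t T → MRed H t n → MSN (C ∪ H) t by
    obtain ⟨n, h₁, h₂⟩ := (hH Γ t T hΓ ht).exists_normal
    exact main n (hC Γ n T hΓ (ht.red hΓ h₁)).transGen h₂ t ht h₁
  intro n hn
  induction hn with
  | intro n _ ihn =>
    intro hnn t ht
    have hsn := hH Γ t T hΓ ht
    induction hsn with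
    | intro t _ iht =>
      intro hred
      refine Acc.intro _ fun u hu => ?_
      have htu := ht.step hΓ hu
      rcases hu.split with hu | hu
      · obtain ⟨z, h₁, h₂⟩ := hu.par.commute_red hd hred
        have hz : TransGen (MStep C) n z := h₂.red.2 rfl
        have hnz : ∀ z, ReflTransGen (MStep C) n z → MNormal H z := by
          intro z hz
          induction hz with
          | refl => exact hnn
          | tail hp hs ih => exact hs.normal K hno hΓ ((ht.red hΓ hred).red hΓ hp) ih
        exact ihn z (transGen_swap.mpr hz) (hnz z hz.to_reflTransGen) u htu h₁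
      · obtain ⟨w, h₁, h₂⟩ := MRed.confluence (.single hu) hred
        rw [hnn.red_eq h₂] at h₁
        exact iht u hu htu h₁

end Vale.Agent.P340
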