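import Vale.Agent.P340.Algebra

/-!
# Congruences of reduction and conversion
-/

namespace Vale.Agent.P340

open Relation

variable {S : Type} {M M' N N' A A' B B' a a' b b' f f' : Tm S}

theorem Step.ren (h : Step M N) : ∀ ξ : ℕ → ℕ, Step (M.ren ξ) (N.ren ξ) := by
  induction h with
  | beta A b a => intro ξ; rw [Tm.ren_inst]; exact Step.beta _ _ _
  | piL B _ ih => intro ξ; exact Step.piL _ (ih ξ)
  | piR A _ ih => intro ξ; exact Step.piR _ (ih _)
  | lamL b _ ih => intro ξ; exact Step.lamL _ (ih ξ)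
  | lamR A _ ih => intro ξ; exact Step.lamR _ (ih _)
  | appL a _ ih => intro ξ; exact Step.appL _ (ih ξ)
  | appR f _ ih => intro ξ; exact Step.appR _ (ih ξ)

theorem Step.sub (h : Step M N) : ∀ σ : ℕ → Tm S, Step (M.sub σ) (N.sub σ) := by
  induction h with
  | beta A b a => intro σ; rw [Tm.sub_inst]; exact Step.beta _ _ _
  | piL B _ ih => intro σ; exact Step.piL _ (ih σ)
  | piR A _ ih => intro σ; exact Step.piR _ (ih _)
  | lamL b _ ih => intro σ; exact Step.lamL _ (ih σ)
  | lamR A _ ih => intro σ; exact Step.lamR _ (ih _)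
  | appL a _ ih => intro σ; exact Step.appL _ (ih σ)
  | appR f _ ih => intro σ; exact Step.appR _ (ih σ)

theorem Red.ren (h : Red M N) (ξ : ℕ → ℕ) : Red (M.ren ξ) (N.ren ξ) :=
  h.lift (fun x => x.ren ξ) fun _ _ h => h.ren ξ

theorem Red.sub (h : Red M N) (σ : ℕ → Tm S) : Red (M.sub σ) (N.sub σ) :=
  h.lift (fun x => x.sub σ) fun _ _ h => h.sub σ

theorem Red.pi (hA : Red A A') (hB : Red B B') : Red (Tm.pi A B) (.pi A' B') :=
  (hA.lift (Tm.pi · B) fun _ _ h => Step.piL B h).trans
    (hB.lift (Tm.pi A' ·) fun _ _ h => Step.piR A' h)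

theorem Red.lam (hA : Red A A') (hb : Red b b') : Red (Tm.lam A b) (.lam A' b') :=
  (hA.lift (Tm.lam · b) fun _ _ h => Step.lamL b h).trans
    (hb.lift (Tm.lam A' ·) fun _ _ h => Step.lamR A' h)

theorem Red.app (hf : Red f f') (ha : Red a a') : Red (Tm.app f a) (.app f' a') :=
  (hf.lift (Tm.app · a) fun _ _ h => Step.appL a h).trans
    (ha.lift (Tm.app f' ·) fun _ _ h => Step.appR f' h)

theorem red_ups {σ τ : ℕ → Tm S} (h : ∀ n, Red (σ n) (τ n)) : ∀ n, Red (ups σ n) (ups τ n)
  | 0 => .refl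
  | n + 1 => (h n).ren _

theorem Red.subst (M : Tm S) : ∀ {σ τ : ℕ → Tm S}, (∀ n, Red (σ n) (τ n)) →
    Red (M.sub σ) (M.sub τ) := by
  induction M with
  | var n => intro σ τ h; exact h n
  | srt s => intro σ τ h; exact .refl
  | pi A B ihA ihB => intro σ τ h; exact Red.pi (ihA h) (ihB (red_ups h))
  | lam A B ihA ihB => intro σ τ h; exact Red.lam (ihA h) (ihB (red_ups h))
  | app f a ihf iha => intro σ τ h; exact Red.app (ihf h) (iha h)

theorem Red.inst (hb : Red b b') (ha : Red a a') : Red (b.inst a) (b'.inst a') :=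
  (hb.sub _).trans (Red.subst b' fun n => by cases n <;> [exact ha; exact .refl])

theorem BConv.of_step (h : Step M N) : BConv M N := .rel _ _ h

theorem BConv.symm (h : BConv M N) : BConv N M := Relation.EqvGen.symm _ _ h

theorem BConv.trans {P : Tm S} (h : BConv M N) (h' : BConv N P) : BConv M P :=
  Relation.EqvGen.trans _ _ _ h h'

theorem BConv.of_red (h : Red M N) : BConv M N := by
  induction h with
  | refl => exact .refl _
  | tail _ h ih => exact ih.trans (.rel _ _ h)

theorem Red.bconv (h : Red M N) : BConv M N := BConv.of_red h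

theorem BConv.map {F : Tm S → Tm S} (hF : ∀ x y, Step x y → BConv (F x) (F y))
    (h : BConv M N) : BConv (F M) (F N) := by
  induction h with
  | rel x y h => exact hF x y h
  | refl x => exact .refl _
  | symm x y _ ih => exact ih.symm
  | trans x y z _ _ ih₁ ih₂ => exact ih₁.trans ih₂

theorem BConv.ren (h : BConv M N) (ξ : ℕ → ℕ) : BConv (M.ren ξ) (N.ren ξ) :=
  h.map fun _ _ h => .rel _ _ (h.ren ξ)

theorem BConv.sub (h : BConv M N) (σ : ℕ → Tm S) : BConv (M.sub σ) (N.sub σ) :=
  h.map fun _ _ h => .rel _ _ (h.sub σ)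

theorem BConv.pi (hA : BConv A A') (hB : BConv B B') : BConv (Tm.pi A B) (.pi A' B') :=
  (BConv.map (F := fun x => Tm.pi x B) (fun _ _ h => .of_step (Step.piL B h)) hA).trans
    (BConv.map (F := fun x => Tm.pi A' x) (fun _ _ h => .of_step (Step.piR A' h)) hB)

theorem BConv.lam (hA : BConv A A') (hb : BConv b b') : BConv (Tm.lam A b) (.lam A' b') :=
  (BConv.map (F := fun x => Tm.lam x b) (fun _ _ h => .of_step (Step.lamL b h)) hA).trans
    (BConv.map (F := fun x => Tm.lam A' x) (fun _ _ h => .of_step (Step.lamR A' h)) hb)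

theorem BConv.app (hf : BConv f f') (ha : BConv a a') : BConv (Tm.app f a) (.app f' a') :=
  (BConv.map (F := fun x => Tm.app x a) (fun _ _ h => .of_step (Step.appL a h)) hf).trans
    (BConv.map (F := fun x => Tm.app f' x) (fun _ _ h => .of_step (Step.appR f' h)) ha)

theorem BConv.inst_right (b : Tm S) (ha : BConv a a') : BConv (b.inst a) (b.inst a') :=
  BConv.map (F := b.inst) (fun _ _ h => Red.bconv (Red.inst .refl (.single h))) ha

theorem BConv.inst (hb : BConv b b') (ha : BConv a a') : BConv (b.inst a) (b'.inst a') :=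
  (hb.sub _).trans (BConv.inst_right b' ha)

end Vale.Agent.P340
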