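import Vale.Agent.P340.UStepBasic
import Vale.Agent.P340.Interfaces

/-!
# Simply typed skeletons are strongly normal

Reducibility over shapes.
-/

namespace Vale.Agent.P340

/-- The reducible skeletons of a shape. -/
def Rd : Shape → U → Prop
  | .atom, u => u.SN
  | .arr a b, u => ∀ v, Rd a v → Rd b (.app u v)
  | .all b, u => Rd b (.tapp u)

/-- Neither kind of abstraction. -/
def U.NotAbs : U → Prop
  | .lam _ => False
  | .tlam _ => False
  | _ => True

/-- The three closure properties at one shape. -/
structure RdGood (s : Shape) : Prop where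
  sn : ∀ u, Rd s u → u.SN
  step : ∀ u v, Rd s u → UStep u v → Rd s v
  expand : ∀ u, u.NotAbs → (∀ v, UStep u v → Rd s v) → Rd s u

theorem rdGood : ∀ s, RdGood s
  | .atom =>
    { sn := fun _ h => h
      step := fun _ _ h hs => U.SN.step h hs
      expand := fun _ _ h => U.SN.intro h }
  | .arr a b => by
    have ha := rdGood a
    have hb := rdGood b
    have hvar : Rd a (.var 0) := ha.expand _ trivial fun v hv => by cases hv
    refine ⟨fun u h => ?_, fun u v h hs w hw => hb.step _ _ (h w hw) (UStep.appL w hs), ?_⟩
    · exact U.SN.of_map (F := fun x => U.app x (.var 0)) (fun _ _ hs => UStep.appL _ hs)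
        (hb.sn _ (h _ hvar))
    · intro u hu h w hw
      have hsn := ha.sn _ hw
      induction hsn with
      | intro w _ ih =>
        refine hb.expand _ trivial fun v hv => ?_
        cases hv with
        | beta body _ => exact hu.elim
        | appL _ hs => exact h _ hs w hw
        | appR _ hs => exact ih _ hs (ha.step _ _ hw hs)
  | .all b => by
    have hb := rdGood b
    refine ⟨fun u h => ?_, fun u v h hs => hb.step _ _ h (UStep.tapp hs), ?_⟩
    · exact U.SN.of_map (F := fun x => U.tapp x) (fun _ _ hs => UStep.tapp hs) (hb.sn _ h)
    · intro u hu h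
      refine hb.expand _ trivial fun v hv => ?_
      cases hv with
      | tbeta body => exact hu.elim
      | tapp hs => exact h _ hs

theorem rd_var (s : Shape) (n : ℕ) : Rd s (.var n) :=
  (rdGood s).expand _ trivial fun v hv => by cases hv

theorem rd_cst (s : Shape) : Rd s .cst :=
  (rdGood s).expand _ trivial fun v hv => by cases hv

theorem rd_lam {a b : Shape} {body : U} (h : ∀ v, Rd a v → Rd b (body.inst v)) :
    Rd (.arr a b) (.lam body) := by
  have hsn : body.SN := U.SN.of_sub ((rdGood b).sn _ (h _ (rd_var a 0)))
  induction hsn with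
  | intro body _ ihb =>
    intro w hw
    have hwsn := (rdGood a).sn _ hw
    induction hwsn with
    | intro w _ ihw =>
      refine (rdGood b).expand _ trivial fun v hv => ?_
      cases hv with
      | beta _ _ => exact h w hw
      | appL _ hs =>
        cases hs with
        | lam hs =>
          exact ihb _ hs (fun x hx => (rdGood b).step _ _ (h x hx) (hs.sub _)) w hw
      | appR _ hs => exact ihw _ hs ((rdGood a).step _ _ hw hs)

theorem rd_tlam {b : Shape} {body : U} (h : Rd b (body.inst .cst)) :
    Rd (.all b) (.tlam body) := by
  have hsn : body.SN := U.SN.of_sub ((rdGood b).sn _ h)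
  induction hsn with
  | intro body _ ihb =>
    refine (rdGood b).expand _ trivial fun v hv => ?_
    cases hv with
    | tbeta _ => exact h
    | tapp hs =>
      cases hs with
      | tlam hs => exact ihb _ hs ((rdGood b).step _ _ h (hs.sub _))

theorem U.sub_up_inst (u v : U) (σ : ℕ → U) :
    (u.sub (U.up σ)).inst v = u.sub (fun n => n.casesOn v σ) := by
  rw [U.inst, U.sub_sub]
  refine U.sub_congr u fun n => ?_
  cases n with
  | zero => rfl
  | succ n => simp [Function.comp_def]

theorem rd_fundamental {G : ℕ → Shape} {u : U} {s : Shape} (h : UTy G u s) :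
    ∀ σ : ℕ → U, (∀ n, Rd (G n) (σ n)) → Rd s (u.sub σ) := by
  induction h with
  | var n => intro σ hσ; exact hσ n
  | cst => intro σ _; exact U.sn_cst
  | @lam G a b u _ ih =>
    intro σ hσ
    refine rd_lam fun v hv => ?_
    rw [U.sub_up_inst]
    exact ih _ fun n => by cases n with
      | zero => exact hv
      | succ n => exact hσ n
  | @tlam G c b u _ ih =>
    intro σ hσ
    refine rd_tlam ?_
    rw [U.sub_up_inst]
    exact ih _ fun n => by cases n with
      | zero => exact rd_cst c
      | succ n => exact hσ n
  | app _ _ ihf iha => intro σ hσ; exact ihf σ hσ _ (iha σ hσ)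
  | tapp _ ih => intro σ hσ; exact ih σ hσ
  | @upi G c a b _ _ iha ihb =>
    intro σ hσ
    refine U.sn_upi (iha σ hσ) (U.SN.of_sub (σ := U.sub0 .cst) ?_)
    have := ihb (fun n => n.casesOn .cst σ) fun n => by cases n with
      | zero => exact rd_cst c
      | succ n => exact hσ n
    rw [← U.sub_up_inst] at this
    exact this

/-- Simply typed skeletons are strongly normal. -/
theorem shapedSN : ShapedSN := fun G u s h => by
  have := (rdGood s).sn _ (rd_fundamental h U.var fun n => rd_var (G n) n)
  rwa [U.sub_id] at this

end Vale.Agent.P340
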