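import Vale.Agent.P340.Erasure
import Vale.Agent.P340.Shaped

/-!
# Levels without polymorphism over themselves

Without the rule `(i, i, i)` a skeleton of level `i` has no abstraction, so it only shrinks.
Without a rule `(t, i, i)` for the axiom `i : t` the types of sort `i` have stable shapes, so
the skeletons of level `i` are simply typed.
-/

namespace Vale.Agent.P340

open Relation

/-! ### Skeletons without abstraction -/

/-- No `lam` occurs. -/
def U.NoLam : U → Prop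
  | .lam _ => False
  | .tlam b => U.NoLam b
  | .app f a => U.NoLam f ∧ U.NoLam a
  | .tapp f => U.NoLam f
  | .upi a b => U.NoLam a ∧ U.NoLam b
  | _ => True

/-- The number of nodes. -/
def U.nodes : U → ℕ
  | .var _ => 1
  | .cst => 1
  | .lam b => b.nodes + 1
  | .tlam b => b.nodes + 1
  | .app f a => f.nodes + a.nodes + 1
  | .tapp f => f.nodes + 1
  | .upi a b => a.nodes + b.nodes + 1

theorem U.nodes_sub_atoms (b : U) : ∀ σ : ℕ → U, (∀ n, (∃ m, σ n = .var m) ∨ σ n = .cst) →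
    (b.sub σ).nodes = b.nodes ∧ (b.NoLam → (b.sub σ).NoLam) := by
  have up : ∀ σ : ℕ → U, (∀ n, (∃ m, σ n = .var m) ∨ σ n = .cst) →
      ∀ n, (∃ m, U.up σ n = .var m) ∨ U.up σ n = .cst := by
    intro σ h n
    cases n with
    | zero => exact .inl ⟨0, rfl⟩
    | succ n => rcases h n with ⟨m, e⟩ | e <;> simp [e]
  induction b with
  | var n => intro σ h; rcases h n with ⟨m, e⟩ | e <;> simp [e, U.nodes, U.NoLam]
  | cst => intro σ _; simp [U.nodes]
  | lam b ih => intro σ h; simp [U.nodes, U.NoLam, (ih _ (up σ h)).1]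
  | tlam b ih =>
    intro σ h
    simpa [U.nodes, U.NoLam, (ih _ (up σ h)).1] using (ih _ (up σ h)).2
  | app f a ihf iha =>
    intro σ h
    simp [U.nodes, U.NoLam, (ihf σ h).1, (iha σ h).1]
    exact fun hf ha => ⟨(ihf σ h).2 hf, (iha σ h).2 ha⟩
  | tapp f ih => intro σ h; simpa [U.nodes, U.NoLam, (ih σ h).1] using (ih σ h).2
  | upi a b iha ihb =>
    intro σ h
    simp [U.nodes, U.NoLam, (iha σ h).1, (ihb _ (up σ h)).1]
    exact fun ha hb => ⟨(iha σ h).2 ha, (ihb _ (up σ h)).2 hb⟩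

theorem U.noLam_step {u v : U} (h : UStep u v) (hu : u.NoLam) :
    v.NoLam ∧ v.nodes < u.nodes := by
  induction h with
  | beta b a => simp [U.NoLam] at hu
  | tbeta b =>
    have := b.nodes_sub_atoms (U.sub0 .cst) fun n => by cases n <;> simp
    refine ⟨this.2 hu, ?_⟩
    simp [U.inst, U.nodes, this.1]
  | lam _ _ => simp [U.NoLam] at hu
  | tlam _ ih => have := ih hu; simp [U.nodes, U.NoLam, this]
  | appL a _ ih => have := ih hu.1; simp [U.nodes, U.NoLam, this, hu.2]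
  | appR f _ ih => have := ih hu.2; simp [U.nodes, U.NoLam, this, hu.1]
  | tapp _ ih => have := ih hu; simp [U.nodes, U.NoLam, this]
  | upiL b _ ih => have := ih hu.1; simp [U.nodes, U.NoLam, this, hu.2]
  | upiR a _ ih => have := ih hu.2; simp [U.nodes, U.NoLam, this, hu.1]

theorem U.sn_of_noLam : ∀ u : U, u.NoLam → u.SN := by
  intro u
  induction hk : u.nodes using Nat.strong_induction_on generalizing u with
  | _ k ih =>
    intro hu
    refine U.SN.intro fun v hv => ?_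
    obtain ⟨hn, hlt⟩ := U.noLam_step hv hu
    exact ih v.nodes (hk ▸ hlt) v rfl hn

variable {S : Type} [PartialOrder S] {P : Spec S} {i s t : S}
  {Γ Δ : List (Tm S)} {M N N' T T' A B C a f : Tm S}

theorem erase_noLam (hP : GenNonDependent P) (hno : ¬ P.rule i i i) :
    ∀ (M : Tm S) (Γ : List (Tm S)), Wf P Γ → Lv P Γ M i → (erase P i Γ M).NoLam := by
  intro M
  induction M with
  | var m => intro Γ _ _; trivial
  | srt s => intro Γ _ _; trivial
  | pi A B ihA ihB =>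
    intro Γ hΓ h
    obtain ⟨s₁, s₂, hA, -, -, -, hB, -⟩ := h.pi_inv hP hΓ
    simp only [erase]
    refine ⟨?_, ihB _ (hΓ.cons hA) hB⟩
    split_ifs with hc
    · exact ihA Γ hΓ hc
    · trivial
  | lam A b _ ihb =>
    intro Γ hΓ h
    obtain ⟨B, s₁, hA, -, -, hr, hb⟩ := h.lam_inv hP hΓ
    simp only [erase]
    split_ifs with hc
    · exact absurd ((sort_iff hP hA).1 hc ▸ hr) hno
    · exact ihb _ (hΓ.cons hA) hb
  | app f a ihf iha =>
    intro Γ hΓ h
    obtain ⟨A, B, s₁, -, -, -, -, -, hf, -⟩ := h.app_inv hP hΓ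
    simp only [erase]
    split_ifs with hc
    · exact ⟨ihf Γ hΓ hf, iha Γ hΓ hc⟩
    · exact ihf Γ hΓ hf

/-- A level without the rule `(i, i, i)` has strongly normal skeletons. -/
theorem sn_of_no_rule (hP : GenNonDependent P) (hno : ¬ P.rule i i i) (hΓ : Wf P Γ)
    (h : Lv P Γ M i) : (erase P i Γ M).SN :=
  U.sn_of_noLam _ (erase_noLam hP hno M Γ hΓ h)

/-! ### Shapes -/

/-- An application spine headed by a variable. -/
inductive Spine : Tm S → Prop
  | var (n : ℕ) : Spine (.var n)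
  | app {f : Tm S} (a : Tm S) : Spine f → Spine (.app f a)

/-- The shape of a type of sort `i` in a form with a stable head. -/
inductive Shp (P : Spec S) (i : S) : List (Tm S) → Tm S → Shape → Prop
  | srt {Γ : List (Tm S)} (s : S) : Shp P i Γ (.srt s) .atom
  | spine {Γ : List (Tm S)} {N : Tm S} : Spine N → Shp P i Γ N .atom
  | arr {Γ : List (Tm S)} {A B : Tm S} {a b : Shape} : Der P Γ A (.srt i) → Shp P i Γ A a → Shp P i (A :: Γ) B b →
      Shp P i Γ (.pi A B) (.arr a b)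
  | all {Γ : List (Tm S)} {A B : Tm S} {b : Shape} : ¬ Der P Γ A (.srt i) → Shp P i (A :: Γ) B b →
      Shp P i Γ (.pi A B) (.all b)

omit [PartialOrder S] in
theorem Spine.step (h : Spine N) (hs : Step N N') : Spine N' := by
  induction h generalizing N' with
  | var n => cases hs
  | app a hf ih =>
    cases hs with
    | beta A b _ => cases hf
    | appL _ hs => exact .app _ (ih hs)
    | appR _ hs => exact .app _ hf

theorem Spine.sub (hP : GenNonDependent P) (hΓ : Wf P Γ) (h : Spine N) (hl : Lv P Γ N t)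
    {σ : ℕ → Tm S} (hσ : ∀ n, Lv P Γ (.var n) t → ∃ m, σ n = .var m) : Spine (N.sub σ) := by
  induction h generalizing t with
  | var n => obtain ⟨m, e⟩ := hσ n hl; rw [Tm.sub_var, e]; exact .var m
  | app a _ ih =>
    obtain ⟨A, B, s₁, -, -, -, -, -, hf, -⟩ := hl.app_inv hP hΓ
    exact .app _ (ih hf hσ)

/-- Variables that can head a type of sort `i` are sent to variables. -/
def KeepsHeads (P : Spec S) (i : S) (Γ : List (Tm S)) (σ : ℕ → Tm S) : Prop :=
  ∀ n t, P.ax i t → Lv P Γ (.var n) t → ∃ m, σ n = .var m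

theorem KeepsHeads.up (hP : GenNonDependent P) (hΓ : Wf P (A :: Γ)) {σ : ℕ → Tm S}
    (h : KeepsHeads P i Γ σ) : KeepsHeads P i (A :: Γ) (ups σ) := by
  intro n t ht hl
  cases n with
  | zero => exact ⟨0, rfl⟩
  | succ n =>
    obtain ⟨m, e⟩ := h n t ht (lv_var_of_succ hP hΓ hl)
    exact ⟨m + 1, by simp [e]⟩

omit [PartialOrder S] in
theorem keepsHeads_var : KeepsHeads P i Γ Tm.var := fun n _ _ _ => ⟨n, rfl⟩

theorem Shp.sub (hP : GenNonDependent P) {σs : Shape} (h : Shp P i Γ N σs) :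
    ∀ {Δ : List (Tm S)} {σ : ℕ → Tm S}, Wf P Γ → Wf P Δ → Subs P σ Γ Δ →
      Der P Γ N (.srt i) → KeepsHeads P i Γ σ → Shp P i Δ (N.sub σ) σs := by
  induction h with
  | srt s => intro Δ σ _ _ _ _ _; exact .srt s
  | @spine Γ N hN =>
    intro Δ σ hΓ _ _ hd hk
    rcases hd.level_or_head hΓ with ⟨t, ht⟩ | ⟨_, e⟩ | ⟨_, _, e⟩
    · exact .spine (hN.sub hP hΓ ht fun n => hk n t ((Lv.type_iff hP hΓ hd).1 ht))
    · subst e; cases hN
    · subst e; cases hN
  | @arr Γ A B a b hA _ _ ihA ihB =>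
    intro Δ σ hΓ hΔ hσ hd hk
    obtain ⟨s₁, s₂, s₃, -, hB, hr, hc⟩ := hd.gen_pi
    rw [← hP.rule_eq hr, bconv_srt_inj hc] at hB
    exact .arr (hA.subst hσ) (ihA hΓ hΔ hσ hA hk)
      (ihB (hΓ.cons hA) (hΔ.cons (hA.subst hσ)) (hσ.up A) hB (hk.up hP (hΓ.cons hA)))
  | @all Γ A B b hA _ ihB =>
    intro Δ σ hΓ hΔ hσ hd hk
    obtain ⟨s₁, s₂, s₃, hA', hB, hr, hc⟩ := hd.gen_pi
    rw [← hP.rule_eq hr, bconv_srt_inj hc] at hB
    refine .all (fun h => hA ?_)
      (ihB (hΓ.cons hA') (hΔ.cons (hA'.subst hσ)) (hσ.up A) hB (hk.up hP (hΓ.cons hA')))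
    exact (sort_iff hP (hA'.subst hσ)).1 h ▸ hA'

theorem Shp.step (hP : GenNonDependent P) {σs : Shape} (h : Shp P i Γ N σs) :
    ∀ {N'}, Wf P Γ → Der P Γ N (.srt i) → Step N N' → Shp P i Γ N' σs := by
  induction h with
  | srt s => intro N' _ _ hs; cases hs
  | spine hN => intro N' _ _ hs; exact .spine (hN.step hs)
  | @arr Γ A B a b hA hSA hSB ihA ihB =>
    intro N' hΓ hd hs
    obtain ⟨s₁, s₂, s₃, -, hB, hr, hc⟩ := hd.gen_pi
    rw [← hP.rule_eq hr, bconv_srt_inj hc] at hB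
    cases hs with
    | @piL _ A' _ hs =>
      have hA' := hA.step hΓ hs
      have := hSB.sub hP (hΓ.cons hA) (hΓ.cons hA')
        (Subs.convHead hA (BConv.of_step hs).symm) hB keepsHeads_var
      rw [Tm.sub_id] at this
      exact .arr hA' (ihA hΓ hA hs) this
    | piR _ hs => exact .arr hA hSA (ihB (hΓ.cons hA) hB hs)
  | @all Γ A B b hA hSB ihB =>
    intro N' hΓ hd hs
    obtain ⟨s₁, s₂, s₃, hA₁, hB, hr, hc⟩ := hd.gen_pi
    rw [← hP.rule_eq hr, bconv_srt_inj hc] at hB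
    cases hs with
    | @piL _ A' _ hs =>
      have hA' := hA₁.step hΓ hs
      have := hSB.sub hP (hΓ.cons hA₁) (hΓ.cons hA')
        (Subs.convHead hA₁ (BConv.of_step hs).symm) hB keepsHeads_var
      rw [Tm.sub_id] at this
      exact .all (fun h => hA ((sort_iff hP hA').1 h ▸ hA₁)) this
    | piR _ hs => exact .all hA (ihB (hΓ.cons hA₁) hB hs)

theorem Shp.red (hP : GenNonDependent P) {σs : Shape} (hΓ : Wf P Γ) (h : Shp P i Γ N σs)
    (hd : Der P Γ N (.srt i)) (hr : Red N N') : Shp P i Γ N' σs := by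
  induction hr with
  | refl => exact h
  | tail hK hs ih => exact ih.step hP hΓ (hd.red hΓ hK) hs

omit [PartialOrder S] in
theorem Shp.unique {σs τs : Shape} (h : Shp P i Γ N σs) (h' : Shp P i Γ N τs) : σs = τs := by
  induction h generalizing τs with
  | srt s =>
    cases h' with
    | srt => rfl
    | spine hN => cases hN
  | spine hN =>
    cases h' with
    | srt => rfl
    | spine _ => rfl
    | arr => cases hN
    | all => cases hN
  | arr hA _ _ ihA ihB =>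
    cases h' with
    | spine hN => cases hN
    | arr _ h₁ h₂ => rw [ihA h₁, ihB h₂]
    | all hA' _ => exact absurd hA hA'
  | all hA _ ihB =>
    cases h' with
    | spine hN => cases hN
    | arr hA' _ _ => exact absurd hA' hA
    | all _ h₂ => rw [ihB h₂]

/-- `T` reduces to a form of shape `σs`. -/
def HasSh (P : Spec S) (i : S) (Γ : List (Tm S)) (T : Tm S) (σs : Shape) : Prop :=
  ∃ N, Red T N ∧ Shp P i Γ N σs

omit [PartialOrder S] in
open Classical in
/-- The shape of a type of sort `i`. -/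
noncomputable def sh (P : Spec S) (i : S) (Γ : List (Tm S)) (T : Tm S) : Shape :=
  if h : ∃ σs, HasSh P i Γ T σs then h.choose else .atom

theorem HasSh.unique (hP : GenNonDependent P) (hΓ : Wf P Γ) {σs τs : Shape}
    (h : HasSh P i Γ T σs) (h' : HasSh P i Γ T' τs) (hT : Der P Γ T (.srt i))
    (hT' : Der P Γ T' (.srt i)) (hc : BConv T T') : σs = τs := by
  obtain ⟨N, hr, hs⟩ := h
  obtain ⟨N', hr', hs'⟩ := h'
  obtain ⟨C, h₁, h₂⟩ := bconv_join ((hr.bconv.symm.trans hc).trans hr'.bconv)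
  exact (hs.red hP hΓ (hT.red hΓ hr) h₁).unique (hs'.red hP hΓ (hT'.red hΓ hr') h₂)

theorem sh_eq (hP : GenNonDependent P) (hΓ : Wf P Γ) {σs : Shape} (hT : Der P Γ T (.srt i))
    (h : HasSh P i Γ T σs) : sh P i Γ T = σs := by
  have he : ∃ σs, HasSh P i Γ T σs := ⟨σs, h⟩
  rw [sh, dif_pos he]
  exact he.choose_spec.unique hP hΓ h hT hT (.refl _)

theorem spine_of_normal :
    ∀ (N : Tm S) (A B : Tm S), Der P Γ N (.pi A B) → IsNormal N →
      Spine N ∨ ∃ X b, N = .lam X b := by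
  intro N
  induction N with
  | var n => intro A B _ _; exact .inl (.var n)
  | srt s =>
    intro A B h _
    obtain ⟨t, -, hc⟩ := h.gen_srt
    exact absurd hc not_bconv_srt_pi
  | pi X Y _ _ =>
    intro A B h _
    obtain ⟨s₁, s₂, s₃, -, -, -, hc⟩ := h.gen_pi
    exact absurd hc not_bconv_srt_pi
  | lam X b _ _ => intro A B _ _; exact .inr ⟨X, b, rfl⟩
  | app f a ihf _ =>
    intro A B h hn
    obtain ⟨A', B', hf, -, -⟩ := h.gen_app
    rcases ihf A' B' hf hn.app_parts.1 with hs | ⟨X, b, rfl⟩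
    · exact .inl (.app a hs)
    · exact absurd (Step.beta X b a) (hn _)

theorem shp_of_normal (hP : GenNonDependent P) :
    ∀ (N : Tm S) (Γ : List (Tm S)), Der P Γ N (.srt i) → IsNormal N →
      ∃ σs, Shp P i Γ N σs := by
  intro N
  induction N with
  | var n => intro Γ _ _; exact ⟨_, .spine (.var n)⟩
  | srt s => intro Γ _ _; exact ⟨_, .srt s⟩
  | pi A B ihA ihB =>
    intro Γ h hn
    obtain ⟨s₁, s₂, s₃, hA, hB, hr, hc⟩ := h.gen_pi
    rw [← hP.rule_eq hr, bconv_srt_inj hc] at hB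
    obtain ⟨b, hb⟩ := ihB _ hB hn.pi_parts.2
    by_cases hAi : Der P Γ A (.srt i)
    · obtain ⟨a, ha⟩ := ihA Γ hAi hn.pi_parts.1
      exact ⟨_, .arr hAi ha hb⟩
    · exact ⟨_, .all hAi hb⟩
  | lam X b _ _ =>
    intro Γ h _
    obtain ⟨s₁, B, s, -, -, -, hc⟩ := h.gen_lam
    exact absurd hc not_bconv_pi_srt
  | app f a _ _ =>
    intro Γ h hn
    obtain ⟨A', B', hf, -, -⟩ := h.gen_app
    rcases spine_of_normal f A' B' hf hn.app_parts.1 with hs | ⟨X, b, rfl⟩
    · exact ⟨_, .spine (.app a hs)⟩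
    · exact absurd (Step.beta X b a) (hn _)

theorem hasSh_sh (hP : GenNonDependent P) (hW : WeaklyNormalizing P) (hΓ : Wf P Γ)
    (hT : Der P Γ T (.srt i)) : HasSh P i Γ T (sh P i Γ T) := by
  obtain ⟨N, hr, hn⟩ := hW T ⟨Γ, .srt i, .inl (hT.toTy hΓ)⟩
  obtain ⟨σs, hs⟩ := shp_of_normal hP N Γ (hT.red hΓ hr) hn
  rw [sh_eq hP hΓ hT ⟨N, hr, hs⟩]
  exact ⟨N, hr, hs⟩

theorem sh_conv (hP : GenNonDependent P) (hW : WeaklyNormalizing P) (hΓ : Wf P Γ)
    (hT : Der P Γ T (.srt i)) (hT' : Der P Γ T' (.srt i)) (hc : BConv T T') :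
    sh P i Γ T = sh P i Γ T' :=
  (hasSh_sh hP hW hΓ hT).unique hP hΓ (hasSh_sh hP hW hΓ hT') hT hT' hc

theorem sh_atom (hP : GenNonDependent P) (hΓ : Wf P Γ) (hT : Der P Γ T (.srt i))
    (hc : BConv T (.srt s)) : sh P i Γ T = .atom :=
  sh_eq hP hΓ hT ⟨_, red_of_bconv_srt hc, .srt s⟩

theorem sh_sub (hP : GenNonDependent P) (hW : WeaklyNormalizing P) (hΓ : Wf P Γ)
    (hΔ : Wf P Δ) {σ : ℕ → Tm S} (hσ : Subs P σ Γ Δ) (hT : Der P Γ T (.srt i))
    (hk : KeepsHeads P i Γ σ) : sh P i Δ (T.sub σ) = sh P i Γ T := by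
  obtain ⟨N, hr, hs⟩ := hasSh_sh hP hW hΓ hT
  exact sh_eq hP hΔ (hT.subst hσ)
    ⟨_, hr.sub σ, hs.sub hP hΓ hΔ hσ (hT.red hΓ hr) hk⟩

theorem sh_weaken (hP : GenNonDependent P) (hW : WeaklyNormalizing P) (hΓ : Wf P Γ)
    (hA : Der P Γ A (.srt s)) (hT : Der P Γ T (.srt i)) :
    sh P i (A :: Γ) (T.ren Nat.succ) = sh P i Γ T := by
  rw [Tm.ren_eq_sub]
  refine sh_sub hP hW hΓ (hΓ.cons hA) (fun n C hl => ?_) hT fun n _ _ _ => ⟨_, rfl⟩
  rw [← Tm.ren_eq_sub]
  exact .var hl.succ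

open Classical in
theorem sh_pi (hP : GenNonDependent P) (hW : WeaklyNormalizing P) (hΓ : Wf P Γ)
    (hA : Der P Γ A (.srt s)) (hB : Der P (A :: Γ) B (.srt i))
    (hp : Der P Γ (.pi A B) (.srt i)) :
    sh P i Γ (.pi A B) = if s = i then Shape.arr (sh P i Γ A) (sh P i (A :: Γ) B)
      else Shape.all (sh P i (A :: Γ) B) := by
  obtain ⟨B', hrB, hsB⟩ := hasSh_sh hP hW (hΓ.cons hA) hB
  by_cases hs : s = i
  · subst hs
    obtain ⟨A', hrA, hsA⟩ := hasSh_sh hP hW hΓ hA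
    have hA' := hA.red hΓ hrA
    have := hsB.sub hP (hΓ.cons hA) (hΓ.cons hA') (Subs.convHead hA hrA.bconv.symm)
      (hB.red (hΓ.cons hA) hrB) keepsHeads_var
    rw [Tm.sub_id] at this
    rw [if_pos rfl]
    exact sh_eq hP hΓ hp ⟨_, Red.pi hrA hrB, .arr hA' hsA this⟩
  · rw [if_neg hs]
    exact sh_eq hP hΓ hp
      ⟨_, Red.pi .refl hrB, .all (fun h => hs ((sort_iff hP hA).1 h)) hsB⟩

/-- `G` gives the shapes of the declared types of sort `i`. -/
def Fits (P : Spec S) (i : S) (Γ : List (Tm S)) (G : ℕ → Shape) : Prop :=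
  ∀ n A, Lk Γ n A → Der P Γ A (.srt i) → G n = sh P i Γ A

theorem Fits.cons (hP : GenNonDependent P) (hW : WeaklyNormalizing P) (hΓ : Wf P Γ)
    (hA : Der P Γ A (.srt s)) {G : ℕ → Shape} (hG : Fits P i Γ G) :
    Fits P i (A :: Γ) (fun n => n.casesOn (sh P i (A :: Γ) (A.ren Nat.succ)) G) := by
  intro n C hl hC
  cases hl with
  | zero => rfl
  | @succ _ A' _ m hl =>
    obtain ⟨u, hu⟩ := hΓ.lookup hl
    have hi : u = i := bconv_srt_inj ((hu.weaken A).unique hP hC)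
    subst hi
    exact (hG _ _ hl hu).trans (sh_weaken hP hW hΓ hA hu).symm

theorem erase_uty (hP : GenNonDependent P) (hW : WeaklyNormalizing P)
    (hsimple : ∀ t, P.ax i t → ¬ P.rule t i i) :
    ∀ (M : Tm S) (Γ : List (Tm S)) (T : Tm S) (G : ℕ → Shape), Wf P Γ → Der P Γ M T →
      Der P Γ T (.srt i) → Fits P i Γ G → UTy G (erase P i Γ M) (sh P i Γ T) := by
  intro M
  induction M with
  | var n =>
    intro Γ T G hΓ h hT hG
    obtain ⟨A, hl, hc⟩ := h.gen_var
    obtain ⟨u, hu⟩ := hΓ.lookup hl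
    have hi := sort_unique hP hΓ hu hT hc
    subst hi
    rw [← sh_conv hP hW hΓ hu hT hc, ← hG n A hl hu]
    exact UTy.var n
  | srt s =>
    intro Γ T G hΓ h hT _
    obtain ⟨t, -, hc⟩ := h.gen_srt
    rw [sh_atom hP hΓ hT hc.symm]
    exact UTy.cst
  | pi A B ihA ihB =>
    intro Γ T G hΓ h hT hG
    obtain ⟨s₁, s₂, hA, hB, -, hax, -, -⟩ := Lv.pi_inv hP hΓ (i := i) ⟨T, h, hT⟩
    obtain ⟨u₁, u₂, u₃, -, -, -, hc⟩ := h.gen_pi
    rw [sh_atom hP hΓ hT hc.symm]
    have hsB : sh P i (A :: Γ) (.srt s₂) = .atom :=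
      sh_atom hP (hΓ.cons hA) (.axiom_ hax) (.refl _)
    have hB' := ihB _ _ _ (hΓ.cons hA) hB (.axiom_ hax) (hG.cons hP hW hΓ hA)
    rw [hsB] at hB'
    simp only [erase]
    refine UTy.upi ?_ hB'
    split_ifs with hc
    · have ha := (Lv.type_iff hP hΓ hA).1 hc
      have hA' := ihA Γ _ G hΓ hA (.axiom_ ha) hG
      rwa [sh_atom hP hΓ (Der.axiom_ ha) (.refl _)] at hA'
    · exact UTy.cst
  | lam A b _ ihb =>
    intro Γ T G hΓ h hT hG
    obtain ⟨s₁, B, u, hA, hb, hp, hc⟩ := h.gen_lam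
    have hu : u = i := sort_unique hP hΓ hp hT hc
    subst hu
    obtain ⟨t₁, t₂, t₃, -, hB, hr, hc'⟩ := hp.gen_pi
    rw [← hP.rule_eq hr, bconv_srt_inj hc'] at hB
    have hb' := ihb _ _ _ (hΓ.cons hA) hb hB (hG.cons hP hW hΓ hA)
    rw [← sh_conv hP hW hΓ hp hT hc, sh_pi hP hW hΓ hA hB hp]
    simp only [erase]
    by_cases hs : s₁ = u
    · subst hs
      rw [sh_weaken hP hW hΓ hA hA] at hb'
      rw [if_pos hA, if_pos rfl]
      exact UTy.lam hb'
    · rw [if_neg fun hd => hs ((sort_iff hP hA).1 hd), if_neg hs]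
      exact UTy.tlam hb'
  | app f a ihf iha =>
    intro Γ T G hΓ h hT hG
    obtain ⟨A, B, hf, ha, hc⟩ := h.gen_app
    obtain ⟨s₁, s₂, s₃, hA, hB, hr, hp⟩ := hf.pi_type hΓ
    have h3 := hP.rule_eq hr
    subst h3
    have h2 : s₃ = i := sort_unique hP hΓ (hB.inst ha) hT hc
    subst h2
    have hk : KeepsHeads P s₃ (A :: Γ) (sub0 a) := by
      intro n t ht hl
      cases n with
      | zero =>
        have e : s₁ = t := Lv.unique hP (hΓ.cons hA) ⟨_, .var .zero, hA.weaken A⟩ hl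
        exact absurd (e ▸ hr) (hsimple t ht)
      | succ n => exact ⟨n, rfl⟩
    have he : sh P s₃ Γ T = sh P s₃ (A :: Γ) B := by
      rw [← sh_conv hP hW hΓ (hB.inst ha) hT hc]
      exact sh_sub hP hW (hΓ.cons hA) hΓ (Subs.inst ha) hB hk
    have hf' := ihf Γ _ G hΓ hf hp hG
    rw [sh_pi hP hW hΓ hA hB hp] at hf'
    rw [he]
    simp only [erase]
    by_cases hs : s₁ = s₃
    · rw [if_pos hs] at hf'
      subst hs
      rw [if_pos ((lv_iff hP hΓ ha hA).2 rfl)]
      exact UTy.app hf' (iha Γ _ G hΓ ha hA hG)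
    · rw [if_neg hs] at hf'
      rw [if_neg fun hl => hs ((lv_iff hP hΓ ha hA).1 hl)]
      exact UTy.tapp hf'

/-- A level without a rule `(t, i, i)`, `t` its axiom, has strongly normal skeletons. -/
theorem sn_of_simple (hP : GenNonDependent P) (hW : WeaklyNormalizing P)
    (hsimple : ∀ t, P.ax i t → ¬ P.rule t i i) (hΓ : Wf P Γ) (h : Lv P Γ M i) :
    (erase P i Γ M).SN := by
  classical
  obtain ⟨T, hM, hT⟩ := h
  refine shapedSN (fun n => if h : ∃ A, Lk Γ n A then sh P i Γ h.choose else .atom) _ _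
    (erase_uty hP hW hsimple M Γ T _ hΓ hM hT fun n A hl _ => ?_)
  have he : ∃ A, Lk Γ n A := ⟨A, hl⟩
  rw [dif_pos he, he.choose_spec.unique hl]

end Vale.Agent.P340
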