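import Vale.Agent.P340.Syntax

/-!
# Pure type systems

Specifications, the seven typing rules, the two normalisation properties and the class of
generalised non-dependent specifications.
-/

namespace Vale.Agent.P340

/-- A specification: axioms and rules on a type of sorts. -/
structure Spec (S : Type) where
  ax : S → S → Prop
  rule : S → S → S → Prop

variable {S : Type}

/-- The seven typing rules; a context lists the type of the last declared variable first. -/
inductive Ty (P : Spec S) : List (Tm S) → Tm S → Tm S → Prop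
  | axiom_ {s t} : P.ax s t → Ty P [] (.srt s) (.srt t)
  | var {Γ A s} : Ty P Γ A (.srt s) → Ty P (A :: Γ) (.var 0) (A.ren Nat.succ)
  | weak {Γ M B A s} : Ty P Γ M B → Ty P Γ A (.srt s) →
      Ty P (A :: Γ) (M.ren Nat.succ) (B.ren Nat.succ)
  | prod {Γ A B s₁ s₂ s₃} : Ty P Γ A (.srt s₁) → Ty P (A :: Γ) B (.srt s₂) →
      P.rule s₁ s₂ s₃ → Ty P Γ (.pi A B) (.srt s₃)
  | abs {Γ A B M s} : Ty P (A :: Γ) M B → Ty P Γ (.pi A B) (.srt s) →
      Ty P Γ (.lam A M) (.pi A B)
  | appl {Γ M N A B} : Ty P Γ M (.pi A B) → Ty P Γ N A → Ty P Γ (.app M N) (B.inst N)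
  | conv {Γ M A B s} : Ty P Γ M A → Ty P Γ B (.srt s) → BConv A B → Ty P Γ M B

/-- An expression is legal if it is the subject or the type of a derivable judgment. -/
def Legal (P : Spec S) (M : Tm S) : Prop :=
  ∃ Γ B, Ty P Γ M B ∨ Ty P Γ B M

/-- Every legal expression has a normal form. -/
def WeaklyNormalizing (P : Spec S) : Prop :=
  ∀ M, Legal P M → ∃ N, Red M N ∧ IsNormal N

/-- No legal expression starts an infinite reduction. -/
def StronglyNormalizing (P : Spec S) : Prop :=
  ∀ M, Legal P M → StronglyNormal M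

/-- Functional generalised non-dependent specifications, with respect to a partial order on
sorts: axioms are functional and increasing; a product has the sort of its codomain, which is
at most that of its domain; axioms are monotone along rules, a sort without axiom counting as
above all others: if the domain sort has an axiom, so has the codomain sort, and a smaller one. -/
structure GenNonDependent [PartialOrder S] (P : Spec S) : Prop where
  ax_fun : ∀ {s t t'}, P.ax s t → P.ax s t' → t = t'
  ax_lt : ∀ {s t}, P.ax s t → s < t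
  rule_eq : ∀ {s₁ s₂ s₃}, P.rule s₁ s₂ s₃ → s₃ = s₂
  rule_le : ∀ {s₁ s₂ s₃}, P.rule s₁ s₂ s₃ → s₂ ≤ s₁
  rule_mono : ∀ {s₁ s₂ s₃ t₁}, P.rule s₁ s₂ s₃ → P.ax s₁ t₁ → ∃ t₂, P.ax s₂ t₂ ∧ t₂ ≤ t₁

end Vale.Agent.P340
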