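import Vale.Agent.P340.UOcc

/-!
# Weak head steps and standard reductions of skeletons

Every reduction is standard.
-/

namespace Vale.Agent.P340

open Relation

/-- A step at the head: at the root, or in the function part of an application. -/
inductive Hd : U → U → Prop
  | beta (b a) : Hd (.app (.lam b) a) (b.inst a)
  | tbeta (b) : Hd (.tapp (.tlam b)) (b.inst .cst)
  | appL {f f'} (a) : Hd f f' → Hd (.app f a) (.app f' a)
  | tapp {f f'} : Hd f f' → Hd (.tapp f) (.tapp f')

/-- Finitely many head steps. -/
abbrev HRed : U → U → Prop := Relation.ReflTransGen Hd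

variable {t t' v : U}

theorem Hd.ustep (h : Hd t t') : UStep t t' := by
  induction h with
  | beta b a => exact .beta b a
  | tbeta b => exact .tbeta b
  | appL a _ ih => exact .appL a ih
  | tapp _ ih => exact .tapp ih

theorem Hd.ren (h : Hd t t') : ∀ ξ : ℕ → ℕ, Hd (t.ren ξ) (t'.ren ξ) := by
  induction h with
  | beta b a => intro ξ; rw [U.ren_inst]; exact Hd.beta _ _
  | tbeta b => intro ξ; rw [U.ren_inst]; exact Hd.tbeta _
  | appL a _ ih => intro ξ; exact Hd.appL _ (ih ξ)
  | tapp _ ih => intro ξ; exact Hd.tapp (ih ξ)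

theorem Hd.sub (h : Hd t t') : ∀ σ : ℕ → U, Hd (t.sub σ) (t'.sub σ) := by
  induction h with
  | beta b a => intro σ; rw [U.sub_inst]; exact Hd.beta _ _
  | tbeta b => intro σ; rw [U.sub_inst]; exact Hd.tbeta _
  | appL a _ ih => intro σ; exact Hd.appL _ (ih σ)
  | tapp _ ih => intro σ; exact Hd.tapp (ih σ)

theorem HRed.ren (h : HRed t t') (ξ : ℕ → ℕ) : HRed (t.ren ξ) (t'.ren ξ) :=
  ReflTransGen.lift (U.ren ξ) (fun _ _ h => h.ren ξ) _ _ h

theorem HRed.sub (h : HRed t t') (σ : ℕ → U) : HRed (t.sub σ) (t'.sub σ) :=
  ReflTransGen.lift (U.sub σ) (fun _ _ h => h.sub σ) _ _ h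

theorem HRed.appL (h : HRed t t') (a : U) : HRed (.app t a) (.app t' a) :=
  ReflTransGen.lift (fun x => U.app x a) (fun _ _ h => h.appL a) _ _ h

theorem HRed.tapp (h : HRed t t') : HRed (.tapp t) (.tapp t') :=
  ReflTransGen.lift U.tapp (fun _ _ h => h.tapp) _ _ h

theorem HRed.ured (h : HRed t t') : URed t t' :=
  ReflTransGen.mono (fun _ _ h => h.ustep) _ _ h

/-- Standard reductions: head steps, then standard reductions of the parts. -/
inductive Standard : U → U → Prop
  | var {t : U} (n : ℕ) : HRed t (.var n) → Standard t (.var n)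
  | cst {t : U} : HRed t .cst → Standard t .cst
  | lam {t b b' : U} : HRed t (.lam b) → Standard b b' → Standard t (.lam b')
  | tlam {t b b' : U} : HRed t (.tlam b) → Standard b b' → Standard t (.tlam b')
  | app {t f a f' a' : U} : HRed t (.app f a) → Standard f f' → Standard a a' → Standard t (.app f' a')
  | tapp {t f f' : U} : HRed t (.tapp f) → Standard f f' → Standard t (.tapp f')
  | upi {t a b a' b' : U} : HRed t (.upi a b) → Standard a a' → Standard b b' → Standard t (.upi a' b')

theorem Standard.refl : ∀ t, Standard t t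
  | .var n => .var n .refl
  | .cst => .cst .refl
  | .lam b => .lam .refl (Standard.refl b)
  | .tlam b => .tlam .refl (Standard.refl b)
  | .app f a => .app .refl (Standard.refl f) (Standard.refl a)
  | .tapp f => .tapp .refl (Standard.refl f)
  | .upi a b => .upi .refl (Standard.refl a) (Standard.refl b)

theorem Standard.head (h : HRed t t') (h' : Standard t' v) : Standard t v := by
  cases h' with
  | var n g => exact .var n (h.trans g)
  | cst g => exact .cst (h.trans g)
  | lam g hb => exact .lam (h.trans g) hb
  | tlam g hb => exact .tlam (h.trans g) hb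
  | app g hf ha => exact .app (h.trans g) hf ha
  | tapp g hf => exact .tapp (h.trans g) hf
  | upi g ha hb => exact .upi (h.trans g) ha hb

theorem Standard.ren (h : Standard t v) : ∀ ξ : ℕ → ℕ, Standard (t.ren ξ) (v.ren ξ) := by
  induction h with
  | var n g => intro ξ; exact .var _ (g.ren ξ)
  | cst g => intro ξ; exact .cst (g.ren ξ)
  | lam g _ ih => intro ξ; exact .lam (g.ren ξ) (ih _)
  | tlam g _ ih => intro ξ; exact .tlam (g.ren ξ) (ih _)
  | app g _ _ ihf iha => intro ξ; exact .app (g.ren ξ) (ihf _) (iha _)
  | tapp g _ ih => intro ξ; exact .tapp (g.ren ξ) (ih _)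
  | upi g _ _ iha ihb => intro ξ; exact .upi (g.ren ξ) (iha _) (ihb _)

theorem Standard.up {σ τ : ℕ → U} (h : ∀ n, Standard (σ n) (τ n)) : ∀ n, Standard (U.up σ n) (U.up τ n)
  | 0 => Standard.refl _
  | n + 1 => (h n).ren _

theorem Standard.sub (h : Standard t v) :
    ∀ {σ τ : ℕ → U}, (∀ n, Standard (σ n) (τ n)) → Standard (t.sub σ) (v.sub τ) := by
  induction h with
  | var n g => intro σ τ hσ; exact Standard.head (g.sub σ) (hσ n)
  | cst g => intro σ τ _; exact .cst (g.sub σ)
  | lam g _ ih => intro σ τ hσ; exact .lam (g.sub σ) (ih (Standard.up hσ))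
  | tlam g _ ih => intro σ τ hσ; exact .tlam (g.sub σ) (ih (Standard.up hσ))
  | app g _ _ ihf iha => intro σ τ hσ; exact .app (g.sub σ) (ihf hσ) (iha hσ)
  | tapp g _ ih => intro σ τ hσ; exact .tapp (g.sub σ) (ih hσ)
  | upi g _ _ iha ihb => intro σ τ hσ; exact .upi (g.sub σ) (iha hσ) (ihb (Standard.up hσ))

theorem Standard.step (h : Standard t v) : ∀ {v'}, UStep v v' → Standard t v' := by
  induction h with
  | var n g => intro v' hs; cases hs
  | cst g => intro v' hs; cases hs
  | lam g _ ih => intro v' hs; cases hs with | lam hs => exact .lam g (ih hs)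
  | tlam g _ ih => intro v' hs; cases hs with | tlam hs => exact .tlam g (ih hs)
  | @app t f a f' a' g hf ha ihf iha =>
    intro v' hs
    cases hs with
    | beta b' _ =>
      cases hf with
      | @lam _ b _ gf hb =>
        refine Standard.head (g.trans ((gf.appL a).trans (.single (.beta b a)))) ?_
        exact hb.sub fun n => by cases n with
          | zero => exact ha
          | succ n => exact Standard.refl _
    | appL _ hs => exact .app g (ihf hs) ha
    | appR _ hs => exact .app g hf (iha hs)
  | @tapp t f f' g hf ihf =>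
    intro v' hs
    cases hs with
    | tbeta b' =>
      cases hf with
      | @tlam _ b _ gf hb =>
        refine Standard.head (g.trans (gf.tapp.trans (.single (.tbeta b)))) ?_
        exact hb.sub fun n => Standard.refl _
    | tapp hs => exact .tapp g (ihf hs)
  | upi g ha hb iha ihb =>
    intro v' hs
    cases hs with
    | upiL _ hs => exact .upi g (iha hs) hb
    | upiR _ hs => exact .upi g ha (ihb hs)

theorem Standard.of_red (h : URed t v) : Standard t v := by
  induction h with
  | refl => exact Standard.refl _
  | tail _ hs ih => exact ih.step hs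

end Vale.Agent.P340
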