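import Mathlib

/-!
# Expressions of pure type systems

De Bruijn terms over a set of sorts, with renaming, substitution and beta reduction.
-/

namespace Vale.Agent.P340

/-- Expressions: variables, sorts, products, abstractions with annotated domains, applications. -/
inductive Tm (S : Type) : Type
  | var (n : ℕ)
  | srt (s : S)
  | pi (A B : Tm S)
  | lam (A b : Tm S)
  | app (f a : Tm S)

variable {S : Type}

/-- A renaming pushed under one binder. -/
def upr (ξ : ℕ → ℕ) : ℕ → ℕ
  | 0 => 0
  | n + 1 => ξ n + 1

/-- Renaming of free variables. -/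
def Tm.ren (ξ : ℕ → ℕ) : Tm S → Tm S
  | .var n => .var (ξ n)
  | .srt s => .srt s
  | .pi A B => .pi (A.ren ξ) (B.ren (upr ξ))
  | .lam A b => .lam (A.ren ξ) (b.ren (upr ξ))
  | .app f a => .app (f.ren ξ) (a.ren ξ)

/-- A substitution pushed under one binder. -/
def ups (σ : ℕ → Tm S) : ℕ → Tm S
  | 0 => .var 0
  | n + 1 => (σ n).ren Nat.succ

/-- Simultaneous substitution. -/
def Tm.sub (σ : ℕ → Tm S) : Tm S → Tm S
  | .var n => σ n
  | .srt s => .srt s
  | .pi A B => .pi (A.sub σ) (B.sub (ups σ))
  | .lam A b => .lam (A.sub σ) (b.sub (ups σ))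
  | .app f a => .app (f.sub σ) (a.sub σ)

/-- The substitution of one term for the variable bound last. -/
def sub0 (a : Tm S) : ℕ → Tm S
  | 0 => a
  | n + 1 => .var n

/-- `b` with its last bound variable replaced by `a`. -/
def Tm.inst (b a : Tm S) : Tm S := b.sub (sub0 a)

/-- One beta step, in any position including the annotations. -/
inductive Step : Tm S → Tm S → Prop
  | beta (A b a) : Step (.app (.lam A b) a) (b.inst a)
  | piL {A A'} (B) : Step A A' → Step (.pi A B) (.pi A' B)
  | piR (A) {B B'} : Step B B' → Step (.pi A B) (.pi A B')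
  | lamL {A A'} (b) : Step A A' → Step (.lam A b) (.lam A' b)
  | lamR (A) {b b'} : Step b b' → Step (.lam A b) (.lam A b')
  | appL {f f'} (a) : Step f f' → Step (.app f a) (.app f' a)
  | appR (f) {a a'} : Step a a' → Step (.app f a) (.app f a')

/-- Finitely many beta steps. -/
abbrev Red : Tm S → Tm S → Prop := Relation.ReflTransGen Step

/-- Beta conversion. -/
abbrev BConv : Tm S → Tm S → Prop := Relation.EqvGen Step

/-- No beta step is possible. -/
def IsNormal (M : Tm S) : Prop := ∀ N, ¬ Step M N

/-- `M` starts no infinite sequence of beta steps. -/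
def StronglyNormal (M : Tm S) : Prop := Acc (fun N N' => Step N' N) M

end Vale.Agent.P340
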