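import Vale.Agent.P340.TypeTrans
import Vale.Agent.P340.UOcc
import Vale.Agent.P340.Cps

/-!
# The translation of expressions of level `i`

For `M : T` of level `i` and a continuation `k : ⟦T⟧ → O` there is an expression of type `O`
whose skeleton is a translation of the skeleton of `M` with that of `k`.
-/

namespace Vale.Agent.P340

variable {S : Type} [PartialOrder S] {P : Spec S} {i t₀ s : S} {Γ Δ : List (Tm S)}
  {M T A B f a k X : Tm S} {ξ : ℕ → ℕ} {κ : Konst S} {L : ℕ}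

/-- Variables below `L` stay, the others are constants. -/
def rho (L n : ℕ) : U := if n < L then .var n else .cst

theorem rho_lt {L n : ℕ} (h : n < L) : rho L n = .var n := if_pos h

theorem rho_ge {L n : ℕ} (h : L ≤ n) : rho L n = .cst := if_neg (not_lt.2 h)

theorem up_rho (L : ℕ) : U.up (rho L) = rho (L + 1) := by
  funext n
  cases n with
  | zero => simp [rho]
  | succ n => by_cases h : n < L <;> simp [rho, h]

omit [PartialOrder S] in
/-- The skeleton in the target, with the constants collapsed. -/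
noncomputable def er (P : Spec S) (i : S) (Δ : List (Tm S)) (L : ℕ) (M : Tm S) : U :=
  (erase P i Δ M).sub (rho L)

omit [PartialOrder S] in
theorem er_var_lt {n : ℕ} (h : n < L) : er P i Δ L (.var n) = .var n := rho_lt h

omit [PartialOrder S] in
theorem er_var_ge {n : ℕ} (h : L ≤ n) : er P i Δ L (.var n) = .cst := rho_ge h

omit [PartialOrder S] in
theorem er_app (h : Lv P Δ a i) : er P i Δ L (.app f a) = .app (er P i Δ L f) (er P i Δ L a) := by
  simp only [er, erase, if_pos h, U.sub_app]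

omit [PartialOrder S] in
theorem er_tapp (h : ¬ Lv P Δ a i) : er P i Δ L (.app f a) = .tapp (er P i Δ L f) := by
  simp only [er, erase, if_neg h, U.sub_tapp]

omit [PartialOrder S] in
theorem er_lam (h : Der P Δ X (.srt i)) :
    er P i Δ L (.lam X M) = .lam (er P i (X :: Δ) (L + 1) M) := by
  simp only [er, erase, if_pos h, U.sub_lam, up_rho]

omit [PartialOrder S] in
theorem er_tlam (h : ¬ Der P Δ X (.srt i)) :
    er P i Δ L (.lam X M) = .tlam (er P i (X :: Δ) (L + 1) M) := by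
  simp only [er, erase, if_neg h, U.sub_tlam, up_rho]

theorem er_ren_succ (hP : GenNonDependent P) (hΔ : Wf P Δ) (hX : Der P Δ X (.srt s))
    (h : Lv P Δ M i) :
    er P i (X :: Δ) (L + 1) (M.ren Nat.succ) = (er P i Δ L M).ren Nat.succ := by
  rw [er, er, erase_ren hP M Δ (X :: Δ) Nat.succ hΔ (hΔ.cons hX) (Rens.succ Δ X) h, ← up_rho,
    U.ren_succ_sub]

omit [PartialOrder S] in
theorem app_neg {o : ℕ} {v : Tm S} (hk : Der P Δ k (neg o X)) (hv : Der P Δ v X) :
    Der P Δ (.app k v) (.var o) :=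
  Der.appl hk hv

/-- The specification and the level at which the translation is used. -/
structure Level (P : Spec S) (i t : S) : Prop where
  spec : GenNonDependent P
  rule_ii : P.rule i i i
  ax_i : P.ax i t
  rule_ti : P.rule t i i

/-- The statement proved for every expression of level `i`. -/
def Trans (P : Spec S) (i : S) (Γ : List (Tm S)) (M : Tm S) : Prop :=
  ∀ (Δ : List (Tm S)) (ξ : ℕ → ℕ) (κ : Konst S) (L : ℕ), Env P i Γ Δ ξ κ L →
    ∀ T, Der P Γ M T → Der P Γ T (.srt i) →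
    ∀ k, Der P Δ k (neg κ.O (tr P i Γ ξ κ.O T)) → (er P i Δ L k).Keeping →
    ∃ t, Der P Δ t (.var κ.O) ∧
      Ev ((erase P i Γ M).ren ξ) (er P i Δ L k) (er P i Δ L t) ∧
      (er P i Δ L t).Keeping ∧ ∀ n, U.Occ n (er P i Δ L k) → U.Occ n (er P i Δ L t)

theorem Trans.thunk (h : Level P i t₀) (hM : Trans P i Γ M) (e : Env P i Γ Δ ξ κ L)
    (hMT : Der P Γ M T) (hT : Der P Γ T (.srt i)) :
    ∃ v, Der P Δ v (dneg κ.O (tr P i Γ ξ κ.O T)) ∧
      Th ((erase P i Γ M).ren ξ) (er P i Δ L v) ∧ (er P i Δ L v).Keeping := by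
  have hP := h.spec
  have hT' := tr_sort hP h.rule_ii e hT (Hi.of_le hP le_rfl)
  have hK := neg_typed h.rule_ii e hT'
  have hk : Der P (neg κ.O (tr P i Γ ξ κ.O T) :: Δ) (.var 0)
      (neg κ.up.O (tr P i Γ (Nat.succ ∘ ξ) κ.up.O T)) := by
    have := Der.var (P := P) (Lk.zero (Γ := Δ) (A := neg κ.O (tr P i Γ ξ κ.O T)))
    rwa [neg_ren, tr_comp] at this
  have h0 : er P i (neg κ.O (tr P i Γ ξ κ.O T) :: Δ) (L + 1) (.var 0) = .var 0 :=
    er_var_lt L.succ_pos
  obtain ⟨t, ht, hev, hkeep, hocc⟩ :=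
    hM _ _ _ _ (e.push hK) T hMT hT (.var 0) hk (by rw [h0]; trivial)
  refine ⟨.lam (neg κ.O (tr P i Γ ξ κ.O T)) t,
    .abs hK ht (dneg_typed h.rule_ii e hT'), ?_, ?_⟩
  · rw [er_lam hK]
    rw [h0] at hev
    exact Th.lam (by rwa [U.ren_ren])
  · rw [er_lam hK]
    exact ⟨hocc 0 (by rw [h0]; exact rfl), hkeep⟩

/-- A thunk of a type, run at the answer type. -/
theorem run_exists (h : Level P i t₀) (e : Env P i Γ Δ ξ κ L) (hs : P.ax s i) {u : U} {v : Tm S}
    (hv : Der P Δ v (dneg κ.O (.srt s))) (hth : Th u (er P i Δ L v))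
    (hkeep : (er P i Δ L v).Keeping) :
    ∃ R, Der P Δ R (.srt s) ∧ Lv P Δ R i ∧ Run u (er P i Δ L R) ∧
      (er P i Δ L R).Keeping := by
  have hss : Der P Δ (.srt s) (.srt i) := .axiom_ hs
  have hK := neg_typed h.rule_ii e hss
  have hN := dneg_typed h.rule_ii e hss
  have hv0 : Der P (.srt s :: Δ) (.var 0) (.srt s) := .var .zero
  have hbody : Der P (.srt s :: Δ) (.app (.var (κ.inj s + 1)) (.var 0)) (.var (κ.O + 1)) :=
    app_neg ((e.inj s hs).weaken _) hv0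
  have hlam : Der P Δ (.lam (.srt s) (.app (.var (κ.inj s + 1)) (.var 0))) (neg κ.O (.srt s)) :=
    .abs hss hbody hK
  have happ := app_neg hv hlam
  have hR : Der P Δ (.app (.var (κ.proj s))
      (.app v (.lam (.srt s) (.app (.var (κ.inj s + 1)) (.var 0))))) (.srt s) :=
    Der.appl (e.proj s hs) happ
  have l0 : Lv P (.srt s :: Δ) (.var 0) i := ⟨_, hv0, .axiom_ hs⟩
  have l1 : Lv P Δ (.lam (.srt s) (.app (.var (κ.inj s + 1)) (.var 0))) i := ⟨_, hlam, hK⟩
  have l2 : Lv P Δ (.app v (.lam (.srt s) (.app (.var (κ.inj s + 1)) (.var 0)))) i :=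
    ⟨_, happ, e.ans⟩
  have he : er P i Δ L (.app (.var (κ.proj s))
      (.app v (.lam (.srt s) (.app (.var (κ.inj s + 1)) (.var 0))))) =
      .app .cst (.app (er P i Δ L v) (.lam (.app .cst (.var 0)))) := by
    rw [er_app l2, er_app l1, er_lam hss, er_app l0, er_var_ge (e.leproj s hs),
      er_var_ge (Nat.succ_le_succ (e.leinj s hs)), er_var_lt L.succ_pos]
  refine ⟨_, hR, ⟨_, hR, hss⟩, ?_, ?_⟩
  · rw [he]; exact Run.mk hth
  · rw [he]; exact ⟨trivial, hkeep, Or.inr rfl, trivial, trivial⟩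

theorem trans_var (h : Level P i t₀) (n : ℕ) : Trans P i Γ (.var n) := by
  intro Δ ξ κ L e T hn hT k hk hkeep
  have hP := h.spec
  obtain ⟨A, hl, hc⟩ := hn.gen_var
  have hA : Der P Γ A (.srt i) := sort_of_conv hP e.src (.var hl) hT hc
  have hT' := tr_sort hP h.rule_ii e hT (Hi.of_le hP le_rfl)
  have hv := e.decl n A i hl hA le_rfl
  rw [wrap, if_pos hA] at hv
  have hv' : Der P Δ (.var (ξ n)) (dneg κ.O (tr P i Γ ξ κ.O T)) :=
    .conv hv (dneg_typed h.rule_ii e hT')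
      (BConv.pi (BConv.pi (tr_conv hP e.src (High.of_sort hP hA le_rfl)
        (High.of_sort hP hT le_rfl) hc ξ κ.O) (.refl _)) (.refl _))
  have hK := neg_typed h.rule_ii e hT'
  refine ⟨.app (.var (ξ n)) k, app_neg hv' hk, ?_, ?_, ?_⟩ <;>
    rw [er_app ⟨_, hk, hK⟩, er_var_lt (e.lt n A hl)]
  · exact Ev.var _ _
  · exact ⟨trivial, hkeep⟩
  · exact fun m hm => Or.inr hm

theorem trans_srt (h : Level P i t₀) (s₀ : S) : Trans P i Γ (.srt s₀) := by
  intro Δ ξ κ L e T hn hT k hk hkeep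
  have hP := h.spec
  obtain ⟨s', hs', hc⟩ := hn.gen_srt
  have hT' := tr_sort hP h.rule_ii e hT (Hi.of_le hP le_rfl)
  have hs'' : Der P Γ (.srt s') (.srt i) := hT.red e.src (red_of_bconv_srt hc.symm)
  have hv : Der P Δ (.srt s₀) (tr P i Γ ξ κ.O T) :=
    .conv (.axiom_ hs') hT' (tr_conv hP e.src (High.of_sort hP hs'' le_rfl)
      (High.of_sort hP hT le_rfl) hc ξ κ.O)
  have he : er P i Δ L (.app k (.srt s₀)) = .app (er P i Δ L k) .cst := er_app ⟨_, hv, hT'⟩
  refine ⟨.app k (.srt s₀), app_neg hk hv, ?_, ?_, ?_⟩ <;> rw [he]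
  · exact Ev.cst _
  · exact ⟨hkeep, trivial⟩
  · exact fun m hm => Or.inl hm

theorem trans_pi (h : Level P i t₀) (ihA : ∀ Γ, Wf P Γ → Lv P Γ A i → Trans P i Γ A)
    (ihB : ∀ Γ, Wf P Γ → Lv P Γ B i → Trans P i Γ B) : Trans P i Γ (.pi A B) := by
  intro Δ ξ κ L e T hn hT k hk hkeep
  have hP := h.spec
  classical
  obtain ⟨s₁, s₂, hA, hB, hr, hax, hBl, hmono⟩ := Lv.pi_inv hP e.src ⟨T, hn, hT⟩
  have hT' := tr_sort hP h.rule_ii e hT (Hi.of_le hP le_rfl)
  have hs₂ : Der P Γ (.srt s₂) (.srt i) := .axiom_ hax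
  have hcT : BConv (.srt s₂) T := (Der.prod hA hB hr).unique hP hn
  -- the domain
  obtain ⟨X, hX, hXw, hXk, hXev⟩ : ∃ X, Der P Δ X (.srt s₁) ∧
      (i ≤ s₁ → X = wrap P i Γ κ.O A (tr P i Γ ξ κ.O A)) ∧
      (if Lv P Δ X i then er P i Δ L X else U.cst).Keeping ∧
      ((∃ a', Run ((if Lv P Γ A i then erase P i Γ A else U.cst).ren ξ) a' ∧
          (if Lv P Δ X i then er P i Δ L X else U.cst) = a') ∨
        ((if Lv P Γ A i then erase P i Γ A else U.cst).ren ξ = .cst ∧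
          (if Lv P Δ X i then er P i Δ L X else U.cst) = .cst)) := by
    by_cases hL : Lv P Γ A i
    · have hax₁ : P.ax s₁ i := (Lv.type_iff hP e.src hA).1 hL
      obtain ⟨v, hv, hth, hvk⟩ := (ihA Γ e.src hL).thunk h e hA (.axiom_ hax₁)
      obtain ⟨R, hR, hRl, hrun, hRk⟩ := run_exists h e hax₁ hv hth hvk
      refine ⟨R, hR, fun hle => absurd (hP.ax_lt hax₁) hle.not_gt, ?_, Or.inl ?_⟩
      · rwa [if_pos hRl]
      · exact ⟨_, by rwa [if_pos hL], if_pos hRl⟩
    · have hHi : Hi P i s₁ := fun t ht =>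
        lt_of_le_of_ne (hmono t ((Lv.type_iff hP e.src hA).2 ht))
          fun e' => hL (e' ▸ (Lv.type_iff hP e.src hA).2 ht)
      have hX := wrap_typed hP h.rule_ii e hA (tr_sort hP h.rule_ii e hA hHi)
      have hXl : ¬ Lv P Δ (wrap P i Γ κ.O A (tr P i Γ ξ κ.O A)) i := fun hl =>
        lt_irrefl i (hHi i ((Lv.type_iff hP e.tgt hX).1 hl))
      refine ⟨_, hX, fun _ => rfl, ?_, Or.inr ⟨?_, ?_⟩⟩
      · rw [if_neg hXl]; trivial
      · rw [if_neg hL]; rfl
      · rw [if_neg hXl]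
  have e' := e.cons hP hA hX hXw
  obtain ⟨v, hv, hth, hvk⟩ := (ihB _ (e.src.cons hA) hBl).thunk h e' hB (.axiom_ hax)
  obtain ⟨R, hR, -, hrun, hRk⟩ := run_exists h e' hax hv hth hvk
  have hV : Der P Δ (.pi X R) (tr P i Γ ξ κ.O T) :=
    .conv (.prod hX hR hr) hT' (tr_conv hP e.src (High.of_sort hP hs₂ le_rfl)
      (High.of_sort hP hT le_rfl) hcT ξ κ.O)
  have hVe : er P i Δ L (.pi X R) =
      .upi (if Lv P Δ X i then er P i Δ L X else U.cst) (er P i (X :: Δ) (L + 1) R) := by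
    simp only [er, erase, U.sub_upi, up_rho]
    split_ifs <;> rfl
  refine ⟨.app k (.pi X R), app_neg hk hV, ?_, ?_, ?_⟩ <;>
    rw [er_app ⟨_, hV, hT'⟩, hVe]
  · rw [erase, U.ren_upi]
    rcases hXev with ⟨a', ha', he⟩ | ⟨h1, h2⟩
    · rw [he]; exact Ev.upi _ ha' hrun
    · rw [h1, h2]; exact Ev.upiC _ hrun
  · exact ⟨hkeep, hXk, hRk⟩
  · exact fun m hm => Or.inl hm

/-- The value of an abstraction of level `i`. -/
theorem trans_lam (h : Level P i t₀) (ihb : ∀ Γ, Wf P Γ → Lv P Γ B i → Trans P i Γ B) :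
    Trans P i Γ (.lam A B) := by
  intro Δ ξ κ L e T hn hT k hk hkeep
  have hP := h.spec
  obtain ⟨B', s₁, hA, hb, hB', hr, hbl⟩ := Lv.lam_inv hP e.src ⟨T, hn, hT⟩
  have hHi : Hi P i i := Hi.of_le hP le_rfl
  have hT' := tr_sort hP h.rule_ii e hT hHi
  have hpi : Der P Γ (.pi A B') (.srt i) := .prod hA hB' hr
  have hcT : BConv (.pi A B') T := (Der.abs hA hb hpi).unique hP hn
  have htA := tr_sort hP h.rule_ii e hA (Hi.of_le hP (hP.rule_le hr))
  have hX := wrap_typed hP h.rule_ii e hA htA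
  have e' := e.cons hP hA hX fun _ => rfl
  have htB := tr_sort hP h.rule_ii e' hB' hHi
  have hK := neg_typed h.rule_ii e' htB
  have e'' := e'.push hK
  set X := wrap P i Γ κ.O A (tr P i Γ ξ κ.O A) with hXdef
  set K := neg κ.up.O (tr P i (A :: Γ) (upr ξ) κ.up.O B') with hKdef
  have hk0 : Der P (K :: X :: Δ) (.var 0)
      (neg κ.up.up.O (tr P i (A :: Γ) (Nat.succ ∘ upr ξ) κ.up.up.O B')) := by
    have := Der.var (P := P) (Lk.zero (Γ := X :: Δ) (A := K))
    rwa [hKdef, neg_ren, tr_comp] at this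
  have h0 : er P i (K :: X :: Δ) (L + 1 + 1) (.var 0) = .var 0 := er_var_lt (Nat.succ_pos _)
  obtain ⟨t, ht, hev, htk, hto⟩ :=
    ihb _ (e.src.cons hA) hbl _ _ _ _ e'' B' hb hB' (.var 0) hk0 (by rw [h0]; trivial)
  rw [h0] at hev hto
  have hev' : Ev (((erase P i (A :: Γ) B).ren (upr ξ)).ren Nat.succ) (.var 0)
      (er P i (K :: X :: Δ) (L + 1 + 1) t) := by rwa [U.ren_ren]
  have hW : tr P i Γ ξ κ.O (.pi A B') = .pi X (dneg κ.up.O (tr P i (A :: Γ) (upr ξ) κ.up.O B')) := by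
    simp only [tr, wrap, if_pos hB', hXdef]; rfl
  have hpi' : Der P Δ (.pi X (dneg κ.up.O (tr P i (A :: Γ) (upr ξ) κ.up.O B'))) (.srt i) :=
    hW ▸ tr_sort hP h.rule_ii e hpi hHi
  have value : ∀ body, Der P (K :: X :: Δ) body (.var κ.up.up.O) →
      Der P Δ (.lam X (.lam K body)) (tr P i Γ ξ κ.O T) := fun body hbody =>
    .conv (.abs hX (Der.abs hK hbody (dneg_typed h.rule_ii e' htB)) hpi') hT'
      (hW ▸ tr_conv hP e.src (High.of_sort hP hpi le_rfl) (High.of_sort hP hT le_rfl) hcT ξ κ.O)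
  by_cases hs : s₁ = i
  · subst hs
    have hXeq : X = dneg κ.O (tr P s₁ Γ ξ κ.O A) := by rw [hXdef, wrap, if_pos hA]
    set W := ((tr P s₁ Γ ξ κ.O A).ren Nat.succ).ren Nat.succ with hWdef
    have hWt : Der P (K :: X :: Δ) W (.srt s₁) := (htA.weaken X).weaken K
    have hc : Der P (K :: X :: Δ) (.app (.var κ.up.up.c) W)
        (.pi (.var κ.up.up.O)
          (.pi (dneg (κ.up.up.O + 1) (W.ren Nat.succ)) (.var (κ.up.up.O + 2)))) := by
      have := Der.appl e''.keeper hWt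
      simpa [keeperTy, Tm.inst, dneg, neg, Function.comp_def] using this
    have hct : Der P (K :: X :: Δ) (.app (.app (.var κ.up.up.c) W) t)
        (neg κ.up.up.O (dneg κ.up.up.O W)) := by
      have := Der.appl hc ht
      simpa [Tm.inst, dneg, neg, Function.comp_def] using this
    have hx : Der P (K :: X :: Δ) (.var 1) (dneg κ.up.up.O W) := by
      have := Der.var (P := P) ((Lk.zero (Γ := Δ) (A := X)).succ (B := K))
      rw [hXeq, dneg_ren, dneg_ren] at this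
      rw [hXeq]
      exact this
    have hWl : ¬ Lv P (K :: X :: Δ) W s₁ := fun hl =>
      lt_irrefl s₁ (by
        have := (Lv.type_iff hP e''.tgt hWt).1 hl
        exact hP.ax_lt this)
    have hbody := app_neg hct hx
    have hV := value _ hbody
    have l1 : Lv P (K :: X :: Δ) t s₁ := ⟨_, ht, e''.ans⟩
    have l2 : Lv P (K :: X :: Δ) (.var 1) s₁ :=
      ⟨_, hx, dneg_typed h.rule_ii e'' hWt⟩
    have hVe : er P s₁ Δ L (.lam X (.lam K (.app (.app (.app (.var κ.up.up.c) W) t) (.var 1)))) =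
        .lam (.lam (.app (.app (.tapp .cst) (er P s₁ (K :: X :: Δ) (L + 1 + 1) t)) (.var 1))) := by
      rw [er_lam hX, er_lam hK, er_app l2, er_app l1, er_tapp hWl, er_var_ge e''.lec,
        er_var_lt (Nat.succ_lt_succ L.succ_pos)]
    refine ⟨.app k (.lam X (.lam K (.app (.app (.app (.var κ.up.up.c) W) t) (.var 1)))),
      app_neg hk hV, ?_, ?_, ?_⟩ <;> rw [er_app ⟨_, hV, hT'⟩, hVe]
    · rw [erase, if_pos hA, U.ren_lam]
      exact Ev.lam _ hev'
    · exact ⟨hkeep, Or.inr rfl, Or.inl (Or.inr (hto 0 rfl)), ⟨trivial, htk⟩, trivial⟩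
    · exact fun m hm => Or.inl hm
  · have hXl : ¬ Der P Δ X (.srt i) := fun hd => hs ((sort_iff hP hX).1 hd)
    have hV := value t ht
    have hVe : er P i Δ L (.lam X (.lam K t)) = .tlam (.lam (er P i (K :: X :: Δ) (L + 1 + 1) t)) := by
      rw [er_tlam hXl, er_lam hK]
    refine ⟨.app k (.lam X (.lam K t)), app_neg hk hV, ?_, ?_, ?_⟩ <;>
      rw [er_app ⟨_, hV, hT'⟩, hVe]
    · rw [erase, if_neg fun hd => hs ((sort_iff hP hA).1 hd), U.ren_tlam]
      exact Ev.tlam _ hev'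
    · exact ⟨hkeep, hto 0 rfl, htk⟩
    · exact fun m hm => Or.inl hm

theorem trans_app (h : Level P i t₀) (ihf : ∀ Γ, Wf P Γ → Lv P Γ f i → Trans P i Γ f)
    (iha : ∀ Γ, Wf P Γ → Lv P Γ a i → Trans P i Γ a) : Trans P i Γ (.app f a) := by
  intro Δ ξ κ L e T hn hT k hk hkeep
  have hP := h.spec
  obtain ⟨A, B, s₁, hf, ha, hA, hB, hr, hfl, hal⟩ := Lv.app_inv hP e.src ⟨T, hn, hT⟩
  have hHi : Hi P i i := Hi.of_le hP le_rfl
  have hpi : Der P Γ (.pi A B) (.srt i) := .prod hA hB hr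
  have hcT : BConv (B.inst a) T := (Der.appl hf ha).unique hP hn
  have hP₀ := tr_sort hP h.rule_ii e hpi hHi
  set Q := tr P i Γ ξ κ.O (.pi A B) with hQ
  have e1 := e.push hP₀
  have hT' := tr_sort hP h.rule_ii e hT hHi
  have hK := neg_typed h.rule_ii e hT'
  have hk' : Der P (Q :: Δ) (k.ren Nat.succ)
      (neg κ.up.O (tr P i Γ (Nat.succ ∘ ξ) κ.up.O T)) := by
    have := hk.weaken Q
    rwa [neg_ren, tr_comp] at this
  -- the translated argument
  obtain ⟨arg, harg, hargX, hcase⟩ : ∃ arg, Der P (Q :: Δ) arg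
      (wrap P i Γ κ.up.O A (tr P i Γ (Nat.succ ∘ ξ) κ.up.O A)) ∧
      (i < s₁ → arg = tr P i Γ (Nat.succ ∘ ξ) κ.up.O a) ∧
      ((s₁ = i ∧ Lv P (Q :: Δ) arg i ∧ (er P i (Q :: Δ) (L + 1) arg).Keeping ∧
          Th (((erase P i Γ a).ren ξ).ren Nat.succ) (er P i (Q :: Δ) (L + 1) arg)) ∨
        (s₁ ≠ i ∧ ¬ Lv P (Q :: Δ) arg i)) := by
    by_cases hs : s₁ = i
    · subst hs
      obtain ⟨v, hv, hth, hvk⟩ := (iha Γ e.src hal).thunk h e1 ha hA
      refine ⟨v, by rwa [wrap, if_pos hA], fun hlt => absurd hlt (lt_irrefl _),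
        Or.inl ⟨rfl, ⟨_, hv, dneg_typed h.rule_ii e1 (tr_sort hP h.rule_ii e1 hA hHi)⟩, hvk, ?_⟩⟩
      rwa [U.ren_ren]
    · have hlt : i < s₁ := lt_of_le_of_ne (hP.rule_le hr) (Ne.symm hs)
      have hv := tr_term hP h.rule_ii e1 ha hlt hA
      refine ⟨_, by rwa [wrap_of_ne hP hA hs], fun _ => rfl, Or.inr ⟨hs, fun hl => hs ?_⟩⟩
      exact (lv_iff hP e1.tgt hv (tr_sort hP h.rule_ii e1 hA (Hi.of_le hP hlt.le))).1 hl
  -- the function variable applied to the argument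
  have hBT : Der P Γ (B.inst a) (.srt i) := hB.inst ha
  have hBT' := tr_sort hP h.rule_ii e1 hBT hHi
  have hT'' := tr_sort hP h.rule_ii e1 hT hHi
  have hz : Der P (Q :: Δ) (.var 0) (.pi (wrap P i Γ κ.up.O A (tr P i Γ (Nat.succ ∘ ξ) κ.up.O A))
      (dneg (κ.up.O + 1) (tr P i (A :: Γ) (upr (Nat.succ ∘ ξ)) (κ.up.O + 1) B))) := by
    have := Der.var (P := P) (Lk.zero (Γ := Δ) (A := Q))
    have hW : Q = .pi (wrap P i Γ κ.O A (tr P i Γ ξ κ.O A))
        (dneg (κ.O + 1) (tr P i (A :: Γ) (upr ξ) (κ.O + 1) B)) := by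
      simp only [hQ, tr, wrap, if_pos hB]
    rw [hW] at this ⊢
    simp only [Tm.ren_pi, wrap_ren, tr_comp, dneg_ren, upr_comp, upr_succ] at this
    exact this
  have hres : Der P (Q :: Δ) (.app (.var 0) arg)
      (dneg κ.up.O (tr P i Γ (Nat.succ ∘ ξ) κ.up.O T)) := by
    have := Der.appl hz harg
    rw [Tm.inst, dneg_sub (o' := κ.up.O) _ (sub0_succ _ _)] at this
    rw [← Tm.inst, ← tr_inst hP e.src hA ha (High.of_sort hP hB le_rfl) _ _ hargX] at this
    exact .conv this (dneg_typed h.rule_ii e1 hT'') (BConv.pi (BConv.pi (tr_conv hP e.src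
      (High.of_sort hP hBT le_rfl) (High.of_sort hP hT le_rfl) hcT _ _) (.refl _)) (.refl _))
  have hbody := app_neg hres hk'
  have hk0 : Der P Δ (.lam Q (.app (.app (.var 0) arg) (k.ren Nat.succ))) (neg κ.O Q) :=
    .abs hP₀ hbody (neg_typed h.rule_ii e hP₀)
  have hkl : Lv P Δ k i := ⟨_, hk, hK⟩
  have hke : er P i (Q :: Δ) (L + 1) (k.ren Nat.succ) = (er P i Δ L k).ren Nat.succ :=
    er_ren_succ hP e.tgt hP₀ hkl
  have hkl' : Lv P (Q :: Δ) (k.ren Nat.succ) i := hkl.rename (Rens.succ Δ Q)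
  rcases hcase with ⟨hs, hargl, hargk, hth⟩ | ⟨hs, hargl⟩
  · have he : er P i Δ L (.lam Q (.app (.app (.var 0) arg) (k.ren Nat.succ))) =
        .lam (.app (.app (.var 0) (er P i (Q :: Δ) (L + 1) arg))
          ((er P i Δ L k).ren Nat.succ)) := by
      rw [er_lam hP₀, er_app hkl', er_app hargl, er_var_lt L.succ_pos, hke]
    obtain ⟨t, ht, hev, htk, hto⟩ := ihf Γ e.src hfl Δ ξ κ L e _ hf hpi _ hk0
      (by rw [he]; exact ⟨Or.inl (Or.inl rfl), ⟨trivial, hargk⟩, U.keeping_ren hkeep _⟩)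
    refine ⟨t, ht, ?_, htk, fun n hn => hto n ?_⟩
    · rw [erase, if_pos ((lv_iff hP e.src ha hA).2 hs), U.ren_app]
      rw [he] at hev
      exact Ev.app hth hev
    · rw [he]; exact Or.inr ((U.occ_succ _ _).2 hn)
  · have he : er P i Δ L (.lam Q (.app (.app (.var 0) arg) (k.ren Nat.succ))) =
        .lam (.app (.tapp (.var 0)) ((er P i Δ L k).ren Nat.succ)) := by
      rw [er_lam hP₀, er_app hkl', er_tapp hargl, er_var_lt L.succ_pos, hke]
    obtain ⟨t, ht, hev, htk, hto⟩ := ihf Γ e.src hfl Δ ξ κ L e _ hf hpi _ hk0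
      (by rw [he]; exact ⟨Or.inl rfl, trivial, U.keeping_ren hkeep _⟩)
    refine ⟨t, ht, ?_, htk, fun n hn => hto n ?_⟩
    · rw [erase, if_neg fun hl => hs ((lv_iff hP e.src ha hA).1 hl), U.ren_tapp]
      rw [he] at hev
      exact Ev.tapp hev
    · rw [he]; exact Or.inr ((U.occ_succ _ _).2 hn)

/-- Every expression of level `i` has a translation. -/
theorem trans_all (h : Level P i t₀) :
    ∀ (M : Tm S) (Γ : List (Tm S)), Wf P Γ → Lv P Γ M i → Trans P i Γ M := by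
  intro M
  induction M with
  | var n => intro Γ _ _; exact trans_var h n
  | srt s => intro Γ _ _; exact trans_srt h s
  | pi A B ihA ihB => intro Γ _ _; exact trans_pi h ihA ihB
  | lam A b _ ihb => intro Γ _ _; exact trans_lam h ihb
  | app f a ihf iha => intro Γ _ _; exact trans_app h ihf iha

end Vale.Agent.P340
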