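import Vale.Agent.P340.Erasure

/-!
# The translation of types

At one level `i` with rules `(i,i,i)` and `(t,i,i)`, where `t` is the axiom of `i`: types of
levels above `i` are translated homomorphically, except that components of sort `i` of products
receive a double negation with a variable `O : i` as answer type.
-/

namespace Vale.Agent.P340

variable {S : Type}

/-- The constants of the translation: answer type, keeper, injections and projections. -/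
structure Konst (S : Type) where
  O : ℕ
  c : ℕ
  inj : S → ℕ
  proj : S → ℕ

/-- The constants under one more binder. -/
def Konst.up (κ : Konst S) : Konst S :=
  ⟨κ.O + 1, κ.c + 1, fun s => κ.inj s + 1, fun s => κ.proj s + 1⟩

/-- `X → O`. -/
def neg (o : ℕ) (X : Tm S) : Tm S := .pi X (.var (o + 1))

/-- `(X → O) → O`. -/
def dneg (o : ℕ) (X : Tm S) : Tm S := neg o (neg o X)

/-- The type of the keeper: `Π W : i. O → ((W → O) → O) → O`. -/
def keeperTy (i : S) (o : ℕ) : Tm S :=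
  .pi (.srt i) (.pi (.var (o + 1)) (.pi (dneg (o + 2) (.var 1)) (.var (o + 3))))

@[simp] theorem neg_ren (o : ℕ) (X : Tm S) (ζ : ℕ → ℕ) :
    (neg o X).ren ζ = neg (ζ o) (X.ren ζ) := rfl

@[simp] theorem dneg_ren (o : ℕ) (X : Tm S) (ζ : ℕ → ℕ) :
    (dneg o X).ren ζ = dneg (ζ o) (X.ren ζ) := rfl

theorem neg_sub {o o' : ℕ} (X : Tm S) {τ : ℕ → Tm S} (h : τ o = .var o') :
    (neg o X).sub τ = neg o' (X.sub τ) := by
  simp [neg, h]

theorem dneg_sub {o o' : ℕ} (X : Tm S) {τ : ℕ → Tm S} (h : τ o = .var o') :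
    (dneg o X).sub τ = dneg o' (X.sub τ) := by
  rw [dneg, neg_sub _ h, neg_sub _ h]; rfl

variable [PartialOrder S] {P : Spec S} {i s j : S} {Γ Δ : List (Tm S)} {M M' T T' A A' B b : Tm S}

omit [PartialOrder S] in
open Classical in
/-- `X`, doubly negated if `A` is a type of sort `i`. -/
noncomputable def wrap (P : Spec S) (i : S) (Γ : List (Tm S)) (o : ℕ) (A X : Tm S) : Tm S :=
  if Der P Γ A (.srt i) then dneg o X else X

omit [PartialOrder S] in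
/-- The translation; `ξ` places the variables, `o` is the answer type. -/
noncomputable def tr (P : Spec S) (i : S) : List (Tm S) → (ℕ → ℕ) → ℕ → Tm S → Tm S
  | _, ξ, _, .var n => .var (ξ n)
  | _, _, _, .srt s => .srt s
  | Γ, ξ, o, .pi A B =>
      .pi (wrap P i Γ o A (tr P i Γ ξ o A))
        (wrap P i (A :: Γ) (o + 1) B (tr P i (A :: Γ) (upr ξ) (o + 1) B))
  | Γ, ξ, o, .lam A b => .lam (tr P i Γ ξ o A) (tr P i (A :: Γ) (upr ξ) (o + 1) b)
  | Γ, ξ, o, .app f a => .app (tr P i Γ ξ o f) (tr P i Γ ξ o a)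

omit [PartialOrder S] in
theorem wrap_ren (o : ℕ) (A X : Tm S) (ζ : ℕ → ℕ) :
    (wrap P i Γ o A X).ren ζ = wrap P i Γ (ζ o) A (X.ren ζ) := by
  unfold wrap; split_ifs <;> simp

theorem wrap_eq (hP : GenNonDependent P) (hA : Der P Γ A (.srt s)) (hA' : Der P Δ A' (.srt s))
    (o : ℕ) (X : Tm S) : wrap P i Δ o A' X = wrap P i Γ o A X := by
  unfold wrap
  by_cases h : s = i
  · rw [if_pos ((sort_iff hP hA).2 h), if_pos ((sort_iff hP hA').2 h)]
  · rw [if_neg fun e => h ((sort_iff hP hA).1 e), if_neg fun e => h ((sort_iff hP hA').1 e)]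

theorem wrap_of_ne (hP : GenNonDependent P) (hA : Der P Γ A (.srt s)) (h : s ≠ i) (o : ℕ)
    (X : Tm S) : wrap P i Γ o A X = X := by
  rw [wrap, if_neg fun e => h ((sort_iff hP hA).1 e)]

omit [PartialOrder S] in
theorem tr_comp (ζ : ℕ → ℕ) :
    ∀ (M : Tm S) (Γ : List (Tm S)) (ξ : ℕ → ℕ) (o : ℕ),
      (tr P i Γ ξ o M).ren ζ = tr P i Γ (ζ ∘ ξ) (ζ o) M := by
  intro M
  induction M generalizing ζ with
  | var n => intro Γ ξ o; rfl
  | srt s => intro Γ ξ o; rfl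
  | pi A B ihA ihB =>
    intro Γ ξ o
    simp only [tr, Tm.ren_pi, wrap_ren, ihA, ihB, upr_comp, upr_succ]
  | lam A b ihA ihb =>
    intro Γ ξ o
    simp only [tr, Tm.ren_lam, ihA, ihb, upr_comp, upr_succ]
  | app f a ihf iha =>
    intro Γ ξ o
    simp only [tr, Tm.ren_app, ihf, iha]

theorem tr_ren (hP : GenNonDependent P) :
    ∀ (M : Tm S) (Γ Δ : List (Tm S)) (r ξ : ℕ → ℕ) (o : ℕ), Wf P Γ → Wf P Δ → Rens r Γ Δ →
      (∃ T, Der P Γ M T) → tr P i Δ ξ o (M.ren r) = tr P i Γ (ξ ∘ r) o M := by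
  intro M
  induction M with
  | var n => intro Γ Δ r ξ o _ _ _ _; rfl
  | srt s => intro Γ Δ r ξ o _ _ _ _; rfl
  | pi A B ihA ihB =>
    intro Γ Δ r ξ o hΓ hΔ hr ⟨T, hT⟩
    obtain ⟨s₁, s₂, s₃, hA, hB, -, -⟩ := hT.gen_pi
    simp only [Tm.ren_pi, tr, ihA Γ Δ r ξ o hΓ hΔ hr ⟨_, hA⟩,
      ihB _ _ _ (upr ξ) (o + 1) (hΓ.cons hA) (hΔ.cons (hA.rename hr)) (hr.up A) ⟨_, hB⟩,
      wrap_eq hP hA (hA.rename hr), wrap_eq hP hB (hB.rename (hr.up A)), upr_comp]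
  | lam A b ihA ihb =>
    intro Γ Δ r ξ o hΓ hΔ hr ⟨T, hT⟩
    obtain ⟨s₁, B, s, hA, hb, -, -⟩ := hT.gen_lam
    simp only [Tm.ren_lam, tr, ihA Γ Δ r ξ o hΓ hΔ hr ⟨_, hA⟩,
      ihb _ _ _ (upr ξ) (o + 1) (hΓ.cons hA) (hΔ.cons (hA.rename hr)) (hr.up A) ⟨_, hb⟩,
      upr_comp]
  | app f a ihf iha =>
    intro Γ Δ r ξ o hΓ hΔ hr ⟨T, hT⟩
    obtain ⟨A, B, hf, ha, -⟩ := hT.gen_app
    simp only [Tm.ren_app, tr, ihf Γ Δ r ξ o hΓ hΔ hr ⟨_, hf⟩, iha Γ Δ r ξ o hΓ hΔ hr ⟨_, ha⟩]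

/-- The translation of a weakened expression. -/
theorem tr_weaken (hP : GenNonDependent P) (hΓ : Wf P Γ) (hA : Der P Γ A (.srt s))
    (hM : Der P Γ M T) (ξ : ℕ → ℕ) (o : ℕ) :
    tr P i (A :: Γ) (upr ξ) (o + 1) (M.ren Nat.succ) = (tr P i Γ ξ o M).ren Nat.succ := by
  rw [tr_ren hP M Γ (A :: Γ) Nat.succ (upr ξ) (o + 1) hΓ (hΓ.cons hA) (Rens.succ Γ A) ⟨T, hM⟩,
    tr_comp]
  rfl

/-- The expressions that are translated homomorphically. -/
def High (P : Spec S) (i : S) (Γ : List (Tm S)) (M : Tm S) : Prop :=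
  (∃ j, i < j ∧ Lv P Γ M j) ∨ ∃ s, Hi P i s ∧ Der P Γ M (.srt s)

theorem High.of_sort (hP : GenNonDependent P) (h : Der P Γ M (.srt s)) (hs : i ≤ s) :
    High P i Γ M :=
  .inr ⟨s, Hi.of_le hP hs, h⟩

theorem High.level (hP : GenNonDependent P) (hΓ : Wf P Γ) (h : High P i Γ M)
    (hsrt : ∀ s, M ≠ .srt s) (hpi : ∀ A B, M ≠ .pi A B) : ∃ j, i < j ∧ Lv P Γ M j := by
  rcases h with h | ⟨s, hs, hM⟩
  · exact h
  · rcases hM.level_or_head hΓ with ⟨j, hj⟩ | ⟨s', e⟩ | ⟨A, B, e⟩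
    · exact ⟨j, hs j ((Lv.type_iff hP hΓ hM).1 hj), hj⟩
    · exact absurd e (hsrt s')
    · exact absurd e (hpi A B)

theorem High.pi_inv (hP : GenNonDependent P) (hΓ : Wf P Γ) (h : High P i Γ (.pi A B)) :
    ∃ s₁ s₂, Der P Γ A (.srt s₁) ∧ Der P (A :: Γ) B (.srt s₂) ∧ P.rule s₁ s₂ s₂ ∧
      Hi P i s₁ ∧ Hi P i s₂ := by
  rcases h with ⟨j, hij, hj⟩ | ⟨s, hs, hM⟩
  · obtain ⟨s₁, s₂, hA, hB, hr, ha, -, -⟩ := hj.pi_inv hP hΓ
    have := Hi.of_ax hP ha hij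
    exact ⟨s₁, s₂, hA, hB, hr, this.dom hP hr, this⟩
  · obtain ⟨s₁, s₂, s₃, hA, hB, hr, hc⟩ := hM.gen_pi
    obtain rfl : s₃ = s := bconv_srt_inj hc
    obtain rfl : s₃ = s₂ := hP.rule_eq hr
    exact ⟨s₁, s₃, hA, hB, hr, hs.dom hP hr, hs⟩

theorem High.lam_inv (hP : GenNonDependent P) (hΓ : Wf P Γ) (h : High P i Γ (.lam A b)) :
    ∃ s₁, Der P Γ A (.srt s₁) ∧ High P i Γ A ∧ High P i (A :: Γ) b := by
  obtain ⟨j, hij, hj⟩ := h.level hP hΓ (by simp) (by simp)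
  obtain ⟨B, s₁, hA, -, -, hr, hb⟩ := hj.lam_inv hP hΓ
  exact ⟨s₁, hA, High.of_sort hP hA (hij.le.trans (hP.rule_le hr)), .inl ⟨j, hij, hb⟩⟩

theorem High.app_inv (hP : GenNonDependent P) (hΓ : Wf P Γ) {f a : Tm S}
    (h : High P i Γ (.app f a)) : High P i Γ f ∧ High P i Γ a := by
  obtain ⟨j, hij, hj⟩ := h.level hP hΓ (by simp) (by simp)
  obtain ⟨A, B, s₁, -, -, -, -, hr, hf, ha⟩ := hj.app_inv hP hΓ
  exact ⟨.inl ⟨j, hij, hf⟩, .inl ⟨s₁, hij.trans_le (hP.rule_le hr), ha⟩⟩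

theorem High.red (hΓ : Wf P Γ) (h : High P i Γ M) (hr : Red M M') : High P i Γ M' := by
  rcases h with ⟨j, hij, hj⟩ | ⟨s, hs, hM⟩
  · exact .inl ⟨j, hij, hj.red hΓ hr⟩
  · exact .inr ⟨s, hs, hM.red hΓ hr⟩

theorem tr_sub (hP : GenNonDependent P) :
    ∀ (M : Tm S) (Γ Δ : List (Tm S)) (σ : ℕ → Tm S) (ξ ξ' : ℕ → ℕ) (o o' : ℕ) (τ : ℕ → Tm S),
      Wf P Γ → Wf P Δ → Subs P σ Γ Δ → High P i Γ M → τ o = .var o' →
      (∀ n j, i < j → Lv P Γ (.var n) j → τ (ξ n) = tr P i Δ ξ' o' (σ n)) →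
      tr P i Δ ξ' o' (M.sub σ) = (tr P i Γ ξ o M).sub τ := by
  intro M
  induction M with
  | var n =>
    intro Γ Δ σ ξ ξ' o o' τ hΓ _ _ h _ hτ
    obtain ⟨j, hij, hj⟩ := h.level hP hΓ (by simp) (by simp)
    exact (hτ n j hij hj).symm
  | srt s => intro Γ Δ σ ξ ξ' o o' τ _ _ _ _ _ _; rfl
  | pi A B ihA ihB =>
    intro Γ Δ σ ξ ξ' o o' τ hΓ hΔ hσ h ho hτ
    obtain ⟨s₁, s₂, hA, hB, -, h1, h2⟩ := h.pi_inv hP hΓ
    have hA' := hA.subst hσ
    have ho' : ups τ (o + 1) = .var (o' + 1) := by simp [ho]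
    have eB := ihB _ _ _ (upr ξ) (upr ξ') (o + 1) (o' + 1) (ups τ) (hΓ.cons hA) (hΔ.cons hA')
      (hσ.up A) (.inr ⟨s₂, h2, hB⟩) ho' ?_
    · simp only [Tm.sub_pi, tr, eB, ihA Γ Δ σ ξ ξ' o o' τ hΓ hΔ hσ (.inr ⟨s₁, h1, hA⟩) ho hτ,
        wrap_eq hP hA hA', wrap_eq hP hB (hB.subst (hσ.up A))]
      congr 1 <;> unfold wrap <;> split_ifs <;> simp [dneg_sub _ ho, dneg_sub _ ho']
    · intro n j hij hn
      cases n with
      | zero => rfl
      | succ n =>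
        have hn' := lv_var_of_succ hP (hΓ.cons hA) hn
        obtain ⟨T, hT, -⟩ := hn'
        rw [upr_succ, ups_succ, hτ n j hij (lv_var_of_succ hP (hΓ.cons hA) hn), ups_succ,
          tr_weaken hP hΔ hA' (show Der P Δ (σ n) (T.sub σ) from hT.subst hσ)]
  | lam A b ihA ihb =>
    intro Γ Δ σ ξ ξ' o o' τ hΓ hΔ hσ h ho hτ
    obtain ⟨s₁, hA, h1, h2⟩ := h.lam_inv hP hΓ
    have hA' := hA.subst hσ
    have ho' : ups τ (o + 1) = .var (o' + 1) := by simp [ho]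
    have eb := ihb _ _ _ (upr ξ) (upr ξ') (o + 1) (o' + 1) (ups τ) (hΓ.cons hA) (hΔ.cons hA')
      (hσ.up A) h2 ho' ?_
    · simp only [Tm.sub_lam, tr, eb, ihA Γ Δ σ ξ ξ' o o' τ hΓ hΔ hσ h1 ho hτ]
    · intro n j hij hn
      cases n with
      | zero => rfl
      | succ n =>
        have hn' := lv_var_of_succ hP (hΓ.cons hA) hn
        obtain ⟨T, hT, -⟩ := hn'
        rw [upr_succ, ups_succ, hτ n j hij (lv_var_of_succ hP (hΓ.cons hA) hn), ups_succ,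
          tr_weaken hP hΔ hA' (show Der P Δ (σ n) (T.sub σ) from hT.subst hσ)]
  | app f a ihf iha =>
    intro Γ Δ σ ξ ξ' o o' τ hΓ hΔ hσ h ho hτ
    obtain ⟨h1, h2⟩ := h.app_inv hP hΓ
    simp only [Tm.sub_app, tr, ihf Γ Δ σ ξ ξ' o o' τ hΓ hΔ hσ h1 ho hτ,
      iha Γ Δ σ ξ ξ' o o' τ hΓ hΔ hσ h2 ho hτ]

/-- The translation commutes with instantiation; a variable of level at most `i` is free to be
replaced by anything. -/
theorem tr_inst (hP : GenNonDependent P) (hΓ : Wf P Γ) (hA : Der P Γ A (.srt s)) {a X : Tm S}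
    (ha : Der P Γ a A) (hb : High P i (A :: Γ) b) (ξ : ℕ → ℕ) (o : ℕ)
    (hX : i < s → X = tr P i Γ ξ o a) :
    tr P i Γ ξ o (b.inst a) = (tr P i (A :: Γ) (upr ξ) (o + 1) b).inst X := by
  refine tr_sub hP b (A :: Γ) Γ (sub0 a) (upr ξ) ξ (o + 1) o (sub0 X) (hΓ.cons hA) hΓ
    (Subs.inst ha) hb rfl ?_
  intro n j hij hn
  cases n with
  | zero =>
    have h0 : Lv P (A :: Γ) (.var 0) s := ⟨_, .var .zero, hA.weaken A⟩
    exact hX (Lv.unique hP (hΓ.cons hA) h0 hn ▸ hij)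
  | succ n => rfl

theorem tr_conv_ctx (hP : GenNonDependent P) (hΓ : Wf P Γ) (hA : Der P Γ A (.srt s))
    (hA' : Der P Γ A' (.srt s)) (hc : BConv A' A) (hb : High P i (A :: Γ) b) (ξ : ℕ → ℕ)
    (o : ℕ) : tr P i (A' :: Γ) ξ o b = tr P i (A :: Γ) ξ o b := by
  have h := tr_sub hP b (A :: Γ) (A' :: Γ) Tm.var ξ ξ o o Tm.var (hΓ.cons hA) (hΓ.cons hA')
    (Subs.convHead hA hc) hb rfl fun n j _ _ => rfl
  simpa using h

theorem tr_step (hP : GenNonDependent P) (hs : Step M M') :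
    ∀ (Γ : List (Tm S)) (ξ : ℕ → ℕ) (o : ℕ), Wf P Γ → High P i Γ M →
      Step (tr P i Γ ξ o M) (tr P i Γ ξ o M') := by
  induction hs with
  | beta A b a =>
    intro Γ ξ o hΓ h
    obtain ⟨j, hij, hj⟩ := h.level hP hΓ (by simp) (by simp)
    obtain ⟨h1, -⟩ := h.app_inv hP hΓ
    obtain ⟨s₁, hA, -, hb⟩ := h1.lam_inv hP hΓ
    obtain ⟨A₀, B₀, -, hf, ha, -, -, -, -, -⟩ := hj.app_inv hP hΓ
    obtain ⟨_, _, _, -, -, -, hc⟩ := hf.gen_lam
    have ha' : Der P Γ a A := .conv ha hA (bconv_pi_inj hc).1.symm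
    rw [tr_inst hP hΓ hA ha' hb ξ o fun _ => rfl]
    exact Step.beta _ _ _
  | @piL A A' B hs ih =>
    intro Γ ξ o hΓ h
    obtain ⟨s₁, s₂, hA, hB, -, h1, h2⟩ := h.pi_inv hP hΓ
    have hA' := hA.step hΓ hs
    have hc := (BConv.of_step hs).symm
    simp only [tr, tr_conv_ctx hP hΓ hA hA' hc (.inr ⟨s₂, h2, hB⟩),
      wrap_eq hP hB (hB.convHead hA hc), wrap_eq hP hA hA']
    refine Step.piL _ ?_
    unfold wrap
    have := ih Γ ξ o hΓ (.inr ⟨s₁, h1, hA⟩)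
    split_ifs
    · exact Step.piL _ (Step.piL _ this)
    · exact this
  | @piR A B B' hs ih =>
    intro Γ ξ o hΓ h
    obtain ⟨s₁, s₂, hA, hB, -, h1, h2⟩ := h.pi_inv hP hΓ
    simp only [tr, wrap_eq hP hB (hB.step (hΓ.cons hA) hs)]
    refine Step.piR _ ?_
    unfold wrap
    have := ih (A :: Γ) (upr ξ) (o + 1) (hΓ.cons hA) (.inr ⟨s₂, h2, hB⟩)
    split_ifs
    · exact Step.piL _ (Step.piL _ this)
    · exact this
  | @lamL A A' b hs ih =>
    intro Γ ξ o hΓ h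
    obtain ⟨s₁, hA, h1, h2⟩ := h.lam_inv hP hΓ
    simp only [tr, tr_conv_ctx hP hΓ hA (hA.step hΓ hs) (BConv.of_step hs).symm h2]
    exact Step.lamL _ (ih Γ ξ o hΓ h1)
  | @lamR A b b' hs ih =>
    intro Γ ξ o hΓ h
    obtain ⟨s₁, hA, h1, h2⟩ := h.lam_inv hP hΓ
    exact Step.lamR _ (ih _ _ _ (hΓ.cons hA) h2)
  | @appL f f' a hs ih =>
    intro Γ ξ o hΓ h
    exact Step.appL _ (ih Γ ξ o hΓ (h.app_inv hP hΓ).1)
  | @appR f a a' hs ih =>
    intro Γ ξ o hΓ h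
    exact Step.appR _ (ih Γ ξ o hΓ (h.app_inv hP hΓ).2)

theorem tr_red (hP : GenNonDependent P) (hΓ : Wf P Γ) (h : High P i Γ M) (hr : Red M M')
    (ξ : ℕ → ℕ) (o : ℕ) : Red (tr P i Γ ξ o M) (tr P i Γ ξ o M') := by
  induction hr with
  | refl => exact .refl
  | tail hK hs ih => exact ih.tail (tr_step hP hs Γ ξ o hΓ (h.red hΓ hK))

theorem tr_conv (hP : GenNonDependent P) (hΓ : Wf P Γ) (h : High P i Γ T) (h' : High P i Γ T')
    (hc : BConv T T') (ξ : ℕ → ℕ) (o : ℕ) : BConv (tr P i Γ ξ o T) (tr P i Γ ξ o T') := by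
  obtain ⟨C, h1, h2⟩ := bconv_join hc
  exact (tr_red hP hΓ h h1 ξ o).bconv.trans (tr_red hP hΓ h' h2 ξ o).bconv.symm

/-! ### Typing -/

/-- The type of a term convertible to a sorted one has that sort. -/
theorem sort_of_conv (hP : GenNonDependent P) (hΓ : Wf P Γ) (hM : Der P Γ M T)
    (hT' : Der P Γ T' (.srt j)) (hc : BConv T T') : Der P Γ T (.srt j) := by
  rcases hM.correct hΓ with ⟨s, rfl⟩ | ⟨s, hs⟩
  · exact hT'.red hΓ (red_of_bconv_srt hc.symm)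
  · exact sort_unique hP hΓ hs hT' hc ▸ hs

/-- A target context for `Γ`: translated declarations and the constants. -/
structure Env (P : Spec S) (i : S) (Γ Δ : List (Tm S)) (ξ : ℕ → ℕ) (κ : Konst S) (L : ℕ) :
    Prop where
  src : Wf P Γ
  tgt : Wf P Δ
  decl : ∀ n A j, Lk Γ n A → Der P Γ A (.srt j) → i ≤ j →
    Der P Δ (.var (ξ n)) (wrap P i Γ κ.O A (tr P i Γ ξ κ.O A))
  lt : ∀ n A, Lk Γ n A → ξ n < L
  ans : Der P Δ (.var κ.O) (.srt i)
  keeper : Der P Δ (.var κ.c) (keeperTy i κ.O)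
  inj : ∀ s, P.ax s i → Der P Δ (.var (κ.inj s)) (.pi (.srt s) (.var (κ.O + 1)))
  proj : ∀ s, P.ax s i → Der P Δ (.var (κ.proj s)) (.pi (.var κ.O) (.srt s))
  leO : L ≤ κ.O
  lec : L ≤ κ.c
  leinj : ∀ s, P.ax s i → L ≤ κ.inj s
  leproj : ∀ s, P.ax s i → L ≤ κ.proj s

variable {ξ : ℕ → ℕ} {κ : Konst S} {L : ℕ} {X Y : Tm S}

omit [PartialOrder S] in
theorem keeperTy_ren (i : S) (o : ℕ) (ζ : ℕ → ℕ) :
    (keeperTy i o).ren ζ = keeperTy i (ζ o) := rfl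

/-- A declaration in both contexts. -/
theorem Env.cons (hP : GenNonDependent P) (e : Env P i Γ Δ ξ κ L) (hA : Der P Γ A (.srt s))
    (hX : Der P Δ X (.srt j)) (hs : i ≤ s → X = wrap P i Γ κ.O A (tr P i Γ ξ κ.O A)) :
    Env P i (A :: Γ) (X :: Δ) (upr ξ) κ.up (L + 1) := by
  have key : ∀ {C : Tm S} {t : S}, Der P Γ C (.srt t) →
      wrap P i (A :: Γ) κ.up.O (C.ren Nat.succ)
        (tr P i (A :: Γ) (upr ξ) κ.up.O (C.ren Nat.succ)) =
      (wrap P i Γ κ.O C (tr P i Γ ξ κ.O C)).ren Nat.succ := by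
    intro C t hC
    rw [wrap_ren, wrap_eq hP hC (hC.weaken A)]
    exact congrArg _ (tr_weaken hP e.src hA hC ξ κ.O)
  refine ⟨e.src.cons hA, e.tgt.cons hX, ?_, ?_, e.ans.weaken X, e.keeper.weaken X,
    fun t ht => (e.inj t ht).weaken X, fun t ht => (e.proj t ht).weaken X,
    Nat.succ_le_succ e.leO, Nat.succ_le_succ e.lec,
    fun t ht => Nat.succ_le_succ (e.leinj t ht), fun t ht => Nat.succ_le_succ (e.leproj t ht)⟩
  · intro n C k hl hC hk
    cases hl with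
    | zero =>
      have hks : k = s := bconv_srt_inj (hC.unique hP (hA.weaken A))
      subst hks
      rw [key hA, ← hs hk]
      exact .var .zero
    | @succ _ C₀ _ m hl =>
      obtain ⟨t, ht⟩ := e.src.lookup hl
      have hkt : k = t := bconv_srt_inj (hC.unique hP (ht.weaken A))
      subst hkt
      rw [key ht]
      exact (e.decl m C₀ k hl ht hk).weaken X
  · intro n C hl
    cases hl with
    | zero => exact Nat.succ_pos L
    | succ hl => exact Nat.succ_lt_succ (e.lt _ _ hl)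

/-- A declaration in the target only. -/
theorem Env.push (e : Env P i Γ Δ ξ κ L) (hY : Der P Δ Y (.srt j)) :
    Env P i Γ (Y :: Δ) (Nat.succ ∘ ξ) κ.up (L + 1) := by
  refine ⟨e.src, e.tgt.cons hY, fun n C k hl hC hk => ?_,
    fun n C hl => Nat.succ_lt_succ (e.lt n C hl), e.ans.weaken Y, e.keeper.weaken Y,
    fun t ht => (e.inj t ht).weaken Y, fun t ht => (e.proj t ht).weaken Y,
    Nat.succ_le_succ e.leO, Nat.succ_le_succ e.lec,
    fun t ht => Nat.succ_le_succ (e.leinj t ht), fun t ht => Nat.succ_le_succ (e.leproj t ht)⟩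
  have := (e.decl n C k hl hC hk).weaken Y
  rwa [wrap_ren, tr_comp] at this

theorem neg_typed (hr : P.rule i i i) (e : Env P i Γ Δ ξ κ L) (hX : Der P Δ X (.srt i)) :
    Der P Δ (neg κ.O X) (.srt i) :=
  .prod hX (e.ans.weaken X) hr

theorem dneg_typed (hr : P.rule i i i) (e : Env P i Γ Δ ξ κ L) (hX : Der P Δ X (.srt i)) :
    Der P Δ (dneg κ.O X) (.srt i) :=
  neg_typed hr e (neg_typed hr e hX)

theorem wrap_typed (hP : GenNonDependent P) (hr : P.rule i i i) (e : Env P i Γ Δ ξ κ L)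
    (hA : Der P Γ A (.srt s)) (hX : Der P Δ X (.srt s)) :
    Der P Δ (wrap P i Γ κ.O A X) (.srt s) := by
  unfold wrap
  split_ifs with h
  · obtain rfl := (sort_iff hP hA).1 h
    exact dneg_typed hr e hX
  · exact hX

theorem tr_type (hP : GenNonDependent P) (hr : P.rule i i i) (h : Der P Γ M T) :
    ∀ (Δ : List (Tm S)) (ξ : ℕ → ℕ) (κ : Konst S) (L : ℕ), Env P i Γ Δ ξ κ L →
      (∀ j, i < j → Der P Γ T (.srt j) →
        Der P Δ (tr P i Γ ξ κ.O M) (tr P i Γ ξ κ.O T)) ∧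
      (∀ s, Hi P i s → T = .srt s → Der P Δ (tr P i Γ ξ κ.O M) (.srt s)) := by
  induction h with
  | @axiom_ Γ s t ha =>
    intro Δ ξ κ L _
    exact ⟨fun _ _ _ => .axiom_ ha, fun s' _ e => Tm.srt.inj e ▸ .axiom_ ha⟩
  | @var Γ n A hl =>
    intro Δ ξ κ L e
    refine ⟨fun j hij hA => ?_, fun s hs hAs => ?_⟩
    · have := e.decl n A j hl hA hij.le
      rwa [wrap_of_ne hP hA (ne_of_gt hij)] at this
    · subst hAs
      obtain ⟨j, hj⟩ := e.src.lookup hl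
      obtain ⟨t, ht, hc⟩ := hj.gen_srt
      obtain rfl : t = j := bconv_srt_inj hc
      have hij : i < t := hs t ht
      have := e.decl n _ t hl hj hij.le
      rwa [wrap_of_ne hP hj (ne_of_gt hij)] at this
  | @prod Γ A B s₁ s₂ s₃ hA hB hrule ihA ihB =>
    intro Δ ξ κ L e
    have key : Hi P i s₂ → Der P Δ (tr P i Γ ξ κ.O (.pi A B)) (.srt s₃) := by
      intro h2
      have hX := wrap_typed hP hr e hA ((ihA Δ ξ κ L e).2 s₁ (h2.dom hP hrule) rfl)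
      have e' := e.cons hP hA hX fun _ => rfl
      exact .prod hX (wrap_typed hP hr e' hB ((ihB _ _ _ _ e').2 s₂ h2 rfl)) hrule
    have h23 := hP.rule_eq hrule
    refine ⟨fun j hij hj => key ?_, fun s hs hs3 => ?_⟩
    · obtain ⟨t, ht, hc⟩ := hj.gen_srt
      exact h23 ▸ Hi.of_ax hP ht (bconv_srt_inj hc ▸ hij)
    · obtain rfl := Tm.srt.inj hs3
      exact key (h23 ▸ hs)
  | @abs Γ A B M s₁ s hA hM hp ihA ihM ihp =>
    intro Δ ξ κ L e
    refine ⟨fun j hij hj => ?_, fun _ _ h => by simp at h⟩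
    obtain ⟨u₁, u₂, u₃, hA', hB, hrule, hc⟩ := hp.gen_pi
    have hsj : s = j := bconv_srt_inj (hp.unique hP hj)
    have hu : u₂ = j := by rw [← hP.rule_eq hrule, bconv_srt_inj hc, hsj]
    have h1 : s₁ = u₁ := bconv_srt_inj (hA.unique hP hA')
    subst h1 hu hsj
    have hle : s ≤ s₁ := hP.rule_le hrule
    have hA1 : i < s₁ := hij.trans_le hle
    have hX := (ihA Δ ξ κ L e).2 s₁ (Hi.of_le hP hA1.le) rfl
    have e' := e.cons hP hA hX fun _ => (wrap_of_ne hP hA (ne_of_gt hA1) _ _).symm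
    have hPi := (ihp Δ ξ κ L e).2 s (Hi.of_le hP hij.le) rfl
    simp only [tr, wrap_of_ne hP hA (ne_of_gt hA1), wrap_of_ne hP hB (ne_of_gt hij)] at hPi ⊢
    exact .abs hX ((ihM _ _ _ _ e').1 s hij hB) hPi
  | @appl Γ f a A B hf ha ihf iha =>
    intro Δ ξ κ L e
    obtain ⟨s₁, s₂, s₃, hA, hB, hrule, hp⟩ := hf.pi_type e.src
    have p1 : ∀ j, i < j → Der P Γ (B.inst a) (.srt j) →
        Der P Δ (tr P i Γ ξ κ.O (.app f a)) (tr P i Γ ξ κ.O (B.inst a)) := by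
      intro j hij hj
      have hs : s₂ = j := (sort_iff hP (hB.inst ha)).1 hj
      subst hs
      have h23 := hP.rule_eq hrule
      subst h23
      have hA1 : i < s₁ := hij.trans_le (hP.rule_le hrule)
      have hf' := (ihf Δ ξ κ L e).1 _ hij hp
      have ha' := (iha Δ ξ κ L e).1 s₁ hA1 hA
      simp only [tr, wrap_of_ne hP hA (ne_of_gt hA1), wrap_of_ne hP hB (ne_of_gt hij)] at hf'
      rw [tr_inst hP e.src hA ha (High.of_sort hP hB hij.le) ξ κ.O fun _ => rfl]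
      exact .appl hf' ha'
    refine ⟨p1, fun s hs heq => ?_⟩
    have hd : Der P Γ (.srt s) (.srt s₂) := heq ▸ hB.inst ha
    obtain ⟨t, ht, hc⟩ := hd.gen_srt
    have := p1 t (hs t ht) (heq ▸ .axiom_ ht)
    rwa [heq] at this
  | @conv Γ M A B s hM hB hc ihM ihB =>
    intro Δ ξ κ L e
    have p1 : ∀ j, i < j → Der P Γ B (.srt j) →
        Der P Δ (tr P i Γ ξ κ.O M) (tr P i Γ ξ κ.O B) := by
      intro j hij hj
      have hA := sort_of_conv hP e.src hM hj hc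
      have hsj : s = j := (sort_iff hP hB).1 hj
      subst hsj
      exact .conv ((ihM Δ ξ κ L e).1 s hij hA) ((ihB Δ ξ κ L e).2 s (Hi.of_le hP hij.le) rfl)
        (tr_conv hP e.src (High.of_sort hP hA hij.le) (High.of_sort hP hB hij.le) hc ξ κ.O)
    refine ⟨p1, fun t ht heq => ?_⟩
    subst heq
    obtain ⟨u, hu, -⟩ := hB.gen_srt
    exact p1 u (ht u hu) (.axiom_ hu)

/-- Types of sort at least `i` translate to types of that sort. -/
theorem tr_sort (hP : GenNonDependent P) (hr : P.rule i i i) (e : Env P i Γ Δ ξ κ L)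
    (hA : Der P Γ A (.srt s)) (hs : Hi P i s) : Der P Δ (tr P i Γ ξ κ.O A) (.srt s) :=
  (tr_type hP hr hA Δ ξ κ L e).2 s hs rfl

/-- Expressions of a level above `i` translate to expressions of the translated type. -/
theorem tr_term (hP : GenNonDependent P) (hr : P.rule i i i) (e : Env P i Γ Δ ξ κ L)
    (hM : Der P Γ M T) (hij : i < j) (hT : Der P Γ T (.srt j)) :
    Der P Δ (tr P i Γ ξ κ.O M) (tr P i Γ ξ κ.O T) :=
  (tr_type hP hr hM Δ ξ κ L e).1 j hij hT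

end Vale.Agent.P340
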