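import Vale.Agent.P340.Spec
import Vale.Agent.P340.Confluence

/-!
# Typing lemmas

An equivalent judgment with look-up of variables, substitution, generation, correctness of
types and subject reduction.
-/

namespace Vale.Agent.P340

variable {S : Type} {P : Spec S}

/-- The type of a variable of a context. -/
inductive Lk : List (Tm S) → ℕ → Tm S → Prop
  | zero {Γ A} : Lk (A :: Γ) 0 (A.ren Nat.succ)
  | succ {Γ A B n} : Lk Γ n A → Lk (B :: Γ) (n + 1) (A.ren Nat.succ)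

/-- Typing with look-up; well-formedness of the context is a separate condition. -/
inductive Der (P : Spec S) : List (Tm S) → Tm S → Tm S → Prop
  | axiom_ {Γ s t} : P.ax s t → Der P Γ (.srt s) (.srt t)
  | var {Γ n A} : Lk Γ n A → Der P Γ (.var n) A
  | prod {Γ A B s₁ s₂ s₃} : Der P Γ A (.srt s₁) → Der P (A :: Γ) B (.srt s₂) →
      P.rule s₁ s₂ s₃ → Der P Γ (.pi A B) (.srt s₃)
  | abs {Γ A B M s₁ s} : Der P Γ A (.srt s₁) → Der P (A :: Γ) M B →
      Der P Γ (.pi A B) (.srt s) → Der P Γ (.lam A M) (.pi A B)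
  | appl {Γ M N A B} : Der P Γ M (.pi A B) → Der P Γ N A → Der P Γ (.app M N) (B.inst N)
  | conv {Γ M A B s} : Der P Γ M A → Der P Γ B (.srt s) → BConv A B → Der P Γ M B

/-- Every declared type has a sort. -/
inductive Wf (P : Spec S) : List (Tm S) → Prop
  | nil : Wf P []
  | cons {Γ A s} : Wf P Γ → Der P Γ A (.srt s) → Wf P (A :: Γ)

/-- A renaming between contexts. -/
def Rens (ξ : ℕ → ℕ) (Γ Δ : List (Tm S)) : Prop :=
  ∀ n A, Lk Γ n A → Lk Δ (ξ n) (A.ren ξ)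

theorem Rens.up {ξ : ℕ → ℕ} {Γ Δ : List (Tm S)} (h : Rens ξ Γ Δ) (A : Tm S) :
    Rens (upr ξ) (A :: Γ) (A.ren ξ :: Δ) := by
  intro n B hB
  cases hB with
  | zero => simpa [upr, Tm.ren_ren, Function.comp_def] using (Lk.zero (Γ := Δ) (A := A.ren ξ))
  | succ h' => simpa [upr, Tm.ren_ren, Function.comp_def] using (h _ _ h').succ (B := A.ren ξ)

theorem Rens.succ (Γ : List (Tm S)) (A : Tm S) : Rens Nat.succ Γ (A :: Γ) :=
  fun _ _ h => h.succ

theorem Der.rename {Γ Δ : List (Tm S)} {M T : Tm S} {ξ : ℕ → ℕ} (h : Der P Γ M T)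
    (hξ : Rens ξ Γ Δ) : Der P Δ (M.ren ξ) (T.ren ξ) := by
  induction h generalizing Δ ξ with
  | axiom_ h => exact .axiom_ h
  | var h => exact .var (hξ _ _ h)
  | prod _ _ hr ihA ihB => exact .prod (ihA hξ) (ihB (hξ.up _)) hr
  | abs _ _ _ ihA ihM ihP => exact .abs (ihA hξ) (ihM (hξ.up _)) (ihP hξ)
  | appl _ _ ihM ihN =>
    rw [Tm.ren_inst]
    exact .appl (ihM hξ) (ihN hξ)
  | conv _ _ hc ihM ihB => exact .conv (ihM hξ) (ihB hξ) (hc.ren ξ)

theorem Der.weaken {Γ : List (Tm S)} {M T : Tm S} (h : Der P Γ M T) (A : Tm S) :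
    Der P (A :: Γ) (M.ren Nat.succ) (T.ren Nat.succ) :=
  h.rename (Rens.succ Γ A)

/-- A substitution between contexts. -/
def Subs (P : Spec S) (σ : ℕ → Tm S) (Γ Δ : List (Tm S)) : Prop :=
  ∀ n A, Lk Γ n A → Der P Δ (σ n) (A.sub σ)

theorem Subs.up {σ : ℕ → Tm S} {Γ Δ : List (Tm S)} (h : Subs P σ Γ Δ) (A : Tm S) :
    Subs P (ups σ) (A :: Γ) (A.sub σ :: Δ) := by
  intro n B hB
  cases hB with
  | zero => simpa [ups, Tm.sub_ren, Tm.ren_sub, Function.comp_def] using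
      (Der.var (P := P) (Lk.zero (Γ := Δ) (A := A.sub σ)))
  | succ h' => simpa [ups, Tm.sub_ren, Tm.ren_sub, Function.comp_def] using
      (h _ _ h').weaken (A.sub σ)

theorem Der.subst {Γ Δ : List (Tm S)} {M T : Tm S} {σ : ℕ → Tm S} (h : Der P Γ M T)
    (hσ : Subs P σ Γ Δ) : Der P Δ (M.sub σ) (T.sub σ) := by
  induction h generalizing Δ σ with
  | axiom_ h => exact .axiom_ h
  | var h => exact hσ _ _ h
  | prod _ _ hr ihA ihB => exact .prod (ihA hσ) (ihB (hσ.up _)) hr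
  | abs _ _ _ ihA ihM ihP => exact .abs (ihA hσ) (ihM (hσ.up _)) (ihP hσ)
  | appl _ _ ihM ihN =>
    rw [Tm.sub_inst]
    exact .appl (ihM hσ) (ihN hσ)
  | conv _ _ hc ihM ihB => exact .conv (ihM hσ) (ihB hσ) (hc.sub σ)

theorem Subs.id (Γ : List (Tm S)) : Subs P Tm.var Γ Γ := by
  intro n A h; simpa [Tm.sub_id] using Der.var h

theorem Subs.inst {Γ : List (Tm S)} {A N : Tm S} (h : Der P Γ N A) :
    Subs P (sub0 N) (A :: Γ) Γ := by
  intro n B hB
  cases hB with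
  | zero => simpa [sub0, Tm.sub_ren, Function.comp_def, Tm.sub_id] using h
  | succ h' => simpa [sub0, Tm.sub_ren, Function.comp_def, Tm.sub_id] using Der.var h'

theorem Der.inst {Γ : List (Tm S)} {A N M T : Tm S} (h : Der P (A :: Γ) M T)
    (hN : Der P Γ N A) : Der P Γ (M.inst N) (T.inst N) :=
  h.subst (Subs.inst hN)

/-- Replacing the last declared type by a convertible one. -/
theorem Subs.convHead {Γ : List (Tm S)} {A A' : Tm S} {s : S} (hA : Der P Γ A (.srt s))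
    (hc : BConv A' A) : Subs P Tm.var (A :: Γ) (A' :: Γ) := by
  intro n B hB
  rw [Tm.sub_id]
  cases hB with
  | zero => exact .conv (.var .zero) (hA.weaken A') (hc.ren _)
  | succ h' => exact .var h'.succ

theorem Der.convHead {Γ : List (Tm S)} {A A' M T : Tm S} {s : S} (h : Der P (A :: Γ) M T)
    (hA : Der P Γ A (.srt s)) (hc : BConv A' A) : Der P (A' :: Γ) M T := by
  simpa [Tm.sub_id] using h.subst (Subs.convHead hA hc)

/-! ### The given rules and the judgment with look-up agree -/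

theorem Ty.toDer {Γ : List (Tm S)} {M T : Tm S} (h : Ty P Γ M T) :
    Wf P Γ ∧ Der P Γ M T := by
  induction h with
  | axiom_ h => exact ⟨.nil, .axiom_ h⟩
  | var _ ih => exact ⟨ih.1.cons ih.2, .var .zero⟩
  | weak _ _ ihM ihA => exact ⟨ihA.1.cons ihA.2, ihM.2.weaken _⟩
  | prod _ _ hr ihA ihB => exact ⟨ihA.1, .prod ihA.2 ihB.2 hr⟩
  | abs _ _ ihM ihP =>
    obtain ⟨hw, hM⟩ := ihM
    cases hw with
    | cons hw hA => exact ⟨hw, .abs hA hM ihP.2⟩
  | appl _ _ ihM ihN => exact ⟨ihM.1, .appl ihM.2 ihN.2⟩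
  | conv _ _ hc ihM ihB => exact ⟨ihM.1, .conv ihM.2 ihB.2 hc⟩

/-- Every declared type has a sort in the given rules. -/
inductive TyCtx (P : Spec S) : List (Tm S) → Prop
  | nil : TyCtx P []
  | cons {Γ A s} : TyCtx P Γ → Ty P Γ A (.srt s) → TyCtx P (A :: Γ)

theorem TyCtx.axiom_ {Γ : List (Tm S)} (h : TyCtx P Γ) {s t : S} (ha : P.ax s t) :
    Ty P Γ (.srt s) (.srt t) := by
  induction h with
  | nil => exact .axiom_ ha
  | cons _ hA ih => exact Ty.weak ih hA

theorem TyCtx.lookup {Γ : List (Tm S)} (h : TyCtx P Γ) {n : ℕ} {A : Tm S} (hl : Lk Γ n A) :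
    Ty P Γ (.var n) A := by
  induction hl with
  | zero => cases h with | cons _ hA => exact .var hA
  | succ _ ih => cases h with | cons hΓ hA => exact Ty.weak (ih hΓ) hA

theorem Der.toTyCtx {Γ : List (Tm S)} {M T : Tm S} (h : Der P Γ M T) (hΓ : TyCtx P Γ) :
    Ty P Γ M T := by
  induction h with
  | axiom_ h => exact hΓ.axiom_ h
  | var h => exact hΓ.lookup h
  | prod _ _ hr ihA ihB => exact .prod (ihA hΓ) (ihB (hΓ.cons (ihA hΓ))) hr
  | abs _ _ _ ihA ihM ihP => exact .abs (ihM (hΓ.cons (ihA hΓ))) (ihP hΓ)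
  | appl _ _ ihM ihN => exact .appl (ihM hΓ) (ihN hΓ)
  | conv _ _ hc ihM ihB => exact .conv (ihM hΓ) (ihB hΓ) hc

theorem Wf.toTyCtx {Γ : List (Tm S)} (h : Wf P Γ) : TyCtx P Γ := by
  induction h with
  | nil => exact .nil
  | cons _ hA ih => exact ih.cons (hA.toTyCtx ih)

theorem Der.toTy {Γ : List (Tm S)} {M T : Tm S} (h : Der P Γ M T) (hΓ : Wf P Γ) :
    Ty P Γ M T :=
  h.toTyCtx hΓ.toTyCtx

/-! ### Generation -/

theorem Der.gen_srt {Γ : List (Tm S)} {s : S} {T : Tm S} (h : Der P Γ (.srt s) T) :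
    ∃ t, P.ax s t ∧ BConv (.srt t) T := by
  generalize hM : Tm.srt s = M at h
  induction h with
  | axiom_ h => cases hM; exact ⟨_, h, .refl _⟩
  | conv _ _ hc ih _ => obtain ⟨t, h1, h2⟩ := ih hM; exact ⟨t, h1, h2.trans hc⟩
  | var _ => simp at hM
  | prod => simp at hM
  | abs => simp at hM
  | appl => simp at hM

theorem Der.gen_var {Γ : List (Tm S)} {n : ℕ} {T : Tm S} (h : Der P Γ (.var n) T) :
    ∃ A, Lk Γ n A ∧ BConv A T := by
  generalize hM : Tm.var n = M at h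
  induction h with
  | var h => cases hM; exact ⟨_, h, .refl _⟩
  | conv _ _ hc ih _ => obtain ⟨t, h1, h2⟩ := ih hM; exact ⟨t, h1, h2.trans hc⟩
  | axiom_ => simp at hM
  | prod => simp at hM
  | abs => simp at hM
  | appl => simp at hM

theorem Der.gen_pi {Γ : List (Tm S)} {A B T : Tm S} (h : Der P Γ (.pi A B) T) :
    ∃ s₁ s₂ s₃, Der P Γ A (.srt s₁) ∧ Der P (A :: Γ) B (.srt s₂) ∧ P.rule s₁ s₂ s₃ ∧
      BConv (.srt s₃) T := by
  generalize hM : Tm.pi A B = M at h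
  induction h with
  | prod hA hB hr => cases hM; exact ⟨_, _, _, hA, hB, hr, .refl _⟩
  | conv _ _ hc ih _ =>
    obtain ⟨a, b, c, h1, h2, h3, h4⟩ := ih hM
    exact ⟨a, b, c, h1, h2, h3, h4.trans hc⟩
  | axiom_ => simp at hM
  | var => simp at hM
  | abs => simp at hM
  | appl => simp at hM

theorem Der.gen_lam {Γ : List (Tm S)} {A b T : Tm S} (h : Der P Γ (.lam A b) T) :
    ∃ s₁ B s, Der P Γ A (.srt s₁) ∧ Der P (A :: Γ) b B ∧ Der P Γ (.pi A B) (.srt s) ∧
      BConv (.pi A B) T := by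
  generalize hM : Tm.lam A b = M at h
  induction h with
  | abs hA hb hp => cases hM; exact ⟨_, _, _, hA, hb, hp, .refl _⟩
  | conv _ _ hc ih _ =>
    obtain ⟨a, b', c, h1, h2, h3, h4⟩ := ih hM
    exact ⟨a, b', c, h1, h2, h3, h4.trans hc⟩
  | axiom_ => simp at hM
  | var => simp at hM
  | prod => simp at hM
  | appl => simp at hM

theorem Der.gen_app {Γ : List (Tm S)} {f a T : Tm S} (h : Der P Γ (.app f a) T) :
    ∃ A B, Der P Γ f (.pi A B) ∧ Der P Γ a A ∧ BConv (B.inst a) T := by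
  generalize hM : Tm.app f a = M at h
  induction h with
  | appl hf ha => cases hM; exact ⟨_, _, hf, ha, .refl _⟩
  | conv _ _ hc ih _ =>
    obtain ⟨a, b', h1, h2, h4⟩ := ih hM
    exact ⟨a, b', h1, h2, h4.trans hc⟩
  | axiom_ => simp at hM
  | var => simp at hM
  | prod => simp at hM
  | abs => simp at hM

theorem Wf.lookup {Γ : List (Tm S)} (h : Wf P Γ) {n : ℕ} {A : Tm S} (hl : Lk Γ n A) :
    ∃ s, Der P Γ A (.srt s) := by
  induction hl with
  | zero => cases h with | cons _ hA => exact ⟨_, hA.weaken _⟩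
  | succ _ ih =>
    cases h with
    | cons hΓ hA => obtain ⟨s, hs⟩ := ih hΓ; exact ⟨s, hs.weaken _⟩

/-- Correctness of types. -/
theorem Der.correct {Γ : List (Tm S)} {M T : Tm S} (h : Der P Γ M T) (hΓ : Wf P Γ) :
    (∃ s, T = .srt s) ∨ ∃ s, Der P Γ T (.srt s) := by
  induction h with
  | axiom_ => exact .inl ⟨_, rfl⟩
  | var h => exact .inr (hΓ.lookup h)
  | prod => exact .inl ⟨_, rfl⟩
  | abs _ _ hp => exact .inr ⟨_, hp⟩
  | appl _ hN ihM _ =>
    rcases ihM hΓ with ⟨s, hs⟩ | ⟨s, hs⟩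
    · simp at hs
    · obtain ⟨s₁, s₂, s₃, _, hB, _, _⟩ := hs.gen_pi
      exact .inr ⟨s₂, hB.inst hN⟩
  | conv _ hB => exact .inr ⟨_, hB⟩

/-- The type of a function is a product with sorted components. -/
theorem Der.pi_type {Γ : List (Tm S)} {f A B : Tm S} (h : Der P Γ f (.pi A B))
    (hΓ : Wf P Γ) : ∃ s₁ s₂ s₃, Der P Γ A (.srt s₁) ∧ Der P (A :: Γ) B (.srt s₂) ∧
      P.rule s₁ s₂ s₃ ∧ Der P Γ (.pi A B) (.srt s₃) := by
  rcases h.correct hΓ with ⟨s, hs⟩ | ⟨s, hs⟩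
  · simp at hs
  · obtain ⟨s₁, s₂, s₃, hA, hB, hr, _⟩ := hs.gen_pi
    exact ⟨s₁, s₂, s₃, hA, hB, hr, .prod hA hB hr⟩

/-- Subject reduction for one step. -/
theorem Der.step {Γ : List (Tm S)} {M M' T : Tm S} (h : Der P Γ M T) (hΓ : Wf P Γ)
    (hs : Step M M') : Der P Γ M' T := by
  induction h generalizing M' with
  | axiom_ => cases hs
  | var => cases hs
  | prod hA hB hr ihA ihB =>
    cases hs with
    | piL _ hs => exact .prod (ihA hΓ hs) (hB.convHead hA (BConv.of_step hs).symm) hr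
    | piR _ hs => exact .prod hA (ihB (hΓ.cons hA) hs) hr
  | abs hA hM hP ihA ihM ihP =>
    cases hs with
    | lamL _ hs =>
      exact .conv (.abs (ihA hΓ hs) (hM.convHead hA (BConv.of_step hs).symm)
        (ihP hΓ (.piL _ hs))) hP (BConv.of_step (.piL _ hs)).symm
    | lamR _ hs => exact .abs hA (ihM (hΓ.cons hA) hs) hP
  | @appl Γ f a A B hM hN ihM ihN =>
    obtain ⟨s₁, s₂, s₃, hA, hB, _, _⟩ := hM.pi_type hΓ
    cases hs with
    | appL _ hs => exact .appl (ihM hΓ hs) hN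
    | appR _ hs =>
      exact .conv (.appl hM (ihN hΓ hs)) (hB.inst hN) (BConv.inst_right B (BConv.of_step hs).symm)
    | beta A' b _ =>
      obtain ⟨s₁', B', s, hA', hb, hp, hc⟩ := hM.gen_lam
      obtain ⟨hAA, hBB⟩ := bconv_pi_inj hc
      have hN' : Der P Γ a A' := .conv hN hA' hAA.symm
      exact .conv (hb.inst hN') (hB.inst hN) (hBB.sub _)
  | conv _ hB hc ihM _ => exact .conv (ihM hΓ hs) hB hc

/-- Subject reduction. -/
theorem Der.red {Γ : List (Tm S)} {M M' T : Tm S} (h : Der P Γ M T) (hΓ : Wf P Γ)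
    (hr : Red M M') : Der P Γ M' T := by
  induction hr with
  | refl => exact h
  | tail _ hs ih => exact ih.step hΓ hs

end Vale.Agent.P340
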