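import Vale.Agent.P340.Untyped
import Vale.Agent.P340.Algebra

/-!
# The algebra of renaming and substitution on skeletons
-/

namespace Vale.Agent.P340.U

@[simp] theorem up_zero (σ : ℕ → U) : up σ 0 = .var 0 := rfl

@[simp] theorem up_succ (σ : ℕ → U) (n : ℕ) : up σ (n + 1) = (σ n).ren Nat.succ := rfl

@[simp] theorem sub0_zero (a : U) : sub0 a 0 = a := rfl

@[simp] theorem sub0_succ (a : U) (n : ℕ) : sub0 a (n + 1) = .var n := rfl

@[simp] theorem ren_var (ξ : ℕ → ℕ) (n : ℕ) : (U.var n).ren ξ = .var (ξ n) := rfl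

@[simp] theorem ren_cst (ξ : ℕ → ℕ) : U.cst.ren ξ = .cst := rfl

@[simp] theorem ren_lam (ξ : ℕ → ℕ) (b : U) : (U.lam b).ren ξ = .lam (b.ren (upr ξ)) := rfl

@[simp] theorem ren_tlam (ξ : ℕ → ℕ) (b : U) : (U.tlam b).ren ξ = .tlam (b.ren (upr ξ)) := rfl

@[simp] theorem ren_app (ξ : ℕ → ℕ) (f a : U) :
    (U.app f a).ren ξ = .app (f.ren ξ) (a.ren ξ) := rfl

@[simp] theorem ren_tapp (ξ : ℕ → ℕ) (f : U) : (U.tapp f).ren ξ = .tapp (f.ren ξ) := rfl

@[simp] theorem ren_upi (ξ : ℕ → ℕ) (a b : U) :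
    (U.upi a b).ren ξ = .upi (a.ren ξ) (b.ren (upr ξ)) := rfl

@[simp] theorem sub_var (σ : ℕ → U) (n : ℕ) : (U.var n).sub σ = σ n := rfl

@[simp] theorem sub_cst (σ : ℕ → U) : U.cst.sub σ = .cst := rfl

@[simp] theorem sub_lam (σ : ℕ → U) (b : U) : (U.lam b).sub σ = .lam (b.sub (up σ)) := rfl

@[simp] theorem sub_tlam (σ : ℕ → U) (b : U) : (U.tlam b).sub σ = .tlam (b.sub (up σ)) := rfl

@[simp] theorem sub_app (σ : ℕ → U) (f a : U) :
    (U.app f a).sub σ = .app (f.sub σ) (a.sub σ) := rfl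

@[simp] theorem sub_tapp (σ : ℕ → U) (f : U) : (U.tapp f).sub σ = .tapp (f.sub σ) := rfl

@[simp] theorem sub_upi (σ : ℕ → U) (a b : U) :
    (U.upi a b).sub σ = .upi (a.sub σ) (b.sub (up σ)) := rfl

@[simp] theorem ren_ren (M : U) : ∀ ξ ζ : ℕ → ℕ, (M.ren ξ).ren ζ = M.ren (ζ ∘ ξ) := by
  induction M <;> intros <;> simp [upr_comp, *]

@[simp] theorem ren_id (M : U) : M.ren id = M := by
  induction M <;> simp [*]

@[simp] theorem ren_id' (M : U) : M.ren (fun n => n) = M := ren_id M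

theorem sub_congr (M : U) {σ τ : ℕ → U} (h : ∀ n, σ n = τ n) : M.sub σ = M.sub τ := by
  rw [funext h]

theorem up_comp_upr (σ : ℕ → U) (ξ : ℕ → ℕ) : up σ ∘ upr ξ = up (σ ∘ ξ) := by
  funext n; cases n <;> rfl

theorem ren_comp_up (σ : ℕ → U) (ζ : ℕ → ℕ) :
    (fun n => (up σ n).ren (upr ζ)) = up (fun n => (σ n).ren ζ) := by
  funext n; cases n <;> simp

@[simp] theorem up_var : up U.var = U.var := by
  funext n; cases n <;> rfl

@[simp] theorem sub_ren (M : U) :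
    ∀ (σ : ℕ → U) (ξ : ℕ → ℕ), (M.ren ξ).sub σ = M.sub (σ ∘ ξ) := by
  induction M <;> intros <;> simp [up_comp_upr, *]

theorem ren_sub (M : U) :
    ∀ (σ : ℕ → U) (ζ : ℕ → ℕ), (M.sub σ).ren ζ = M.sub (fun n => (σ n).ren ζ) := by
  induction M <;> intros <;> simp [ren_comp_up, *]

theorem sub_comp_up (σ τ : ℕ → U) :
    (fun n => (up σ n).sub (up τ)) = up (fun n => (σ n).sub τ) := by
  funext n
  cases n with
  | zero => rfl
  | succ n => simp [ren_sub, Function.comp_def]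

theorem sub_sub (M : U) : ∀ σ τ : ℕ → U, (M.sub σ).sub τ = M.sub (fun n => (σ n).sub τ) := by
  induction M <;> intros <;> simp [sub_comp_up, *]

@[simp] theorem sub_id (M : U) : M.sub U.var = M := by
  induction M <;> simp [*]

@[simp] theorem sub_id' (M : U) : M.sub (fun n => .var n) = M := sub_id M

theorem ren_eq_sub (M : U) (ξ : ℕ → ℕ) : M.ren ξ = M.sub (fun n => .var (ξ n)) := by
  conv_lhs => rw [← M.sub_id, ren_sub]
  rfl

theorem ren_inst (b a : U) (ξ : ℕ → ℕ) :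
    (b.inst a).ren ξ = (b.ren (upr ξ)).inst (a.ren ξ) := by
  rw [inst, inst, ren_sub, sub_ren]
  exact sub_congr b fun n => by cases n <;> rfl

theorem sub_inst (b a : U) (σ : ℕ → U) :
    (b.inst a).sub σ = (b.sub (up σ)).inst (a.sub σ) := by
  rw [inst, inst, sub_sub, sub_sub]
  refine sub_congr b fun n => ?_
  cases n with
  | zero => rfl
  | succ n => simp [Function.comp_def]

@[simp] theorem inst_ren_succ (M a : U) : (M.ren Nat.succ).inst a = M := by
  rw [inst, sub_ren]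
  exact sub_id M

theorem ren_succ_sub (M : U) (σ : ℕ → U) :
    (M.ren Nat.succ).sub (up σ) = (M.sub σ).ren Nat.succ := by
  rw [sub_ren, ren_sub]
  rfl

end Vale.Agent.P340.U
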