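import Vale.Agent.P340.Syntax

/-!
# Untyped skeletons

Lambda terms with a second kind of abstraction and application, whose argument is erased, a
constant, and a rigid binary constructor whose second component binds a variable.
-/

namespace Vale.Agent.P340

/-- Skeletons. `tlam` binds an index too; `tapp` instantiates it by the constant. -/
inductive U : Type
  | var (n : ℕ)
  | cst
  | lam (b : U)
  | tlam (b : U)
  | app (f a : U)
  | tapp (f : U)
  | upi (a b : U)

/-- Renaming. -/
def U.ren (ξ : ℕ → ℕ) : U → U
  | .var n => .var (ξ n)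
  | .cst => .cst
  | .lam b => .lam (b.ren (upr ξ))
  | .tlam b => .tlam (b.ren (upr ξ))
  | .app f a => .app (f.ren ξ) (a.ren ξ)
  | .tapp f => .tapp (f.ren ξ)
  | .upi a b => .upi (a.ren ξ) (b.ren (upr ξ))

/-- A substitution pushed under one binder. -/
def U.up (σ : ℕ → U) : ℕ → U
  | 0 => .var 0
  | n + 1 => (σ n).ren Nat.succ

/-- Simultaneous substitution. -/
def U.sub (σ : ℕ → U) : U → U
  | .var n => σ n
  | .cst => .cst
  | .lam b => .lam (b.sub (U.up σ))
  | .tlam b => .tlam (b.sub (U.up σ))
  | .app f a => .app (f.sub σ) (a.sub σ)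
  | .tapp f => .tapp (f.sub σ)
  | .upi a b => .upi (a.sub σ) (b.sub (U.up σ))

/-- The substitution of one term for the variable bound last. -/
def U.sub0 (a : U) : ℕ → U
  | 0 => a
  | n + 1 => .var n

/-- `b` with its last bound variable replaced by `a`. -/
def U.inst (b a : U) : U := b.sub (U.sub0 a)

/-- One step of the skeleton reduction. -/
inductive UStep : U → U → Prop
  | beta (b a) : UStep (.app (.lam b) a) (b.inst a)
  | tbeta (b) : UStep (.tapp (.tlam b)) (b.inst .cst)
  | lam {b b'} : UStep b b' → UStep (.lam b) (.lam b')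
  | tlam {b b'} : UStep b b' → UStep (.tlam b) (.tlam b')
  | appL {f f'} (a) : UStep f f' → UStep (.app f a) (.app f' a)
  | appR (f) {a a'} : UStep a a' → UStep (.app f a) (.app f a')
  | tapp {f f'} : UStep f f' → UStep (.tapp f) (.tapp f')
  | upiL {a a'} (b) : UStep a a' → UStep (.upi a b) (.upi a' b)
  | upiR (a) {b b'} : UStep b b' → UStep (.upi a b) (.upi a b')

/-- No step is possible. -/
def U.Normal (u : U) : Prop := ∀ v, ¬ UStep u v

/-- Strong normalisation of a skeleton. -/
def U.SN (u : U) : Prop := Acc (fun v w => UStep w v) u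

/-- The variable occurs free. -/
def U.Occ : ℕ → U → Prop
  | n, .var m => n = m
  | _, .cst => False
  | n, .lam b => U.Occ (n + 1) b
  | n, .tlam b => U.Occ (n + 1) b
  | n, .app f a => U.Occ n f ∨ U.Occ n a
  | n, .tapp f => U.Occ n f
  | n, .upi a b => U.Occ n a ∨ U.Occ (n + 1) b

/-- Every `lam` uses its variable. -/
def U.Keeping : U → Prop
  | .var _ => True
  | .cst => True
  | .lam b => U.Occ 0 b ∧ U.Keeping b
  | .tlam b => U.Keeping b
  | .app f a => U.Keeping f ∧ U.Keeping a
  | .tapp f => U.Keeping f
  | .upi a b => U.Keeping a ∧ U.Keeping b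

/-- The variable of a `tlam` is not used (it stands for an erased argument). -/
def U.Proper : U → Prop
  | .var _ => True
  | .cst => True
  | .lam b => U.Proper b
  | .tlam b => ¬ U.Occ 0 b ∧ U.Proper b
  | .app f a => U.Proper f ∧ U.Proper a
  | .tapp f => U.Proper f
  | .upi a b => U.Proper a ∧ U.Proper b

/-- Shapes of types, for the levels that are simply typed. -/
inductive Shape : Type
  | atom
  | arr (a b : Shape)
  | all (b : Shape)

/-- Simple typing of skeletons; `G` gives the shape of every variable. -/
inductive UTy : (ℕ → Shape) → U → Shape → Prop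
  | var {G} (n : ℕ) : UTy G (.var n) (G n)
  | cst {G} : UTy G .cst .atom
  | lam {G a b u} : UTy (fun n => n.casesOn a G) u b → UTy G (.lam u) (.arr a b)
  | tlam {G c b u} : UTy (fun n => n.casesOn c G) u b → UTy G (.tlam u) (.all b)
  | app {G a b f u} : UTy G f (.arr a b) → UTy G u a → UTy G (.app f u) b
  | tapp {G b f} : UTy G f (.all b) → UTy G (.tapp f) b
  | upi {G c a b} : UTy G a .atom → UTy (fun n => n.casesOn c G) b .atom → UTy G (.upi a b) .atom

end Vale.Agent.P340
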